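import Crest.Agent.N067.Y.NP0
import Crest.Agent.N067.Y.OM0
import Crest.Agent.N067.Y.Out0

-- ▼ part N067/Y/NP2
section

/-! # Row 67, X5: NP2 (helper46): test with the field `μ(d) ∇d F(y) cut² om`, `μ' = m2 - m1` -/

set_option autoImplicit false

open MeasureTheory Laplacian InnerProductSpace Topology Filter Set Metric
open scoped RealInnerProductSpace Gradient ContDiff

namespace Crest.Agent.N067.Y

open Crest.Agent.R077 NP

variable {n : ℕ}

namespace NP

theorem Psi_cosh (s : ℝ) : Psi s = 1 / Real.cosh (s / Real.sqrt 2) ^ 2 := by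
  have := Real.cosh_pos (s / Real.sqrt 2)
  rw [Psi, Real.tanh_eq_sinh_div_cosh]
  field_simp
  rw [Real.cosh_sq]; ring

theorem Psi_pos (s : ℝ) : 0 < Psi s := by
  have := Real.cosh_pos (s / Real.sqrt 2)
  rw [Psi_cosh]; positivity

theorem Psi_le (s : ℝ) : Psi s ≤ 1 := by unfold Psi; nlinarith [sq_nonneg (Real.tanh (s / √2))]

theorem Psi_anti {s r : ℝ} (h : |s| ≤ |r|) : Psi r ≤ Psi s := by
  have h1 := Real.cosh_pos (s / Real.sqrt 2)
  have h2 : Real.cosh (s / Real.sqrt 2) ≤ Real.cosh (r / Real.sqrt 2) := by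
    rw [Real.cosh_le_cosh, abs_div, abs_div]; gcongr
  rw [Psi_cosh, Psi_cosh]; gcongr

theorem Psi_cont : Continuous Psi := by
  have : Psi = fun s => 1 / Real.cosh (s / Real.sqrt 2) ^ 2 := funext Psi_cosh
  rw [this]
  exact continuous_const.div (by fun_prop) fun s => (pow_pos (Real.cosh_pos _) 2).ne'

theorem Psi_int : Integrable Psi := by
  refine (integrable_inv_one_add_sq.const_mul 2).mono' Psi_cont.aestronglyMeasurable
    (Eventually.of_forall fun s => ?_)
  have h1 : |s / Real.sqrt 2| ≤ |Real.sinh (s / Real.sqrt 2)| := by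
    rw [Real.abs_sinh]; exact Real.self_le_sinh_iff.2 (abs_nonneg _)
  have h2 : s ^ 2 / 2 ≤ Real.sinh (s / Real.sqrt 2) ^ 2 := by
    have := sq_le_sq.2 h1
    rwa [div_pow, sqrt2_sq] at this
  rw [Real.norm_of_nonneg (Psi_pos s).le, Psi_cosh, Real.cosh_sq, ← div_eq_mul_inv,
    div_le_div_iff₀ (by positivity) (by positivity)]
  linarith

theorem Psi_dd {v : EE n → ℝ} (hv : Sol v) (x : EE n) : Psi (dd v x) = psi v x := by
  rw [Psi, ← hv.eq_tanh]; rfl

/-- the primitive of a function with integral zero decays -/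
theorem exists_mu {m : ℝ → ℝ} {M : ℝ} (hm : Continuous m) (hM : 0 ≤ M)
    (hb : ∀ s, |m s| ≤ M * Psi s ^ 8) (h0 : ∫ s, m s = 0) : ∃ μ : ℝ → ℝ, (∀ s, HasDerivAt μ (m s) s) ∧
      ∀ s, |μ s| ≤ M * (∫ r, Psi r) * Psi s ^ 6 := by
  have h8 : ∀ s r, |s| ≤ |r| → ‖m r‖ ≤ M * Psi s ^ 6 * Psi r := fun s r h => by
    have h1 := Psi_pos r
    have h2 : Psi r ^ 8 ≤ Psi s ^ 6 * Psi r := by
      have h3 : Psi r ^ 6 ≤ Psi s ^ 6 := pow_le_pow_left₀ h1.le (Psi_anti h) 6
      calc Psi r ^ 8 = Psi r ^ 6 * Psi r * Psi r := by ring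
        _ ≤ Psi r ^ 6 * Psi r := mul_le_of_le_one_right (by positivity) (Psi_le r)
        _ ≤ _ := mul_le_mul_of_nonneg_right h3 h1.le
    rw [mul_assoc]
    exact (hb r).trans (mul_le_mul_of_nonneg_left h2 hM)
  have hi : Integrable m := (Psi_int.const_mul (M * Psi 0 ^ 6)).mono' hm.aestronglyMeasurable
    (Eventually.of_forall fun r => h8 0 r (by simp))
  have hS : ∀ (s : ℝ) (S : Set ℝ), MeasurableSet S → (∀ r ∈ S, |s| ≤ |r|) →
      |∫ r in S, m r| ≤ M * (∫ r, Psi r) * Psi s ^ 6 := fun s S hS h => by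
    have h1 : ‖∫ r in S, m r‖ ≤ ∫ r in S, M * Psi s ^ 6 * Psi r :=
      norm_integral_le_of_norm_le (Psi_int.const_mul _).integrableOn
        ((ae_restrict_mem hS).mono fun r hr => h8 s r (h r hr))
    have h2 : ∫ r in S, Psi r ≤ ∫ r, Psi r :=
      setIntegral_le_integral Psi_int (Eventually.of_forall fun r => (Psi_pos r).le)
    have h3 := Psi_pos s
    rw [integral_const_mul] at h1
    refine h1.trans ((mul_le_mul_of_nonneg_left h2 (by positivity)).trans_eq (by ring))
  refine ⟨fun s => ∫ r in Iic s, m r, fun s => ?_, fun s => ?_⟩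
  · have e : (fun s => ∫ r in Iic s, m r) = fun s => (∫ r in (0 : ℝ)..s, m r) + ∫ r in Iic 0, m r := by
      funext s
      rw [← intervalIntegral.integral_Iic_sub_Iic hi.integrableOn hi.integrableOn]; ring
    rw [e]
    exact (hm.integral_hasStrictDerivAt 0 s).hasDerivAt.add_const _
  · rcases le_total s 0 with h | h
    · exact hS s _ measurableSet_Iic fun r hr => by
        rw [abs_of_nonpos h, abs_of_nonpos (le_trans hr h)]; exact neg_le_neg hr
    · have e : ∫ r in Iic s, m r = -∫ r in Ioi s, m r := by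
        have := intervalIntegral.integral_Iic_add_Ioi (b := s) hi.integrableOn hi.integrableOn
        linarith
      simp only [e, abs_neg]
      exact hS s _ measurableSet_Ioi fun r hr => by
        rw [abs_of_nonneg h]; exact (le_of_lt hr).trans (le_abs_self _)

theorem alg2 {m μ s v t G E B η R : ℝ} (hs0 : 0 ≤ s) (hs : s ≤ 2) (hv : |v| ≤ 1) (ht0 : 0 ≤ t)
    (ht : t ≤ 2 * η) (hG : 0 ≤ G) (hm : |m| ≤ B) (hμ : |μ| ≤ B) (hE : |E| ≤ 4 * η * G + R) :
    m * G - B * (10 * η * G + R) ≤ m * (1 - t) * G + -μ * E - s * v * t * (-μ * G) := by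
  have hB := (abs_nonneg _).trans hm
  have h1 : |m * (t * G)| ≤ B * (2 * η * G) := by
    rw [abs_mul, abs_of_nonneg (mul_nonneg ht0 hG)]
    exact mul_le_mul hm (mul_le_mul_of_nonneg_right ht hG) (mul_nonneg ht0 hG) hB
  have h2 : |μ * E| ≤ B * (4 * η * G + R) := by
    rw [abs_mul]; exact mul_le_mul hμ hE (abs_nonneg _) hB
  have h3 : |μ * (v * (s * (t * G)))| ≤ B * (2 * (2 * η * G)) := by
    rw [abs_mul, abs_mul, abs_of_nonneg (mul_nonneg hs0 (mul_nonneg ht0 hG))]
    refine mul_le_mul hμ ((mul_le_of_le_one_left (by positivity) hv).trans ?_) (by positivity) hB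
    exact mul_le_mul hs (mul_le_mul_of_nonneg_right ht hG) (mul_nonneg ht0 hG) (by norm_num)
  linarith [(abs_le.1 h1).2, (abs_le.1 h2).2, (abs_le.1 h3).1]

end NP

theorem np2 (hk : HKStmt n) : NP2Stmt n := by
  intro β K M δ h0 h1 hδ
  obtain ⟨Mc, hMc, hcut⟩ := exists_gin_cut hk
  obtain ⟨K', hK1, hKK⟩ : ∃ K' : ℝ, 1 ≤ K' ∧ K ≤ K' := ⟨max K 1, le_max_right _ _, le_max_left _ _⟩
  obtain ⟨M', hM1, hMM⟩ : ∃ M' : ℝ, 1 ≤ M' ∧ M ≤ M' := ⟨max M 1, le_max_right _ _, le_max_left _ _⟩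
  have hI : 0 ≤ ∫ r, Psi r := integral_nonneg fun r => (Psi_pos r).le
  obtain ⟨A, hA, hA1, hA2⟩ : ∃ A : ℝ, 0 < A ∧ 2 * M' ≤ A ∧ 2 * M' * ∫ r, Psi r ≤ A :=
    ⟨2 * M' * ((∫ r, Psi r) + 1), by positivity, by nlinarith, by nlinarith⟩
  obtain ⟨η, hη, hη1, hη2⟩ : ∃ η : ℝ, 0 < η ∧ η ≤ 1 ∧ 100 * A * K' ^ 3 * η ≤ δ :=
    ⟨min 1 (δ / (100 * A * K' ^ 3)), by positivity, min_le_left _ _,
      (le_div_iff₀' (by positivity)).1 (min_le_right _ _)⟩
  refine ⟨min (1 / 8) (η ^ 3), η, by positivity, hη,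
    fun e he he1 => ⟨A * K' ^ 3 * (80 + 16 * Mc), by positivity, ?_⟩⟩
  intro v P om y m1 m2 ε hv hw hy hε hε1 hy0 hyn c1 c2 hm hint
  have hs := hv.toSol
  have he2 : e ≤ 1 / 8 := he1.trans (min_le_left _ _)
  have he3 : e ≤ η ^ 3 := he1.trans (min_le_right _ _)
  have he4 : e ≤ η := he3.trans (pow_le_of_le_one hη.le hη1 (by norm_num))
  have hP8 : ∀ s, M * Psi s ^ 8 ≤ M' * Psi s ^ 8 := fun s => by gcongr
  have hmi : ∀ {m : ℝ → ℝ}, Continuous m → (∀ s, |m s| ≤ M * Psi s ^ 8) → Integrable m :=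
    fun hc h => (Psi_int.const_mul M').mono' hc.aestronglyMeasurable (Eventually.of_forall fun s =>
      ((h s).trans (hP8 s)).trans (mul_le_mul_of_nonneg_left
        (pow_le_of_le_one (Psi_pos s).le (Psi_le s) (by norm_num)) (by linarith)))
  have hm12 : ∀ s, |m2 s - m1 s| ≤ 2 * M' * Psi s ^ 8 := fun s =>
    (abs_sub _ _).trans (by linarith [(hm s).1, (hm s).2, hP8 s])
  obtain ⟨μ, hμ, hμb⟩ := exists_mu (m := fun s => m2 s - m1 s) (c2.sub c1) (by linarith) hm12
    (by rw [integral_sub (hmi c2 fun s => (hm s).2) (hmi c1 fun s => (hm s).1), hint, sub_self])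
  have hμ1 : ContDiff ℝ 1 μ := contDiff_one_iff_deriv.2 ⟨fun s => (hμ s).differentiableAt, by
    rw [show deriv μ = fun s => m2 s - m1 s from funext fun s => (hμ s).deriv]; exact c2.sub c1⟩
  have hψ : ∀ (k : ℕ) x, 0 < psi v x ^ k ∧ psi v x ^ k ≤ 1 := fun k x =>
    ⟨pow_pos (hs.psi_pos x) k, pow_le_one₀ (hs.psi_pos x).le (psi_le_one v x)⟩
  have hμx : ∀ x, |μ (dd v x)| ≤ A * psi v x ^ 6 := fun x => by
    have := hμb (dd v x)
    rw [Psi_dd hs] at this
    exact this.trans (mul_le_mul_of_nonneg_right hA2 (hψ 6 x).1.le)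
  have hy1 : ∀ x, 0 < y x := fun x => (hy0 x).1
  have hy2 : ∀ x, y x ≤ K' * (tt v x + ε) := fun x =>
    (hy0 x).2.trans (mul_le_mul_of_nonneg_right hKK (by linarith [hv.tpos x]))
  have hyK : ∀ x, P.F (y x) ≤ P.F (K' * 2) := fun x => mono P (hy1 x).le ((hy2 x).trans
    (mul_le_mul_of_nonneg_left (by linarith [tt_le_one v x]) (by linarith)))
  have hc := cut_cd hs e
  have hG : ContDiff ℝ 1 fun x => P.F (y x) * (cut e v x ^ 2 * om x) :=
    (cd P hy hy1).mul ((hc.pow 2).mul hw.cd)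
  have hw0 : ∀ x, 0 ≤ cut e v x ^ 2 * om x := fun x => mul_nonneg (sq_nonneg _) (hw.pos x).le
  have hw1 : ∀ x, cut e v x ^ 2 * om x ≤ om x := fun x =>
    mul_le_of_le_one_left (hw.pos x).le ((le_abs_self _).trans (cut_sq_le e v x))
  have hGb : ∀ x, |P.F (y x) * (cut e v x ^ 2 * om x)| ≤ P.F (K' * 2) * om x := fun x => by
    rw [abs_of_nonneg (mul_nonneg (nonneg P (hy1 x).le) (hw0 x))]
    exact mul_le_mul (hyK x) (hw1 x) (hw0 x) ((nonneg P (hy1 x).le).trans (hyK x))
  have im : ∀ {m : ℝ → ℝ}, Continuous m → (∀ s, |m s| ≤ M * Psi s ^ 8) →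
      Integrable fun x => m (dd v x) * P.F (y x) * (cut e v x ^ 2 * om x) := fun {m} hc h => by
    simp only [mul_assoc (m _)]
    refine intw hw ((hc.comp hs.dd_sm.continuous).mul hG.continuous).aestronglyMeasurable
      (M' * P.F (K' * 2)) fun x => ?_
    rw [abs_mul, mul_assoc]
    exact mul_le_mul (((h _).trans (hP8 _)).trans (mul_le_of_le_one_right (by linarith)
      (pow_le_one₀ (Psi_pos _).le (Psi_le _)))) (hGb x) (abs_nonneg _) (by linarith)
  have i1 := im c1 fun s => (hm s).1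
  have i2 := im c2 fun s => (hm s).2
  have i3 := int_TT P hv hw h0
  have i4 := int_BAD P hs hw h0 e
  have i5 : Integrable fun x => psi v x ^ 2 * om x :=
    intb hw (hs.psi_sm.continuous.pow 2) 1 fun x => by rw [abs_of_pos (hψ 2 x).1]; exact (hψ 2 x).2
  have key := int_le hs hw (A := A * P.F (K' * 2)) (a := fun x => -μ (dd v x))
    (hμ1.comp (hs.dd_cd 1)).neg hG
    (fun x => by
      rw [abs_mul, mul_assoc, abs_neg]
      exact mul_le_mul ((hμx x).trans (mul_le_of_le_one_right hA.le (hψ 6 x).2)) (hGb x)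
        (abs_nonneg _) hA.le)
    (((i1.sub i2).sub (i3.const_mul δ)).sub
      ((i4.add (i5.const_mul (P.F ε))).const_mul (A * K' ^ 3 * (80 + 16 * Mc))))
    fun x => ?_
  · rw [integral_sub' ((i1.sub i2).sub (i3.const_mul δ)) ((i4.add (i5.const_mul _)).const_mul _),
      integral_sub' (i1.sub i2) (i3.const_mul δ), integral_sub' i1 i2, integral_const_mul,
      integral_const_mul, integral_add' i4 (i5.const_mul _), integral_const_mul,
      ← BAD_eq P hs] at key
    unfold TT MU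
    linarith
  simp only [Pi.sub_apply, Pi.add_apply]
  have hp := pb_pos hs β x
  have ht := hv.tpos x
  have hT := nonneg P (mul_pos hp ht).le
  have hB := nonneg P hp.le
  have hFε := nonneg P hε.le
  have ho := hw.pos x
  have hi := ind_nonneg e v x
  have hψ2 := (hψ 2 x).1
  have hψ6 := (hψ 6 x).1
  rw [gin_G P hs hw hy hy1]
  rcases le_total (2 * e) (tt v x) with h2 | h2
  · rw [cut_zero he h2]
    have : 0 ≤ δ * (P.F (pb β v x * tt v x) * om x) := by positivity
    have : 0 ≤ A * K' ^ 3 * (80 + 16 * Mc) * (ind e v x * (P.F (pb β v x) * om x) +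
      P.F ε * (psi v x ^ 2 * om x)) := by positivity
    simp only [ne_eq, OfNat.ofNat_ne_zero, not_false_eq_true, zero_pow, zero_mul, mul_zero,
      add_zero, sub_zero]
    linarith
  have hg : |gin (dd v) y x| ≤ 1 * (K' * (tt v x * √(tt v x))) := by
    rw [one_mul]
    exact (hyn x (by linarith)).trans (mul_le_mul_of_nonneg_right hKK (by positivity))
  have hE := abs_gin_G P hs hw hy1 x hη hη1 hg (hcut v e hs he x h2)
  have a0 : psi v x ^ 6 * P.F (tt v x) ≤ P.F (pb β v x * tt v x) := by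
    have b1 := up P (c := (psi v x ^ 2)⁻¹) (y := psi v x ^ 2 * tt v x)
      (one_le_inv_iff₀.2 (hψ 2 x)) (by positivity)
    rw [inv_mul_cancel_left₀ hψ2.ne'] at b1
    have b2 := mono P (x := psi v x ^ 2 * tt v x) (by positivity)
      (mul_le_mul_of_nonneg_right (sq_le_pb hs h1 x) ht.le)
    refine (mul_le_mul_of_nonneg_left b1 hψ6.le).trans (le_of_eq_of_le ?_ b2)
    have := (hs.psi_pos x).ne'
    field_simp
  have a1 : psi v x ^ 6 * P.F (y x) ≤
      8 * K' ^ 3 * (P.F (pb β v x * tt v x) + P.F ε * psi v x ^ 2) := by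
    have b1 := (mono P (hy1 x).le (hy2 x)).trans (up P hK1 (by positivity))
    have b2 := mul_le_mul_of_nonneg_left (add_le P ht.le hε.le) (by positivity : 0 ≤ K' ^ 3)
    have b3 : psi v x ^ 6 ≤ psi v x ^ 2 :=
      pow_le_pow_of_le_one (hs.psi_pos x).le (psi_le_one v x) (by norm_num)
    have b4 := mul_le_mul_of_nonneg_left b3 hFε
    calc psi v x ^ 6 * P.F (y x) ≤ psi v x ^ 6 * (K' ^ 3 * (8 * (P.F (tt v x) + P.F ε))) :=
          mul_le_mul_of_nonneg_left (b1.trans b2) hψ6.le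
      _ = 8 * K' ^ 3 * (psi v x ^ 6 * P.F (tt v x) + P.F ε * psi v x ^ 6) := by ring
      _ ≤ _ := by gcongr
  have a2 : psi v x ^ 6 * (3 / η ^ 2 * P.F (1 * (K' * (tt v x * √(tt v x))))) ≤
      6 * η * K' ^ 3 * P.F (pb β v x * tt v x) := by
    have b1 := F_sqrt P zero_le_one hK1 ht.le (tt_le_one v x)
    have b0 := nonneg P ht.le
    rw [one_mul (tt v x)] at b1
    calc _ ≤ psi v x ^ 6 * (3 / η ^ 2 * (K' ^ 3 * (2 * η ^ 3 * P.F (tt v x)))) := by
          gcongr
          exact b1.trans (by gcongr; linarith)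
      _ = 6 * η * K' ^ 3 * (psi v x ^ 6 * P.F (tt v x)) := by field_simp; ring
      _ ≤ _ := by gcongr
  have a3 : ind e v x * P.F (pb β v x * tt v x) ≤ ind e v x * P.F (pb β v x) :=
    mul_le_mul_of_nonneg_left (mono P (by positivity)
      (mul_le_of_le_one_right hp.le (tt_le_one v x))) hi
  have a4 : ind e v x ≤ 1 := by unfold ind; split_ifs <;> norm_num
  have hmx : |m1 (dd v x) - m2 (dd v x)| ≤ A * psi v x ^ 6 := by
    have := hm12 (dd v x)
    rw [Psi_dd hs] at this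
    rw [abs_sub_comm]
    exact this.trans (mul_le_mul hA1 (pow_le_pow_of_le_one (hs.psi_pos x).le (psi_le_one v x)
      (by norm_num)) (hψ 8 x).1.le hA.le)
  have a6 := alg2 (s := Real.sqrt 2) (η := η) (G := P.F (y x) * (cut e v x ^ 2 * om x))
    (R := 3 / η ^ 2 * (P.F (1 * (K' * (tt v x * √(tt v x)))) * (cut e v x ^ 2 * om x)) +
      2 * Mc * (ind e v x * (P.F (y x) * om x)))
    (Real.sqrt_nonneg 2) (Real.sqrt_le_iff.2 (by norm_num)) (hs.lt x).le ht.le (by linarith)
    (mul_nonneg (nonneg P (hy1 x).le) (hw0 x)) hmx (hμx x) (hE.trans_eq (by ring))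
  have g1 : gin (dd v) (fun x => -μ (dd v x)) x = (m1 (dd v x) - m2 (dd v x)) * (1 - tt v x) := by
    rw [gin_comp_right (φ := fun s => -μ s) (hμ _).neg (hs.dd_diff x), gin_self, tt_eq]; ring
  rw [g1]
  refine le_trans ?_ a6
  have d1 : psi v x ^ 6 * P.F (y x) * (cut e v x ^ 2 * om x) ≤
      8 * K' ^ 3 * (P.F (pb β v x * tt v x) + P.F ε * psi v x ^ 2) * om x :=
    mul_le_mul a1 (hw1 x) (hw0 x) (by positivity)
  have d2 : psi v x ^ 6 * (3 / η ^ 2 * P.F (1 * (K' * (tt v x * √(tt v x))))) *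
      (cut e v x ^ 2 * om x) ≤ 6 * η * K' ^ 3 * P.F (pb β v x * tt v x) * om x :=
    mul_le_mul a2 (hw1 x) (hw0 x) (by positivity)
  have d3 : ind e v x * (psi v x ^ 6 * P.F (y x)) ≤
      8 * K' ^ 3 * (ind e v x * P.F (pb β v x) + P.F ε * psi v x ^ 2) := by
    have := mul_le_of_le_one_left (by positivity : 0 ≤ P.F ε * psi v x ^ 2) a4
    calc _ ≤ ind e v x * (8 * K' ^ 3 * (P.F (pb β v x * tt v x) + P.F ε * psi v x ^ 2)) :=
          mul_le_mul_of_nonneg_left a1 hi
      _ = 8 * K' ^ 3 * (ind e v x * P.F (pb β v x * tt v x) +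
          ind e v x * (P.F ε * psi v x ^ 2)) := by ring
      _ ≤ _ := by gcongr
  have f1 := mul_le_mul_of_nonneg_left d1 (by positivity : 0 ≤ 10 * η * A)
  have f2 := mul_le_mul_of_nonneg_left d2 hA.le
  have f3 := mul_le_mul_of_nonneg_left d3 (by positivity : 0 ≤ 2 * Mc * A * om x)
  have f4 := mul_le_mul_of_nonneg_right hη2 (mul_nonneg hT ho.le)
  have f5 := mul_le_mul_of_nonneg_right hη1
    (by positivity : 0 ≤ A * K' ^ 3 * (P.F ε * (psi v x ^ 2 * om x)))
  have f6 : 0 ≤ A * K' ^ 3 * η * (P.F (pb β v x * tt v x) * om x) := by positivity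
  have f7 : 0 ≤ A * K' ^ 3 * (ind e v x * (P.F (pb β v x) * om x)) := by positivity
  linarith

end Crest.Agent.N067.Y
end

-- ▼ part N067/Y/OM1
section

/-!
# Row 67, block X5 (helper62): the subsolution `u = √(|Ω|² + η² t²)` and the weight `V`
-/

set_option autoImplicit false

open MeasureTheory Laplacian InnerProductSpace Topology Filter Set
open scoped RealInnerProductSpace Gradient ContDiff

namespace Crest.Agent.N067.Y.Om

open Crest.Agent.R077

noncomputable section

variable {n : ℕ} {v : EE n → ℝ}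

/-- `|Ω|²` -/
def SO (v : EE n → ℝ) (x : EE n) : ℝ := ∑ p : Fin n × Fin n, wg v (tt v) p.1 p.2 x ^ 2

/-- `|∇Ω|²` -/
def SD (v : EE n → ℝ) (x : EE n) : ℝ := ∑ p : Fin n × Fin n, gsq (wg v (tt v) p.1 p.2) x

theorem os_eq (v : EE n → ℝ) (x : EE n) : os v x = SO v x + SD v x := by
  simp only [os, SO, SD, Fintype.sum_prod_type, Finset.sum_add_distrib]

theorem SO_nonneg (v : EE n → ℝ) (x : EE n) : 0 ≤ SO v x := by unfold SO; positivity


theorem o_SO (hk : HKStmt n) : Ord 4 fun v : EE n → ℝ => SO v :=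
  Ord.usum fun p : Fin n × Fin n => (o_wg hk hk.t2 p.1 p.2).sq

theorem o_SD (hk : HKStmt n) : Ord 4 fun v : EE n → ℝ => SD v :=
  Ord.usum fun p : Fin n × Fin n => (o_wg hk hk.t2 p.1 p.2).gsq

/-- the subsolution -/
theorem exists_u (hk : HKStmt n) : ∃ K : ℝ, 1 ≤ K ∧ ∀ (v : EE n → ℝ) (η ε : ℝ), Pos v → 0 < η →
    η ≤ 1 → ∃ u : EE n → ℝ, ContDiff ℝ ∞ u ∧ ∀ x, 0 < u x ∧ u x ≤ K ∧ ‖∇ u x‖ ≤ K ∧
      SO v x ≤ u x ^ 2 ∧
      -Lm v u x + 2 * psi v x * u x ≤ K * yb v ε x + K * (√(tt v x) + η) * tt v x := by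
  obtain ⟨C1, h1, b1⟩ := (o_SO hk).bd0
  obtain ⟨C2, h2, b2⟩ := (o_SD hk).bd0
  obtain ⟨C3, h3, b3⟩ := hk.t2.gsq.bd0
  obtain ⟨C4, h4, b4⟩ := ubd3 (ι := Fin n × Fin n) fun p => o_RR hk p.1 p.2
  obtain ⟨C5, h5, b5⟩ := (o_b hk).bd2
  have hn : (0 : ℝ) ≤ 4 * (n * n) := by positivity
  refine ⟨2 + C1 + C2 + C3 + C4 + 2 * C5 + 4 * (n * n), by linarith, fun v η ε hv h0 hη => ?_⟩
  set K : ℝ := 2 + C1 + C2 + C3 + C4 + 2 * C5 + 4 * (n * n) with hK
  have hS := hv.toSol
  let U : Option (Fin n × Fin n) → EE n → ℝ := fun k =>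
    k.elim (fun x => η * tt v x) fun p => wg v (tt v) p.1 p.2
  have hU : ∀ k, ContDiff ℝ ∞ (U k) := fun k => by
    cases k with
    | none => exact contDiff_const.mul hS.tt_sm
    | some p => exact (o_wg hk hk.t2 p.1 p.2).sm hS
  have e1 : ∀ x, ∑ k, U k x ^ 2 = (η * tt v x) ^ 2 + SO v x := fun x => Fintype.sum_option _
  have hp : ∀ x, 0 < ∑ k, U k x ^ 2 := fun x => by
    have := hv.tpos x
    have := SO_nonneg v x
    rw [e1]; positivity
  obtain ⟨u, hud⟩ : ∃ u : EE n → ℝ, u = fun x => √(∑ k, U k x ^ 2) := ⟨_, rfl⟩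
  obtain ⟨hs, hu⟩ := kato (v := v) hU hp hud
  refine ⟨u, hs, fun x => ?_⟩
  obtain ⟨u0, u1, u2, u3⟩ := hu x
  have ht := hv.tpos x
  have ht1 := tt_le_one v x
  have e2 : u x ^ 2 = (η * tt v x) ^ 2 + SO v x := by
    rw [← e1, hud]; exact Real.sq_sqrt (hp x).le
  have hK1 : K ≤ K ^ 2 := by nlinarith
  have hηt : η * tt v x ≤ 1 := by nlinarith
  refine ⟨u0, ?_, ?_, by nlinarith [sq_nonneg (η * tt v x)], ?_⟩
  · refine (abs_le_of_sq_le_sq' ?_ (by linarith)).2
    have := (le_abs_self _).trans (b1 v hS x)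
    have : (η * tt v x) ^ 2 ≤ 1 := pow_le_one₀ (by positivity) hηt
    linarith
  · refine (abs_le_of_sq_le_sq' ?_ (by linarith)).2
    rw [← gsq_eq]
    rw [Fintype.sum_option] at u2
    have e3 : gsq (U none) x = η ^ 2 * gsq (tt v) x := by
      simp only [U, Option.elim, gsq, pdv_const_mul (df hS.tt_sm x), mul_pow, Finset.mul_sum]
    have := (le_abs_self _).trans (b2 v hS x)
    have := (le_abs_self _).trans (b3 v hS x)
    have : η ^ 2 * gsq (tt v) x ≤ gsq (tt v) x :=
      mul_le_of_le_one_left (gsq_nonneg _ _) (pow_le_one₀ h0.le hη)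
    change gsq u x ≤ gsq (U none) x + SD v x at u2
    linarith
  · have h := u3 (2 * psi v x)
    rw [Fintype.sum_option] at h
    have hy : 0 ≤ yb v ε x := Real.sqrt_nonneg _
    have hst : 0 ≤ √(tt v x) := Real.sqrt_nonneg _
    have f1 : U none x * (-Lm v (U none) x + 2 * psi v x * U none x) ≤
        u x * ((2 + 2 * C5) * η * tt v x) := by
      have e3 : Lm v (U none) x = η * Lm v (tt v) x := lm_cmul (c2 hS.tt_sm x) η
      have e4 : U none x = η * tt v x := rfl
      have g1 : U none x ≤ u x := (le_abs_self _).trans (u1 none)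
      have g2 := hS.Lm_tt x
      have g3 := (le_abs_self _).trans (b5 v hS x)
      have g4 := hsq_nonneg (dd v) x
      have g5 := hS.psi_pos x
      have g6 := psi_le_one v x
      have e5 : -Lm v (U none) x + 2 * psi v x * U none x =
          η * (2 * (psi v x * tt v x) * tt v x + 2 * hsq (dd v) x) := by
        rw [e3, e4, show Lm v (tt v) x = 2 * (qq v x * (1 - tt v x) - hsq (dd v) x) by linarith,
          qq]
        ring
      rw [e5]
      refine mul_le_mul g1 ?_ (by positivity) u0.le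
      have g7 : psi v x * tt v x ≤ 1 := by nlinarith
      have g8 : 2 * (psi v x * tt v x) * tt v x + 2 * hsq (dd v) x ≤ (2 + 2 * C5) * tt v x := by
        nlinarith
      calc _ ≤ η * ((2 + 2 * C5) * tt v x) := mul_le_mul_of_nonneg_left g8 h0.le
        _ = _ := by ring
    have f2 : ∑ p : Fin n × Fin n, U (some p) x *
        (-Lm v (U (some p)) x + 2 * psi v x * U (some p) x) ≤
        u x * (4 * (n * n) * yb v ε x + C4 * (tt v x * √(tt v x))) := by
      calc _ ≤ ∑ p : Fin n × Fin n, u x * (4 * yb v ε x + |RR p.1 p.2 v x|) := by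
            refine Finset.sum_le_sum fun p _ => (le_abs_self _).trans ?_
            rw [abs_mul]
            refine mul_le_mul (u1 (some p)) ?_ (abs_nonneg _) u0.le
            have e3 : -Lm v (U (some p)) x + 2 * psi v x * U (some p) x =
                2 * wg v (hsq (dd v)) p.1 p.2 x + RR p.1 p.2 v x := by
              simp only [RR, U, Option.elim]; ring
            have := abs_wg_le v ε p.1 p.2 x
            rw [e3]
            refine (abs_add_le _ _).trans ?_
            rw [abs_mul, abs_two]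
            linarith
        _ ≤ _ := by
            rw [← Finset.mul_sum, Finset.sum_add_distrib]
            refine mul_le_mul_of_nonneg_left (add_le_add (le_of_eq ?_) (b4 v hS x)) u0.le
            simp only [Finset.sum_const, Finset.card_univ, Fintype.card_prod, Fintype.card_fin,
              nsmul_eq_mul, Nat.cast_mul]
            ring
    refine le_of_mul_le_mul_left (h.trans ((add_le_add f1 f2).trans ?_)) u0
    rw [← mul_add]
    refine mul_le_mul_of_nonneg_left ?_ u0.le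
    have k1 : 4 * (n * n) * yb v ε x ≤ K * yb v ε x := by gcongr; linarith
    have k2 : C4 * (tt v x * √(tt v x)) ≤ K * (tt v x * √(tt v x)) := by gcongr; linarith
    have k3 : (2 + 2 * C5) * η * tt v x ≤ K * η * tt v x := by gcongr; linarith
    linarith

/-- the pointwise Caccioppoli inequality for a log-Lipschitz weight -/
theorem cacc (hk : HKStmt n) : ∃ C : ℝ, 0 ≤ C ∧ ∀ (v V : EE n → ℝ) (L σ : ℝ), Sol v →
    ContDiff ℝ 1 V → 0 < σ → ∀ x, 0 ≤ V x → gsq V x ≤ L * V x ^ 2 →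
      V x * (SD v x - (L + 1 / σ) * SO v x - σ * C * tt v x ^ 2) ≤
        ∑ l, pdv l (fun y => V y * pdv l (SO v) y) x := by
  obtain ⟨C, h0, b⟩ := (Ord.usum fun p : Fin n × Fin n => (o_wg hk hk.t2 p.1 p.2).lap.sq).bd4
  refine ⟨C, h0, fun v V L σ hv hV hσ x V0 hL => ?_⟩
  have sw := fun p : Fin n × Fin n => (o_wg hk hk.t2 p.1 p.2).sm hv
  have sS := (o_SO hk).sm hv
  have dV : DifferentiableAt ℝ V x := hV.differentiable (by simp) x
  have e1 : ∑ l, pdv l (fun y => V y * pdv l (SO v) y) x =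
      gin V (SO v) x + V x * (Δ (SO v)) x := by
    rw [lap_eq (c2 sS x), gin, Finset.mul_sum, ← Finset.sum_add_distrib]
    exact Finset.sum_congr rfl fun l _ => pdv_mul dV (df (sm_pdv sS l) x) l
  have e2 : gin V (SO v) x = ∑ p : Fin n × Fin n,
      2 * wg v (tt v) p.1 p.2 x * gin V (wg v (tt v) p.1 p.2) x := by
    change gin V (fun y => ∑ p : Fin n × Fin n, wg v (tt v) p.1 p.2 y ^ 2) x = _
    rw [gin_sum _ fun p _ => (df (sw p) x).fun_pow 2]
    exact Finset.sum_congr rfl fun p _ => gin_sq (df (sw p) x)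
  have e3 : (Δ (SO v)) x = ∑ p : Fin n × Fin n, (2 * wg v (tt v) p.1 p.2 x *
      (Δ (wg v (tt v) p.1 p.2)) x + 2 * gsq (wg v (tt v) p.1 p.2) x) := by
    change (Δ fun y => ∑ p : Fin n × Fin n, wg v (tt v) p.1 p.2 y ^ 2) x = _
    rw [lap_sum _ fun p _ => (c2 (sw p) x).pow 2]
    exact Finset.sum_congr rfl fun p _ => lap_sq (c2 (sw p) x)
  have b1 := (le_abs_self _).trans (b v hv x)
  have key : ∀ p : Fin n × Fin n, V x * (gsq (wg v (tt v) p.1 p.2) x -
      (L + 1 / σ) * wg v (tt v) p.1 p.2 x ^ 2 - σ * (Δ (wg v (tt v) p.1 p.2)) x ^ 2) ≤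
      2 * wg v (tt v) p.1 p.2 x * gin V (wg v (tt v) p.1 p.2) x +
        V x * (2 * wg v (tt v) p.1 p.2 x * (Δ (wg v (tt v) p.1 p.2)) x +
          2 * gsq (wg v (tt v) p.1 p.2) x) := fun p => by
    have c1 := gin_sq_le V (wg v (tt v) p.1 p.2) x
    have c0 := gsq_nonneg (wg v (tt v) p.1 p.2) x
    have cV := gsq_nonneg V x
    generalize wg v (tt v) p.1 p.2 x = w, gin V (wg v (tt v) p.1 p.2) x = g,
      gsq (wg v (tt v) p.1 p.2) x = D, (Δ (wg v (tt v) p.1 p.2)) x = l at *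
    have c2 : 0 ≤ 1 / σ * w ^ 2 + σ * l ^ 2 + 2 * w * l := by
      have : 1 / σ * w ^ 2 + σ * l ^ 2 + 2 * w * l = (w + σ * l) ^ 2 / σ := by field_simp; ring
      rw [this]; positivity
    have c3 : -(V x * D + L * V x * w ^ 2) ≤ 2 * w * g := by
      have hA : 0 ≤ V x * D := mul_nonneg V0 c0
      have hB : 0 ≤ L * V x * w ^ 2 := by
        rcases V0.eq_or_lt with h | h
        · rw [← h]; simp
        · have : 0 ≤ L := by
            by_contra hneg
            have := mul_neg_of_neg_of_pos (not_le.1 hneg) (pow_pos h 2)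
            linarith
          positivity
      have c4 : (2 * w * g) ^ 2 ≤ (V x * D + L * V x * w ^ 2) ^ 2 := by
        have c5 : g ^ 2 ≤ L * V x ^ 2 * D := c1.trans (mul_le_mul_of_nonneg_right hL c0)
        nlinarith [mul_le_mul_of_nonneg_left c5 (sq_nonneg w),
          sq_nonneg (V x * D - L * V x * w ^ 2)]
      exact (abs_le_of_sq_le_sq' c4 (by linarith)).1
    nlinarith [mul_nonneg V0 c2]
  have k2 := Finset.sum_le_sum fun p (_ : p ∈ Finset.univ) => key p
  rw [Finset.sum_add_distrib, ← Finset.mul_sum, ← Finset.mul_sum, Finset.sum_sub_distrib,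
    Finset.sum_sub_distrib, ← Finset.mul_sum, ← Finset.mul_sum, ← e2, ← e3] at k2
  rw [e1]
  refine le_trans (mul_le_mul_of_nonneg_left ?_ V0) k2
  have := mul_le_mul_of_nonneg_left b1 hσ.le
  change SD v x - (L + 1 / σ) * SO v x - _ ≤ SD v x - (L + 1 / σ) * SO v x - _
  linarith

end

end Crest.Agent.N067.Y.Om
end

-- ▼ part N067/Y/Out

/-!
# Row 67, block X5, OUT (helper19): the Hessian away from the ridges
-/

set_option autoImplicit false

open MeasureTheory Laplacian InnerProductSpace Topology Filter Set Metric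
open scoped RealInnerProductSpace Gradient ContDiff Convolution

namespace Crest.Agent.N067.Y

open Crest.Agent.R077

noncomputable section

variable {n : ℕ}

namespace Ou

/-! ### profiles -/

theorem F_nonneg (P : Prof) {y : ℝ} (h : 0 ≤ y) : 0 ≤ P.F y :=
  h.eq_or_lt.elim (fun e => e ▸ P.zero.ge) fun h => (P.pos y h).le

theorem F_diff (P : Prof) {y : ℝ} (h : 0 < y) : DifferentiableAt ℝ P.F y :=
  (P.sm.contDiffAt (Ioi_mem_nhds h)).differentiableAt (by simp)

theorem F_mono (P : Prof) {y z : ℝ} (h : 0 ≤ y) (hz : y ≤ z) : P.F y ≤ P.F z := by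
  rcases h.eq_or_lt with rfl | h
  · rw [P.zero]; exact F_nonneg P hz
  refine monotoneOn_of_deriv_nonneg (convex_Ioi 0) P.sm.continuousOn
    (fun x hx => (F_diff P (interior_subset hx)).differentiableWithinAt) (fun x hx => ?_) h
    (h.trans_le hz) hz
  have h1 : 0 < x := interior_subset hx
  exact le_of_mul_le_mul_left (by linarith [P.lo x h1, P.pos x h1]) h1

theorem F_anti (P : Prof) {y z : ℝ} (h : 0 < y) (hz : y ≤ z) :
    P.F z ^ 2 / z ^ 5 ≤ P.F y ^ 2 / y ^ 5 := by
  have hd : ∀ x, 0 < x → HasDerivAt (fun x => P.F x ^ 2 / x ^ 5)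
      (P.F x * (2 * (x * deriv P.F x) - 5 * P.F x) / x ^ 6) x := fun x hx =>
    (((F_diff P hx).hasDerivAt.fun_pow 2).fun_div (hasDerivAt_pow 5 x) (by positivity)).congr_deriv
      (by norm_num; field_simp)
  refine antitoneOn_of_deriv_nonpos (f := fun x => P.F x ^ 2 / x ^ 5) (convex_Ioi 0)
    (fun x hx => (hd x hx).continuousAt.continuousWithinAt)
    (fun x hx => (hd x (interior_subset hx)).differentiableAt.differentiableWithinAt)
    (fun x hx => ?_) h (h.trans_le hz) hz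
  have h1 : 0 < x := interior_subset hx
  rw [(hd x h1).deriv]
  exact div_nonpos_of_nonpos_of_nonneg (mul_nonpos_of_nonneg_of_nonpos (P.pos x h1).le
    (by linarith [P.hi x h1])) (by positivity)

theorem F_dn (P : Prof) {q y : ℝ} (h0 : 0 < q) (h1 : q ≤ 1) (h : 0 ≤ y) :
    q ^ 5 * P.F y ≤ P.F (q ^ 2 * y) := by
  rcases h.eq_or_lt with rfl | h
  · simp [P.zero]
  have h2 := F_anti P (show 0 < q ^ 2 * y by positivity)
    (mul_le_of_le_one_left h.le (pow_le_one₀ h0.le h1))
  rw [div_le_div_iff₀ (by positivity) (by positivity)] at h2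
  refine (pow_le_pow_iff_left₀ (mul_nonneg (by positivity) (P.pos y h).le)
    (F_nonneg P (by positivity)) two_ne_zero).1 (le_of_mul_le_mul_right ?_ (pow_pos h 5))
  linarith

theorem F_up (P : Prof) {M y z : ℝ} (h1 : 1 ≤ M) (h : 0 ≤ y) (hz : 0 ≤ z) (hyz : y ≤ M * z) :
    P.F y ≤ M ^ 5 * P.F z := by
  have M0 : 0 < M := by linarith
  have h2 := F_dn P (inv_pos.2 M0) (inv_le_one_of_one_le₀ h1) h
  have h3 : M⁻¹ ^ 2 * y ≤ z := by
    rw [inv_pow, inv_mul_le_iff₀ (by positivity)]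
    exact hyz.trans (mul_le_mul_of_nonneg_right (le_self_pow₀ h1 two_ne_zero) hz)
  rw [inv_pow, inv_mul_le_iff₀ (by positivity)] at h2
  exact h2.trans (mul_le_mul_of_nonneg_left (F_mono P (by positivity) h3) (by positivity))

theorem F_add (P : Prof) {y a b : ℝ} (h : 0 ≤ y) (ha : 0 ≤ a) (hb : 0 ≤ b) (hy : y ≤ a + b) :
    P.F y ≤ 32 * P.F a + 32 * P.F b := by
  have := F_nonneg P ha
  have := F_nonneg P hb
  rcases le_total a b with l | l
  · linarith [F_up P one_le_two h hb (by linarith)]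
  · linarith [F_up P one_le_two h ha (by linarith)]

/-! ### weights, kernel -/

theorem om_le {om : EE n → ℝ} (h : Wt 1 om) (x u : EE n) : om x ≤ Real.exp ‖x - u‖ * om u := by
  have hd := h.cd.differentiable (by norm_num)
  have h1 := convex_univ.norm_image_sub_le_of_norm_hasFDerivWithin_le (C := 1)
    (fun y _ => ((hd y).hasFDerivAt.log (h.pos y).ne').hasFDerivWithinAt) (fun y _ => by
      rw [norm_smul, norm_inv, Real.norm_of_nonneg (h.pos y).le, inv_mul_le_iff₀ (h.pos y),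
        ← norm_grad, mul_comm]
      exact h.lip y) (mem_univ u) (mem_univ x)
  rw [← Real.exp_log (h.pos x), ← Real.exp_log (h.pos u), ← Real.exp_add]
  exact Real.exp_le_exp.2 (by linarith [(abs_le.1 h1).2])

theorem int_ker : Integrable fun z : EE n => Real.exp (-‖z‖) := by
  refine ((integrable_one_add_norm (E := EE n) (μ := volume) (r := ((n + 1 : ℕ) : ℝ))
    (by simp)).const_mul (((n + 1).factorial : ℝ) * Real.exp 1)).mono' (by fun_prop)
    (Eventually.of_forall fun z => ?_)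
  have h1 := Real.pow_div_factorial_le_exp (1 + ‖z‖) (by positivity) (n + 1)
  rw [Real.norm_of_nonneg (Real.exp_pos _).le, Real.rpow_neg (by positivity), Real.rpow_natCast,
    Real.exp_neg, ← div_eq_mul_inv, le_div_iff₀ (by positivity), inv_mul_le_iff₀ (Real.exp_pos _)]
  rw [div_le_iff₀ (by positivity), Real.exp_add] at h1
  linarith

theorem avg {G : EE n → ℝ} (hG : Integrable G) (G0 : ∀ u, 0 ≤ G u) {a c : ℝ} (hc : 0 ≤ c)
    (x x0 : EE n) (h : ∀ u ∈ ball x0 1, a ≤ c * (G u * Real.exp (-‖x - u‖))) :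
    a * volume.real (ball (0 : EE n) 1) ≤
      c * (G ⋆[ContinuousLinearMap.mul ℝ ℝ] fun z => Real.exp (-‖z‖)) x := by
  have h1 : Integrable fun u => G u * Real.exp (-‖x - u‖) :=
    hG.mul_bdd (c := 1) (by fun_prop) (Eventually.of_forall fun u => by
      rw [Real.norm_of_nonneg (Real.exp_pos _).le]
      exact Real.exp_le_one_iff.2 (neg_nonpos.2 (norm_nonneg _)))
  rw [← Measure.addHaar_real_ball_center volume x0]
  refine (setIntegral_ge_of_const_le_real measurableSet_ball measure_ball_lt_top.ne h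
    (h1.const_mul c).integrableOn).trans ?_
  rw [integral_const_mul]
  exact mul_le_mul_of_nonneg_left (setIntegral_le_integral h1 (Eventually.of_forall fun u =>
    mul_nonneg (G0 u) (Real.exp_pos _).le)) hc

theorem sq_le_pb {β : ℝ} (hβ : β < 1) {v : EE n → ℝ} (h : Sol v) (x : EE n) :
    psi v x ^ 2 ≤ pb β v x := by
  rw [← Real.rpow_natCast]
  exact Real.rpow_le_rpow_of_exponent_ge (h.psi_pos x) (psi_le_one v x) (by push_cast; linarith)

theorem le_pb {β : ℝ} (hβ : β < 1) {v : EE n → ℝ} (h : Sol v) {x : EE n} {R : ℝ}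
    (hR : |dd v x| ≤ R) : tt v x ≤ Real.exp (√2 * R) ^ 2 * (pb β v x * tt v x) := by
  have h1 := (psi_ge h x).trans (mul_le_mul_of_nonneg_left (Real.exp_le_exp.2
    (mul_le_mul_of_nonneg_left hR sqrt2_pos.le)) (h.psi_pos x).le)
  have h2 := h.tt_nonneg x
  calc tt v x ≤ (psi v x * Real.exp (√2 * R)) ^ 2 * tt v x :=
        le_mul_of_one_le_left h2 (one_le_pow₀ h1)
    _ = Real.exp (√2 * R) ^ 2 * (psi v x ^ 2 * tt v x) := by ring
    _ ≤ _ := by gcongr; exact sq_le_pb hβ h x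

end Ou

open Ou in
theorem outS (hk : HKStmt n) : OUTStmt n := by
  intro β hβ0 hβ
  obtain ⟨D0, C, hC, hpt⟩ := pt hk
  obtain ⟨K, hK, hB⟩ := exists_KB hk
  obtain ⟨H, hH, har⟩ := hk.har
  obtain ⟨M, hM⟩ : ∃ M, M = 1 + n ^ 2 * K ^ 2 * Real.exp (√2 * D0) ^ 2 + C +
    C * Real.exp H * Real.exp (√2 * 2) ^ 2 := ⟨_, rfl⟩
  have m1 : 0 ≤ n ^ 2 * K ^ 2 * Real.exp (√2 * D0) ^ 2 := by positivity
  have m2 : 0 ≤ C * Real.exp H * Real.exp (√2 * 2) ^ 2 := by positivity
  have M1 : 1 ≤ M := by linarith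
  obtain ⟨V, hV⟩ : ∃ V, V = volume.real (ball (0 : EE n) 1) := ⟨_, rfl⟩
  have V0 : 0 < V := hV ▸ ENNReal.toReal_pos (measure_ball_pos _ _ one_pos).ne' measure_ball_lt_top.ne
  obtain ⟨c, hc⟩ : ∃ c, c = M ^ 5 * (4 * Real.exp 1) ^ 2 := ⟨_, rfl⟩
  have c0 : 0 ≤ c := by rw [hc]; positivity
  have I0 : 0 ≤ ∫ z : EE n, Real.exp (-‖z‖) := integral_nonneg fun _ => (Real.exp_pos _).le
  refine ⟨1, 32 * M ^ 5 + 32 * c / V * ∫ z : EE n, Real.exp (-‖z‖), one_pos, by positivity,
    fun v P om hv hw => ?_⟩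
  have hs := hv.toSol
  have cψ := hs.psi_sm.continuous
  have pb0 : ∀ x, 0 < pb β v x * tt v x := fun x =>
    mul_pos (Real.rpow_pos_of_pos (hs.psi_pos x) _) (hv.tpos x)
  obtain ⟨G, hG⟩ : ∃ G : EE n → ℝ, G = fun x => P.F (pb β v x * tt v x) * om x := ⟨_, rfl⟩
  have G0 : ∀ x, 0 ≤ G x := fun x => by
    rw [hG]; exact mul_nonneg (P.pos _ (pb0 x)).le (hw.pos x).le
  have Gi : Integrable G := by
    rw [hG]
    refine hw.int.bdd_mul (c := P.F 1) (P.sm.continuousOn.comp_continuous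
      ((cψ.rpow_const fun x => Or.inl (hs.psi_pos x).ne').mul hs.tt_sm.continuous)
      pb0).aestronglyMeasurable (Eventually.of_forall fun x => ?_)
    rw [Real.norm_of_nonneg (P.pos _ (pb0 x)).le]
    exact F_mono P (pb0 x).le (mul_le_one₀ (Real.rpow_le_one (hs.psi_pos x).le (psi_le_one v x)
      (by linarith)) (hv.tpos x).le (tt_le_one v x))
  have Hi := Gi.integrable_convolution (ContinuousLinearMap.mul ℝ ℝ) int_ker
  have H0 : ∀ x, 0 ≤ (G ⋆[ContinuousLinearMap.mul ℝ ℝ] fun z => Real.exp (-‖z‖)) x := fun x =>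
    integral_nonneg fun u => mul_nonneg (G0 u) (Real.exp_pos _).le
  have key : ∀ x ∈ {x | tt v x ≤ psi v x ^ (13 / 10 : ℝ)},
      psi v x ^ 2 * P.F (hsq (dd v) x) * om x ≤ 32 * M ^ 5 * G x +
        32 * c / V * (G ⋆[ContinuousLinearMap.mul ℝ ℝ] fun z => Real.exp (-‖z‖)) x := by
    intro x hx
    have b0 := hsq_nonneg (dd v) x
    have ψ0 := hs.psi_pos x
    have o0 := hw.pos x
    have t0 := hv.tpos x
    have g0 := P.pos _ (pb0 x)
    have e0 : G x = P.F (pb β v x * tt v x) * om x := by rw [hG]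
    rcases le_total |dd v x| D0 with hD | hD
    · have h1 : hsq (dd v) x ≤ n ^ 2 * K ^ 2 * tt v x := by
        have := Finset.sum_le_sum fun i (_ : i ∈ Finset.univ) =>
          Finset.sum_le_sum fun j (_ : j ∈ Finset.univ) =>
            pow_le_pow_left₀ (abs_nonneg _) (hB v hs x i j).1 2
        simp only [sq_abs, mul_pow, Real.sq_sqrt t0.le, Finset.sum_const, Finset.card_univ,
          Fintype.card_fin, nsmul_eq_mul] at this
        unfold hsq
        linarith
      have h2 := F_up P M1 b0 (pb0 x).le (h1.trans ((mul_le_mul_of_nonneg_left (le_pb hβ hs hD)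
        (by positivity)).trans (by
          rw [← mul_assoc]
          exact mul_le_mul_of_nonneg_right (by linarith) (pb0 x).le)))
      have h3 : psi v x ^ 2 * P.F (hsq (dd v) x) ≤ P.F (hsq (dd v) x) :=
        mul_le_of_le_one_left (F_nonneg P b0) (pow_le_one₀ ψ0.le (psi_le_one v x))
      have h4 := mul_le_mul_of_nonneg_right (h3.trans h2) o0.le
      have h5 := mul_nonneg (show 0 ≤ 32 * c / V by positivity) (H0 x)
      have h6 : 0 ≤ M ^ 5 * P.F (pb β v x * tt v x) * om x := by positivity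
      rw [e0]
      linarith
    obtain ⟨p, hp⟩ : ∃ p, p = psi v x ^ (1 / 10 : ℝ) := ⟨_, rfl⟩
    have p0 : 0 < p := hp ▸ Real.rpow_pos_of_pos ψ0 _
    have p1 : p ≤ 1 := hp ▸ Real.rpow_le_one ψ0.le (psi_le_one v x) (by norm_num)
    have p10 : p ^ 10 = psi v x := by
      rw [hp, ← Real.rpow_natCast, ← Real.rpow_mul ψ0.le]; norm_num
    have p13 : p ^ 13 = psi v x ^ (13 / 10 : ℝ) := by
      rw [hp, ← Real.rpow_natCast, ← Real.rpow_mul ψ0.le]; norm_num
    obtain ⟨x0, x1, x2, x3⟩ := hpt v hs x p p0 p10 (p13 ▸ hx) hD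
    have t1 := hv.tpos x0
    have h1 := F_add P b0 (by positivity) (by positivity) x3
    have h2 : psi v x ^ 2 * P.F (C * (p ^ 12 * tt v x)) ≤ M ^ 5 * P.F (pb β v x * tt v x) := by
      rw [show psi v x ^ 2 = (p ^ 4) ^ 5 by rw [← p10]; ring]
      refine (F_dn P (by positivity) (pow_le_one₀ p0.le p1) (by positivity)).trans
        (F_up P M1 (by positivity) (pb0 x).le ?_)
      calc (p ^ 4) ^ 2 * (C * (p ^ 12 * tt v x)) = C * (psi v x ^ 2 * tt v x) := by
            rw [← p10]; ring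
        _ ≤ _ := by
            gcongr
            · linarith
            · exact sq_le_pb hβ hs x
    have h3 := avg Gi G0 (a := psi v x ^ 2 * P.F (C * tt v x0) * om x) c0 x x0 fun u hu => by
      rw [mem_ball, dist_eq_norm] at hu
      have a1 : |dd v u| ≤ 2 := by
        linarith [hs.abs_dd_sub_le u x0, abs_sub_abs_le_abs_sub (dd v u) (dd v x0)]
      have a2 : tt v x0 ≤ Real.exp H * tt v u := (har v hs u x0).trans
        (mul_le_mul_of_nonneg_right (Real.exp_le_exp.2 (mul_le_of_le_one_right hH hu.le))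
          (hv.tpos u).le)
      have a3' : C * tt v x0 ≤ M * (pb β v u * tt v u) :=
        calc _ ≤ C * (Real.exp H * (Real.exp (√2 * 2) ^ 2 * (pb β v u * tt v u))) :=
              mul_le_mul_of_nonneg_left (a2.trans
                (mul_le_mul_of_nonneg_left (le_pb hβ hs a1) (Real.exp_pos _).le)) hC
          _ = C * Real.exp H * Real.exp (√2 * 2) ^ 2 * (pb β v u * tt v u) := by ring
          _ ≤ _ := mul_le_mul_of_nonneg_right (by linarith) (pb0 u).le
      have a3 := F_up P M1 (show 0 ≤ C * tt v x0 by positivity) (pb0 u).le a3'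
      have a4 : ‖x - u‖ ≤ √2 * |dd v x| + 1 := by
        have := norm_sub_le_norm_sub_add_norm_sub x x0 u
        rw [norm_sub_rev x x0, norm_sub_rev x0 u] at this
        nlinarith [Real.one_lt_sqrt_two, abs_nonneg (dd v x)]
      have a5 : psi v x * Real.exp ‖x - u‖ ≤ 4 * Real.exp 1 := by
        refine (mul_le_mul_of_nonneg_left (Real.exp_le_exp.2 a4) ψ0.le).trans ?_
        rw [Real.exp_add, ← mul_assoc]
        exact mul_le_mul_of_nonneg_right (psi_le hs x) (Real.exp_pos _).le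
      have a6 := P.pos _ (pb0 u)
      have a7 := hw.pos u
      calc psi v x ^ 2 * P.F (C * tt v x0) * om x
          ≤ psi v x ^ 2 * (M ^ 5 * P.F (pb β v u * tt v u)) * (Real.exp ‖x - u‖ * om u) := by
            gcongr
            exact om_le hw x u
        _ = M ^ 5 * (psi v x * Real.exp ‖x - u‖) ^ 2 *
            (P.F (pb β v u * tt v u) * om u * Real.exp (-‖x - u‖)) := by
            rw [Real.exp_neg]; field_simp
        _ ≤ _ := by rw [hc, hG]; gcongr
    rw [← hV, ← le_div_iff₀ V0] at h3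
    have h4 := mul_le_mul_of_nonneg_right (mul_le_mul_of_nonneg_left h1 (sq_nonneg (psi v x))) o0.le
    have h5 := mul_le_mul_of_nonneg_right h2 o0.le
    rw [e0, mul_div_assoc, mul_assoc 32 (c / V), div_mul_eq_mul_div]
    linarith
  have i1 := (Gi.const_mul (32 * M ^ 5)).add (Hi.const_mul (32 * c / V))
  refine (integral_mono_of_nonneg (Eventually.of_forall fun x => mul_nonneg (mul_nonneg (sq_nonneg _)
    (F_nonneg P (hsq_nonneg _ x))) (hw.pos x).le) i1.integrableOn (ae_restrict_of_forall_mem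
      (isClosed_le hs.tt_sm.continuous (cψ.rpow_const fun x =>
        Or.inl (hs.psi_pos x).ne')).measurableSet key)).trans
    ((setIntegral_le_integral i1 (Eventually.of_forall fun x => add_nonneg
      (mul_nonneg (by positivity) (G0 x)) (mul_nonneg (by positivity) (H0 x)))).trans_eq ?_)
  simp only [Pi.add_apply]
  rw [integral_add (Gi.const_mul _) (Hi.const_mul _), integral_const_mul, integral_const_mul,
    integral_convolution _ Gi int_ker, ContinuousLinearMap.mul_apply', TT, ← hG]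
  ring

end

end Crest.Agent.N067.Y
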