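import Crest.Agent.N067.Y.NP0
import Crest.Agent.N067.Y.St0
import Crest.Agent.N067.A.Aac
import Crest.Agent.N222.G.Sim0
import Crest.Agent.N067.A.Calc
import Crest.Agent.N067.Y.Defs
import Crest.Agent.N067.A.HKS
import Crest.Agent.N067.Y.Prof

-- ▼ part N067/Y/NP1
section

/-! # Row 67, X5: NP1 (helper46): test with the field `v ∇d F(pb y) cut² om` -/

set_option autoImplicit false

open MeasureTheory Laplacian InnerProductSpace Topology Filter Set Metric
open scoped RealInnerProductSpace Gradient ContDiff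

namespace Crest.Agent.N067.Y

open Crest.Agent.R077 NP

variable {n : ℕ}

theorem NP.alg1 {s ψ v t γ G D B E R : ℝ} (hs : 7 / 5 ≤ s) (hψ : ψ = 1 - v ^ 2) (hψ0 : 0 < ψ)
    (ht0 : 0 ≤ t) (ht : t ≤ 1 / 10) (hγ : 1 ≤ γ) (hG : 0 ≤ G) (hD : 2 * G ≤ D) (hB : 0 ≤ B)
    (hGB : 2 / 3 ≤ ψ → G ≤ 26 * B) (hE : |E| ≤ G / 10 + R) :
    G - 200 * B - 4 * R ≤ -4 * (ψ / s * (1 - t)) * G + -4 * v * (-(s * γ * v * (1 - t)) * D + E) -
      s * v * t * (-4 * v * G) := by
  have hv : v ^ 2 ≤ 1 := by linarith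
  have hv1 : |v| ≤ 1 := (sq_le_one_iff_abs_le_one _).1 hv
  have h1 : ψ / s * (1 - t) ≤ 5 / 7 * ψ := by
    have : ψ / s ≤ 5 / 7 * ψ := by rw [div_le_iff₀ (by linarith)]; nlinarith
    exact (mul_le_of_le_one_right (div_nonneg hψ0.le (by linarith)) (by linarith)).trans this
  have h2 : |v * E| ≤ G / 10 + R := by
    rw [abs_mul]; exact (mul_le_of_le_one_left (abs_nonneg _) hv1).trans hE
  have h3 : 63 / 50 ≤ s * γ * (1 - t) := by
    have : 7 / 5 ≤ s * γ := by nlinarith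
    nlinarith
  have h4 : 63 / 50 * (v ^ 2 * (2 * G)) ≤ s * γ * (1 - t) * (v ^ 2 * D) :=
    mul_le_mul h3 (mul_le_mul_of_nonneg_left hD (sq_nonneg _)) (by positivity) (by linarith)
  have h5 : 0 ≤ s * t * (v ^ 2 * G) := mul_nonneg (mul_nonneg (by linarith) ht0) (by positivity)
  have h6 := mul_le_mul_of_nonneg_right h1 hG
  have h7 := (abs_le.1 h2).2
  have h8 : G - 200 * B ≤ 252 / 25 * (v ^ 2 * G) - 20 / 7 * (ψ * G) - 2 / 5 * G := by
    rcases le_total (2 / 3) ψ with h | h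
    · have := hGB h
      have h9 : ψ * G ≤ G := mul_le_of_le_one_left hG (by nlinarith [sq_nonneg v])
      have : 0 ≤ v ^ 2 * G := by positivity
      linarith
    · have h9 : ψ * G ≤ 2 / 3 * G := mul_le_mul_of_nonneg_right h hG
      have h10 : 1 / 3 * G ≤ v ^ 2 * G := mul_le_mul_of_nonneg_right (by linarith) hG
      linarith
  nlinarith

theorem np1 (hk : HKStmt n) : NP1Stmt n := by
  intro β K δ h0 h1 hδ
  obtain ⟨M, hM, hcut⟩ := exists_gin_cut hk
  obtain ⟨K', hK1, hKK⟩ : ∃ K' : ℝ, 1 ≤ K' ∧ K ≤ K' := ⟨max K 1, le_max_right _ _, le_max_left _ _⟩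
  refine ⟨min (1 / 20) (δ / (86400 * K' ^ 3)), 1 / 20, by positivity, by norm_num,
    fun e he he1 => ⟨8 * M * K' ^ 3, by positivity, ?_⟩⟩
  intro v P om y hv hw hy hy0 hyn
  have hs := hv.toSol
  have he2 : e ≤ 1 / 20 := he1.trans (min_le_left _ _)
  have he3 : 86400 * K' ^ 3 * e ≤ δ := by
    have := he1.trans (min_le_right _ _)
    rwa [le_div_iff₀' (by positivity)] at this
  have hZ : ContDiff ℝ 1 fun x => pb β v x * y x := (pb_cd hs β).mul hy
  have hZ0 : ∀ x, 0 < pb β v x * y x := fun x => mul_pos (pb_pos hs β x) (hy0 x).1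
  have hZy : ∀ x, P.F (pb β v x * y x) ≤ P.F (y x) := fun x =>
    mono P (hZ0 x).le (mul_le_of_le_one_left (hy0 x).1.le (pb_le hs h0 x))
  have hyK : ∀ x, P.F (y x) ≤ P.F K := fun x => mono P (hy0 x).1.le (hy0 x).2
  have hc := cut_cd hs e
  have hG : ContDiff ℝ 1 fun x => P.F (pb β v x * y x) * (cut e v x ^ 2 * om x) :=
    (cd P hZ hZ0).mul ((hc.pow 2).mul hw.cd)
  have hw0 : ∀ x, 0 ≤ cut e v x ^ 2 * om x := fun x => mul_nonneg (sq_nonneg _) (hw.pos x).le
  have hw1 : ∀ x, cut e v x ^ 2 * om x ≤ om x := fun x =>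
    mul_le_of_le_one_left (hw.pos x).le ((le_abs_self _).trans (cut_sq_le e v x))
  have hGb : ∀ x, |P.F (pb β v x * y x) * (cut e v x ^ 2 * om x)| ≤ P.F K * om x := fun x => by
    rw [abs_of_nonneg (mul_nonneg (nonneg P (hZ0 x).le) (hw0 x))]
    exact mul_le_mul ((hZy x).trans (hyK x)) (hw1 x) (hw0 x)
      ((nonneg P (hy0 x).1.le).trans (hyK x))
  have i1 := intw hw hG.continuous.aestronglyMeasurable _ hGb
  have hψ8 : ∀ x, 0 ≤ psi v x ^ 8 ∧ psi v x ^ 8 ≤ 1 := fun x =>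
    ⟨by positivity, pow_le_one₀ (hs.psi_pos x).le (psi_le_one v x)⟩
  have i2 : Integrable fun x => psi v x ^ 8 * P.F (y x) * (cut e v x ^ 2 * om x) :=
    intw hw (((hs.psi_sm.continuous.pow 8).mul (cont P hy.continuous fun x => (hy0 x).1)).mul
      ((hc.continuous.pow 2).mul hw.cd.continuous)).aestronglyMeasurable (P.F K) fun x => by
        have := nonneg P (hy0 x).1.le
        rw [abs_of_nonneg (mul_nonneg (mul_nonneg (hψ8 x).1 this) (hw0 x))]
        exact mul_le_mul ((mul_le_of_le_one_left this (hψ8 x).2).trans (hyK x)) (hw1 x) (hw0 x)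
          (this.trans (hyK x))
  have i3 := int_TT P hv hw h0
  have i4 := int_BAD P hs hw h0 e
  have key := int_le hs hw (A := 4 * P.F K) (a := fun x => -4 * v x) (contDiff_const.mul (hs.cd 1)) hG
    (fun x => by
      rw [abs_mul, mul_assoc]
      refine mul_le_mul ?_ (hGb x) (abs_nonneg _) (by norm_num)
      rw [abs_mul]; norm_num; exact (hs.lt x).le)
    (((i1.sub (i2.const_mul 200)).sub (i3.const_mul δ)).sub (i4.const_mul (8 * M * K' ^ 3)))
    fun x => ?_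
  · rw [integral_sub' ((i1.sub (i2.const_mul 200)).sub (i3.const_mul δ)) (i4.const_mul _),
      integral_sub' (i1.sub (i2.const_mul 200)) (i3.const_mul δ),
      integral_sub' i1 (i2.const_mul 200), integral_const_mul, integral_const_mul,
      integral_const_mul, ← BAD_eq P hs] at key
    unfold TT
    linarith
  simp only [Pi.sub_apply]
  have hp := pb_pos hs β x
  have ht := hv.tpos x
  have hT := nonneg P (mul_pos hp ht).le
  have hB := nonneg P hp.le
  have ho := hw.pos x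
  have hi := ind_nonneg e v x
  rw [gin_G P hs hw hZ hZ0]
  rcases le_total (2 * e) (tt v x) with h2 | h2
  · rw [cut_zero he h2]
    have : 0 ≤ δ * (P.F (pb β v x * tt v x) * om x) := by positivity
    have : 0 ≤ 8 * M * K' ^ 3 * (ind e v x * (P.F (pb β v x) * om x)) := by positivity
    simp only [ne_eq, OfNat.ofNat_ne_zero, not_false_eq_true, zero_pow, zero_mul, mul_zero,
      add_zero, sub_zero]
    linarith
  have hg : |pb β v x * gin (dd v) y x| ≤ pb β v x * (K' * (tt v x * √(tt v x))) := by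
    rw [abs_mul, abs_of_pos hp]
    exact mul_le_mul_of_nonneg_left ((hyn x (by linarith)).trans
      (mul_le_mul_of_nonneg_right hKK (by positivity))) hp.le
  have hE := abs_gin_G P hs hw hZ0 x (δ := 1 / 60) (by norm_num) (by norm_num) hg
    (hcut v e hs he x h2)
  have a1 := F_sqrt P hp.le hK1 ht.le (tt_le_one v x)
  have a2 : P.F (pb β v x * (K' * (tt v x * √(tt v x)))) * (cut e v x ^ 2 * om x) ≤
      K' ^ 3 * (2 * e * P.F (pb β v x * tt v x)) * om x :=
    mul_le_mul (a1.trans (by gcongr)) (hw1 x) (hw0 x) (by positivity)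
  have a3 : P.F (pb β v x * y x) ≤ K' ^ 3 * P.F (pb β v x) :=
    (mono P (hZ0 x).le (by rw [mul_comm K']; gcongr; exact (hy0 x).2.trans hKK)).trans
      (up P hK1 hp.le)
  have a4 : M * (ind e v x * (P.F (pb β v x * y x) * om x)) ≤
      M * (ind e v x * (K' ^ 3 * P.F (pb β v x) * om x)) := by gcongr
  have a5 := mul_le_mul_of_nonneg_right he3 (mul_nonneg hT ho.le)
  have a6 := alg1 (s := Real.sqrt 2) (ψ := psi v x) (v := v x) (t := tt v x) (γ := 1 + β)
    (G := P.F (pb β v x * y x) * (cut e v x ^ 2 * om x))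
    (D := pb β v x * y x * deriv P.F (pb β v x * y x) * (cut e v x ^ 2 * om x))
    (B := psi v x ^ 8 * P.F (y x) * (cut e v x ^ 2 * om x))
    (R := 10800 * (P.F (pb β v x * (K' * (tt v x * √(tt v x)))) * (cut e v x ^ 2 * om x)) +
      2 * M * (ind e v x * (P.F (pb β v x * y x) * om x)))
    (Real.le_sqrt_of_sq_le (by norm_num)) rfl (hs.psi_pos x) ht.le (by linarith) (by linarith)
    (mul_nonneg (nonneg P (hZ0 x).le) (hw0 x))
    (by have := mul_le_mul_of_nonneg_right (P.lo _ (hZ0 x)) (hw0 x); linarith)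
    (mul_nonneg (mul_nonneg (hψ8 x).1 (nonneg P (hy0 x).1.le)) (hw0 x))
    (fun h => by
      have b1 : (2 / 3 : ℝ) ^ 8 ≤ psi v x ^ 8 := by gcongr
      have b2 := mul_le_mul_of_nonneg_right b1 (nonneg P (hy0 x).1.le)
      have b3 : P.F (pb β v x * y x) ≤ 26 * (psi v x ^ 8 * P.F (y x)) := by
        have := hZy x
        have := nonneg P (hy0 x).1.le
        norm_num at b2
        linarith
      have := mul_le_mul_of_nonneg_right b3 (hw0 x)
      linarith)
    (hE.trans_eq (by ring))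
  rw [gin_const_mul_right (hs.diff x), hs.gin_v, gin_self, ← sub_sub_cancel 1 (gsq (dd v) x),
    ← tt_eq, gin_mul_right ((pb_cd hs β).differentiable (by norm_num) x)
      (hy.differentiable (by norm_num) x), gin_pb hs]
  linarith

end Crest.Agent.N067.Y
end

-- ▼ part N067/Y/St1
section

/-!
# Row 67, block X5, St1 (helper40): stability with `|B|²` in place of `q`
-/

set_option autoImplicit false

open MeasureTheory Laplacian InnerProductSpace Topology Filter Set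
open scoped RealInnerProductSpace Gradient ContDiff

namespace Crest.Agent.N067.Y.St

open Crest.Agent.R077

namespace S1

variable {n : ℕ} {v w : EE n → ℝ}

theorem ident (h : Sol v) (hw : ContDiff ℝ 1 w) (x : EE n) :
    (Δ (tt v)) x * (psi v x ^ 2 * w x ^ 2) +
      ∑ i, pdv i (tt v) x * pdv i (fun y => psi v y ^ 2 * w y ^ 2) x =
    (Lm v (tt v) x * w x ^ 2 + 2 * w x * gin (tt v) w x) * psi v x ^ 2 := by
  have hp : DifferentiableAt ℝ (psi v) x := h.psi_sm.differentiable (by simp) x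
  have hw1 : DifferentiableAt ℝ w x := hw.differentiable (by norm_num) x
  have e : ∀ i, pdv i (tt v) x * pdv i (fun y => psi v y ^ 2 * w y ^ 2) x =
      -(2 * Real.sqrt 2 * v x * psi v x ^ 2 * w x ^ 2) * (pdv i (dd v) x * pdv i (tt v) x) +
        2 * w x * psi v x ^ 2 * (pdv i (tt v) x * pdv i w x) := fun i => by
    rw [pdv_mul (hp.fun_pow 2) (hw1.fun_pow 2), pdv_sq hp, pdv_sq hw1, h.pdv_psi]
    ring
  simp only [e, Finset.sum_add_distrib, ← Finset.mul_sum]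
  rw [Lm_eq, gin, gin]
  ring

theorem pt {ε C0 : ℝ} (hε : 0 < ε) (x : EE n)
    (hC : ‖∇ (tt v) x‖ ≤ C0 * tt v x) :
    w x * gin (tt v) w x ≤ ε * gsq w x + C0 ^ 2 / (4 * ε) * tt v x ^ 2 * w x ^ 2 := by
  have h1 := abs_gin_le (tt v) w x
  have h2 : |gin (tt v) w x| ≤ C0 * tt v x * ‖∇ w x‖ :=
    h1.trans (mul_le_mul_of_nonneg_right hC (norm_nonneg _))
  have h3 : w x * gin (tt v) w x ≤ |w x| * (C0 * tt v x * ‖∇ w x‖) :=
    (le_abs_self _).trans (by rw [abs_mul]; exact mul_le_mul_of_nonneg_left h2 (abs_nonneg _))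
  refine h3.trans ?_
  rw [gsq_eq, ← sq_abs (w x)]
  have e : ε * ‖∇ w x‖ ^ 2 + C0 ^ 2 / (4 * ε) * tt v x ^ 2 * |w x| ^ 2 -
      |w x| * (C0 * tt v x * ‖∇ w x‖) =
      (2 * ε * ‖∇ w x‖ - C0 * tt v x * |w x|) ^ 2 / (4 * ε) := by
    field_simp
    ring
  have : 0 ≤ (2 * ε * ‖∇ w x‖ - C0 * tt v x * |w x|) ^ 2 / (4 * ε) := by positivity
  linarith

theorem cpt {ε C0 : ℝ} (hε : 0 < ε) (h : Sol v) (hs : Stable v)
    (hC : ∀ x, ‖∇ (tt v) x‖ ≤ C0 * tt v x) (hw : ContDiff ℝ 1 w) (hc : HasCompactSupport w) :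
    0 ≤ ∫ x, ((1 + ε) * psi v x ^ 2 * ‖∇ w x‖ ^ 2 +
      (C0 ^ 2 / (4 * ε) * tt v x ^ 2 - hsq (dd v) x) * psi v x ^ 2 * w x ^ 2) := by
  have cp := h.psi_sm.continuous
  have ct := h.tt_sm.continuous
  have cq := h.qq_sm.continuous
  have ch := h.hsq_sm.continuous
  have cw := hw.continuous
  have cg := St.continuous_grad hw
  have hg : ContDiff ℝ 1 fun y => psi v y ^ 2 * w y ^ 2 :=
    ((contDiff_infty.1 h.psi_sm 1).pow 2).mul (hw.pow 2)
  have hgc : HasCompactSupport fun y => psi v y ^ 2 * w y ^ 2 := (St.cs_sq hc).mul_left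
  have cL : Continuous (Δ (tt v)) := continuous_iff_continuousAt.2 fun x =>
    (contDiffAt_lap (m := 0) (h.tt_cd 2).contDiffAt (by norm_num)).continuousAt
  have h1 := St.weak_lap (h.tt_cd 2) hg hgc
  have h2 := dstab n v h hs w hw hc
  have i1 : Integrable fun x => (Δ (tt v)) x * (psi v x ^ 2 * w x ^ 2) :=
    St.int_cs cL hg.continuous hgc
  have i2 : Integrable fun x =>
      ∑ i, pdv i (tt v) x * pdv i (fun y => psi v y ^ 2 * w y ^ 2) x :=
    integrable_finsetSum _ fun i _ => St.int_cs (St.continuous_pdv (h.tt_cd 1) i)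
      (St.continuous_pdv hg i) (hasCompactSupport_pdv hgc i)
  have i3 : Integrable fun x => qq v x * w x ^ 2 * psi v x ^ 2 :=
    (St.int_cs (f := fun x => qq v x * psi v x ^ 2) (by fun_prop) (cw.fun_pow 2)
      (St.cs_sq hc)).congr (Eventually.of_forall fun x => by ring)
  have i4 : Integrable fun x => ‖∇ w x‖ ^ 2 * psi v x ^ 2 :=
    (St.int_cs (f := fun x => psi v x ^ 2) (by fun_prop) (cg.norm.fun_pow 2)
      (St.cs_grad_sq hc)).congr (Eventually.of_forall fun x => by ring)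
  have i5 : Integrable fun x => (1 + ε) * psi v x ^ 2 * ‖∇ w x‖ ^ 2 +
      (C0 ^ 2 / (4 * ε) * tt v x ^ 2 - hsq (dd v) x) * psi v x ^ 2 * w x ^ 2 :=
    (St.int_cs (by fun_prop) (cg.norm.fun_pow 2) (St.cs_grad_sq hc)).add
      (St.int_cs (by fun_prop) (cw.fun_pow 2) (St.cs_sq hc))
  have h3 := integral_mono (f := fun x => (‖∇ w x‖ ^ 2 * psi v x ^ 2 -
      qq v x * w x ^ 2 * psi v x ^ 2) + 1 / 2 * ((Δ (tt v)) x * (psi v x ^ 2 * w x ^ 2) +
      ∑ i, pdv i (tt v) x * pdv i (fun y => psi v y ^ 2 * w y ^ 2) x))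
    ((i4.sub i3).add ((i1.add i2).const_mul _)) i5 fun x => by
      have a1 := pt hε x (hC x) (w := w)
      have a2 := h.Lm_tt x
      have a3 := mul_nonneg (mul_nonneg (h.qq_nonneg x) (h.tt_nonneg x)) (sq_nonneg (w x))
      have a4 : Lm v (tt v) x = 2 * (qq v x * (1 - tt v x) - hsq (dd v) x) := by linarith
      rw [gsq_eq] at a1
      simp only
      rw [ident h hw, a4]
      have a5 := mul_nonneg (sub_nonneg.2 a1) (sq_nonneg (psi v x))
      have a6 := mul_nonneg a3 (sq_nonneg (psi v x))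
      linarith
  have i6 : Integrable fun x => ‖∇ w x‖ ^ 2 * psi v x ^ 2 - qq v x * w x ^ 2 * psi v x ^ 2 :=
    i4.sub i3
  have i7 : Integrable fun x => 1 / 2 * ((Δ (tt v)) x * (psi v x ^ 2 * w x ^ 2) +
      ∑ i, pdv i (tt v) x * pdv i (fun y => psi v y ^ 2 * w y ^ 2) x) := (i1.add i2).const_mul _
  rw [integral_add i6 i7, integral_sub i4 i3, integral_const_mul, integral_add i1 i2] at h3
  linarith

end S1

theorem st1 (n : ℕ) : St1Stmt n := by
  intro ε hε
  obtain ⟨C0, -, hC⟩ := hk_grad_t n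
  obtain ⟨K, hK, hH⟩ := hk_hsq n
  have hC0 : 0 ≤ C0 ^ 2 / (4 * ε) := by positivity
  refine ⟨C0 ^ 2 / (4 * ε), hC0, fun v w h hs hw h0 h1 => ?_⟩
  have cp := h.psi_sm.continuous
  have ct := h.tt_sm.continuous
  have ch := h.hsq_sm.continuous
  have hp : ∀ x, psi v x ^ 2 ≤ 1 := fun x => pow_le_one₀ (h.psi_pos x).le (psi_le_one v x)
  have e : Qf ε (C0 ^ 2 / (4 * ε)) v w = fun x => (1 + ε) * psi v x ^ 2 * ‖∇ w x‖ ^ 2 +
      (C0 ^ 2 / (4 * ε) * tt v x ^ 2 - hsq (dd v) x) * psi v x ^ 2 * w x ^ 2 := by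
    funext x
    rw [Qf, gsq_eq]
    ring
  have b1 : ∀ x, |(1 + ε) * psi v x ^ 2| ≤ 1 + ε + C0 ^ 2 / (4 * ε) + K := fun x => by
    rw [abs_of_nonneg (by positivity)]
    nlinarith [hp x]
  have b2 : ∀ x, |(C0 ^ 2 / (4 * ε) * tt v x ^ 2 - hsq (dd v) x) * psi v x ^ 2| ≤
      1 + ε + C0 ^ 2 / (4 * ε) + K := fun x => by
    have a1 : tt v x ^ 2 ≤ 1 := pow_le_one₀ (h.tt_nonneg x) (tt_le_one v x)
    have a2 := mul_le_mul_of_nonneg_left a1 hC0
    have a3 := mul_nonneg hC0 (sq_nonneg (tt v x))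
    have a4 := (hH v h x).trans (mul_le_of_le_one_right hK (tt_le_one v x))
    have a5 := hsq_nonneg (dd v) x
    rw [abs_mul, abs_of_nonneg (sq_nonneg (psi v x))]
    refine (mul_le_of_le_one_right (abs_nonneg _) (hp x)).trans ?_
    rw [abs_le]
    constructor <;> linarith
  have h1' : Integrable fun x => ‖∇ w x‖ ^ 2 :=
    h1.congr (Eventually.of_forall fun x => gsq_eq w x)
  rw [e]
  refine ⟨(h1'.bdd_mul (Continuous.aestronglyMeasurable (by fun_prop))
    (Eventually.of_forall b1)).add (h0.bdd_mul (Continuous.aestronglyMeasurable (by fun_prop))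
    (Eventually.of_forall b2)), ?_⟩
  refine Ker.form_ext (ρ := fun x => (1 + ε) * psi v x ^ 2)
    (c := fun x => (C0 ^ 2 / (4 * ε) * tt v x ^ 2 - hsq (dd v) x) * psi v x ^ 2)
    (by fun_prop) (by fun_prop) b2 b1 (fun φ a b => S1.cpt hε h hs (hC v h) a b) hw h0 fun i => ?_
  refine h1.mono' ((St.continuous_pdv hw i).fun_pow 2).aestronglyMeasurable
    (Eventually.of_forall fun x => ?_)
  rw [Real.norm_of_nonneg (sq_nonneg _)]
  exact Finset.single_le_sum (f := fun i => pdv i w x ^ 2) (fun j _ => sq_nonneg _)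
    (Finset.mem_univ i)

end Crest.Agent.N067.Y.St
end

-- ▼ part N067/Y/StA
section

/-!
# Row 67, block X5, StA (helper40): the change of variables, abstract form
-/

set_option autoImplicit false

open MeasureTheory Laplacian InnerProductSpace Topology Filter Set
open scoped RealInnerProductSpace Gradient ContDiff

namespace Crest.Agent.N067.Y.St

open Crest.Agent.R077

theorem stA (n : ℕ) : StAStmt n := by
  intro p p' S S' hS hS' hsub hp hinj
  have hd : ∀ (A : Set (EE n)), ∀ x ∈ A, HasFDerivWithinAt p (p' x) A x :=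
    fun A x _ => (hp x).hasFDerivWithinAt
  have hI : ∀ {A : Set (EE n)} {f : EE n → ℝ}, MeasurableSet A → A ⊆ S → Integrable f →
      IntegrableOn (fun x => |(p' x).det| * f (p x)) A := fun {A f} hA hAS hf =>
    (integrableOn_image_iff_integrableOn_abs_det_fderiv_smul volume hA (hd A) (hinj.mono hAS)
      f).1 hf.integrableOn
  have hE : ∀ {A : Set (EE n)} (f : EE n → ℝ), MeasurableSet A → A ⊆ S →
      ∫ x in p '' A, f x = ∫ x in A, |(p' x).det| * f (p x) := fun {A} f hA hAS =>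
    integral_image_eq_integral_abs_det_fderiv_smul volume hA (hd A) (hinj.mono hAS) f
  refine ⟨fun f w hf hw h0 hb => ?_, fun f G Φ T R hf hG hΦ hT hR G0 T0 R0 hΦ0 hΦi hfR h1 h2 => ?_⟩
  · refine ((integrable_indicator_iff hS).2 (hI hS subset_rfl hf)).mono' hw
      (Eventually.of_forall fun x => ?_)
    by_cases hx : x ∈ S
    · rw [indicator_of_mem hx]
      exact hb x hx
    · rw [indicator_of_notMem hx, h0 x hx, norm_zero]
  · have hm : MeasurableSet (p '' S') := measurable_image_of_fderivWithin hS' (hd S') (hinj.mono hsub)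
    have a1 : ∫ x, f x ≤ (∫ x in p '' S', f x) + ∫ x, R x := by
      rw [← integral_add_compl hm hf]
      refine add_le_add le_rfl ((setIntegral_mono_on hf.integrableOn hR.integrableOn hm.compl
        fun y hy => hfR y hy).trans ?_)
      exact setIntegral_le_integral hR (Eventually.of_forall R0)
    have i1 : Integrable (S'.indicator fun x => |(p' x).det| * f (p x)) :=
      (integrable_indicator_iff hS').2 (hI hS' hsub hf)
    have i2 : Integrable (S.indicator fun x => |(p' x).det| * G (p x)) :=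
      (integrable_indicator_iff hS).2 (hI hS subset_rfl hG)
    have a2 := integral_mono
      (f := fun x => S'.indicator (fun x => |(p' x).det| * f (p x)) x + Φ x)
      (g := fun x => S.indicator (fun x => |(p' x).det| * G (p x)) x + T x)
      (i1.add hΦ) (i2.add hT) fun x => by
        simp only
        by_cases hx' : x ∈ S'
        · rw [indicator_of_mem hx', indicator_of_mem (hsub hx')]
          exact h1 x hx'
        · rw [indicator_of_notMem hx', zero_add]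
          by_cases hx : x ∈ S
          · rw [indicator_of_mem hx]
            exact h2 x hx hx'
          · rw [indicator_of_notMem hx, hΦ0 x hx, zero_add]
            exact T0 x
    rw [integral_add i1 hΦ, integral_add i2 hT, integral_indicator hS', integral_indicator hS,
      ← hE f hS' hsub, ← hE G hS subset_rfl] at a2
    have a3 : ∫ x in p '' S, G x ≤ ∫ x, G x :=
      setIntegral_le_integral hG (Eventually.of_forall G0)
    linarith

end Crest.Agent.N067.Y.St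
end

-- ▼ part N067/Y/StC
section

/-!
# Row 67, block X5, StC (helper40): the gradient of the cut
-/

set_option autoImplicit false

open MeasureTheory Laplacian InnerProductSpace Topology Filter Set
open scoped RealInnerProductSpace Gradient ContDiff

namespace Crest.Agent.N067.Y.St

open Crest.Agent.R077

namespace SC

variable {n : ℕ} {v : EE n → ℝ}

theorem uu_eq (e g : ℝ) (h : Sol v) : uu e g v = fun x => e * (tt v x * psi v x ^ (-g)) := by
  funext x
  rw [uu, Real.rpow_neg (h.psi_pos x).le, div_eq_mul_inv, mul_assoc]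

theorem cd_pow (a : ℝ) (h : Sol v) : ContDiff ℝ 1 fun x => psi v x ^ a :=
  (contDiff_infty.1 h.psi_sm 1).rpow_const_of_ne fun x => (h.psi_pos x).ne'

theorem cd_uu (e g : ℝ) (h : Sol v) : ContDiff ℝ 1 (uu e g v) := by
  rw [uu_eq e g h]
  exact contDiff_const.mul ((h.tt_cd 1).mul (cd_pow _ h))

theorem pdv_uu (e g : ℝ) (h : Sol v) (i : Fin n) (x : EE n) : pdv i (uu e g v) x =
    e * psi v x ^ (-g) * (pdv i (tt v) x + g * Real.sqrt 2 * v x * tt v x * pdv i (dd v) x) := by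
  have hp : DifferentiableAt ℝ (psi v) x := h.psi_sm.differentiable (by simp) x
  have hq : DifferentiableAt ℝ (fun x => psi v x ^ (-g)) x :=
    (cd_pow _ h).differentiable (by norm_num) x
  have h0 := h.psi_pos x
  rw [uu_eq e g h, pdv_const_mul ((h.tt_diff x).fun_mul hq), pdv_mul (h.tt_diff x) hq,
    pdv_comp (φ := fun s => s ^ (-g)) (Real.hasDerivAt_rpow_const (Or.inl h0.ne')) hp, h.pdv_psi,
    Real.rpow_sub_one h0.ne']
  field_simp

theorem gsq_uu {e g C0 : ℝ} (hg : 0 ≤ g) (hg1 : g ≤ 1) (h : Sol v) (x : EE n)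
    (hC : ‖∇ (tt v) x‖ ≤ C0 * tt v x) :
    gsq (uu e g v) x ≤ (2 * C0 ^ 2 + 4) * uu e g v x ^ 2 := by
  set B := g * Real.sqrt 2 * v x * tt v x with hB
  have h1 : gsq (uu e g v) x ≤
      (e * psi v x ^ (-g)) ^ 2 * (2 * gsq (tt v) x + 2 * B ^ 2 * gsq (dd v) x) := by
    simp only [gsq, pdv_uu e g h, Finset.mul_sum, ← Finset.sum_add_distrib, mul_pow _ _ 2, ← hB]
    refine Finset.sum_le_sum fun i _ => mul_le_mul_of_nonneg_left ?_ (by positivity)
    nlinarith [sq_nonneg (pdv i (tt v) x - B * pdv i (dd v) x)]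
  have h2 : gsq (tt v) x ≤ C0 ^ 2 * tt v x ^ 2 := by
    rw [gsq_eq, ← mul_pow]
    exact pow_le_pow_left₀ (norm_nonneg _) hC 2
  have h3 : B ^ 2 ≤ 2 * tt v x ^ 2 := by
    have a1 : g ^ 2 ≤ 1 := pow_le_one₀ hg hg1
    have a2 : v x ^ 2 ≤ 1 := (sq_le_one_iff_abs_le_one _).2 (h.lt x).le
    have a3 : g ^ 2 * v x ^ 2 ≤ 1 := mul_le_one₀ a1 (sq_nonneg _) a2
    rw [hB, mul_pow, mul_pow, mul_pow, sqrt2_sq]
    nlinarith [mul_le_mul_of_nonneg_right a3 (sq_nonneg (tt v x))]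
  have h4 : B ^ 2 * gsq (dd v) x ≤ 2 * tt v x ^ 2 :=
    (mul_le_of_le_one_right (sq_nonneg _) (h.gsq_dd_le x)).trans h3
  refine h1.trans ?_
  rw [uu_eq e g h]
  calc _ ≤ (e * psi v x ^ (-g)) ^ 2 * ((2 * C0 ^ 2 + 4) * tt v x ^ 2) :=
        mul_le_mul_of_nonneg_left (by linarith) (sq_nonneg _)
    _ = _ := by ring

end SC

theorem stC (n : ℕ) : StCStmt n := by
  obtain ⟨C0, -, hC⟩ := hk_grad_t n
  obtain ⟨M, hM, hD⟩ := Aac.exists_deriv_bound
  refine ⟨2 * M ^ 2 * (2 * C0 ^ 2 + 4), by positivity, fun e g v he hg hg1 h => ?_⟩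
  have hu := SC.cd_uu e g h
  refine ⟨hu.continuous, (Real.smoothTransition.contDiff (n := 1)).comp (contDiff_const.sub hu),
    fun x => ?_⟩
  have hd : DifferentiableAt ℝ (fun y => 2 - uu e g v y) x :=
    (hu.differentiable (by norm_num) x).const_sub 2
  have h0 : 0 ≤ uu e g v x :=
    div_nonneg (mul_nonneg he.le (h.tt_nonneg x)) (Real.rpow_nonneg (h.psi_pos x).le _)
  have e1 : gsq (eta e g v) x =
      deriv Real.smoothTransition (2 - uu e g v x) ^ 2 * gsq (uu e g v) x := by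
    have := gsq_comp (φ := Real.smoothTransition) (f := fun y => 2 - uu e g v y) (x := x)
      ((Real.smoothTransition.contDiff (n := 1)).differentiable (by norm_num) _).hasDerivAt hd
    refine this.trans ?_
    simp only [gsq, pdv_const_sub, neg_sq]
  rw [e1]
  by_cases hx : uu e g v x ≤ 2
  · have a1 : deriv Real.smoothTransition (2 - uu e g v x) ^ 2 ≤ M ^ 2 := by
      rw [← sq_abs]
      exact pow_le_pow_left₀ (abs_nonneg _) (hD _).1 2
    have a2 := SC.gsq_uu (e := e) hg hg1 h x (hC v h x)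
    have a3 : uu e g v x ^ 2 ≤ 2 * uu e g v x := by nlinarith
    calc _ ≤ M ^ 2 * ((2 * C0 ^ 2 + 4) * (2 * uu e g v x)) :=
          mul_le_mul a1 (a2.trans (mul_le_mul_of_nonneg_left a3 (by positivity)))
            (gsq_nonneg _ _) (sq_nonneg _)
      _ = _ := by ring
  · rw [(hD _).2 (Or.inl (by linarith))]
    have : 0 ≤ 2 * M ^ 2 * (2 * C0 ^ 2 + 4) * uu e g v x := by positivity
    simpa using this

end Crest.Agent.N067.Y.St
end

-- ▼ part N067/Y/Hyp
section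

/-!
# Row 67, block X5 (helper66): Simons identity in codimension one, trace-free Kato inequality

Pure algebra on the delta-calculus of row 222.
-/

set_option autoImplicit false
set_option linter.unusedSectionVars false

open Finset

noncomputable section

namespace Crest.Agent.N067.Hy

open Crest.Agent.N222 Crest.Agent.N222.Pre

variable {R : Type} [CommRing R] {ι : Type} [Fintype ι] [DecidableEq ι]

/-- second fundamental form `A a b = δ_a ν_b` -/
def A (S : Pre R ι) (ν : ι → R) (a b : ι) : R := S.D a (ν b)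

/-- mean curvature -/
def H (S : Pre R ι) (ν : ι → R) : R := ∑ a, A S ν a a

/-- `C = ∇A` -/
def C (S : Pre R ι) (ν : ι → R) (a b c : ι) : R := S.nab2 (A S ν) a b c

/-- the Simons field -/
def Y (S : Pre R ι) (ν : ι → R) (a : ι) : R := S.sY (A S ν) a

section Hom

variable {R' : Type} [CommRing R'] {S : Pre R ι} {S' : Pre R' ι} {φ : R →+* R'} (h : S.Hom S' φ)
  (ν : ι → R)
include h

theorem hom_A (a b : ι) : φ (A S ν a b) = A S' (fun a => φ (ν a)) a b := h.D _ _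

theorem hom_H : φ (H S ν) = H S' fun a => φ (ν a) := by simp only [H, map_sum, hom_A h]

theorem hom_C (a b c : ι) : φ (C S ν a b c) = C S' (fun a => φ (ν a)) a b c := by
  simp only [C, h.nab2, hom_A h]

theorem hom_Y (a : ι) : φ (Y S ν a) = Y S' (fun a => φ (ν a)) a := by
  simp only [Y, sY, map_sum, map_sub, map_mul, h.nab2, hom_A h]

end Hom

/-- hypersurfaces with unit normal `ν` -/
structure Hyp [Algebra ℝ R] (S : Pre R ι) (ν : ι → R) : Prop where
  ds : S.IsDS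
  P_eq : ∀ a b, S.P a b = (if a = b then 1 else 0) - ν a * ν b
  unit : ∑ a, ν a * ν a = 1

namespace Hyp

variable [Algebra ℝ R] {S : Pre R ι} {ν : ι → R} (h : Hyp S ν)
include h

theorem P_mul (Z : ι → R) (a : ι) : ∑ b, S.P a b * Z b = Z a - ν a * ∑ b, ν b * Z b := by
  simp [h.P_eq, sub_mul, mul_sum, mul_assoc]

theorem P_nu (a : ι) : ∑ b, S.P a b * ν b = 0 := by rw [h.P_mul, h.unit, mul_one, sub_self]


theorem nu_A (a : ι) : ∑ b, ν b * A S ν a b = 0 := by
  have h1 := congrArg (S.D a) h.unit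
  rw [h.ds.D_one, h.ds.D_sum] at h1
  simp only [h.ds.mul, sum_add_distrib, mul_comm (S.D a _)] at h1
  have h2 : algebraMap ℝ R 2⁻¹ * 2 = 1 := by
    rw [← map_ofNat (algebraMap ℝ R) 2, ← map_mul, inv_mul_cancel₀ two_ne_zero, map_one]
  simp only [A]
  linear_combination algebraMap ℝ R 2⁻¹ * h1 - (∑ b, ν b * S.D a (ν b)) * h2

theorem II_eq (a b c : ι) : S.II a b c = -(ν c * A S ν a b) := by
  have h1 : ∀ e, S.D a (S.P e c) = -(ν e * A S ν a c + ν c * A S ν a e) := fun e => by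
    have : S.D a (if e = c then 1 else 0) = 0 := by
      split_ifs
      exacts [h.ds.D_one a, h.ds.D_zero a]
    rw [h.P_eq, h.ds.D_sub, this, h.ds.mul, A, A]
    ring
  have h2 : ∀ e, S.P b e * S.D a (S.P e c) =
      -(S.P b e * ν e * A S ν a c) - ν c * (S.P b e * A S ν a e) := fun e => by
    rw [h1]; ring
  rw [h.ds.II_eq]
  simp only [h2, sum_sub_distrib, sum_neg_distrib, ← sum_mul, ← mul_sum, h.P_nu, h.P_mul, h.nu_A]
  ring

theorem A_symm (a b : ι) : A S ν a b = A S ν b a := by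
  have h1 : ∀ a b, ∑ c, ν c * S.II a b c = -A S ν a b := fun a b => by
    simp only [h.II_eq, mul_neg, ← mul_assoc, sum_neg_distrib, ← sum_mul, h.unit, one_mul]
  have h2 := h1 a b
  simp only [h.ds.II_symm a b, h1] at h2
  exact (neg_inj.1 h2).symm

theorem symT : S.SymT (A S ν) := ⟨fun b => h.ds.tan (ν b), h.A_symm⟩

theorem H_eq (c : ι) : S.H c = -(ν c * H S ν) := by
  simp only [← h.ds.tr_II, h.II_eq, sum_neg_distrib, ← mul_sum, H]

theorem sB_eq (T : ι → ι → R) (b e f : ι) : S.sB T b e f = -(ν e * ∑ g, A S ν b g * T g f) := by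
  simp only [sB, h.II_eq, neg_mul, sum_neg_distrib, mul_sum, mul_assoc]

theorem C_eq (a b c : ι) : C S ν a b c = ∑ f, S.P c f * S.hess (ν f) a b := by
  simp only [C, nab2, hess, A, mul_sum]
  rw [sum_comm]
  exact sum_congr rfl fun f _ => sum_congr rfl fun e _ => by ring

/-- Codazzi -/
theorem C12 (a b c : ι) : C S ν a b c = C S ν b a c := by simp only [h.C_eq, h.ds.hess _ a b]

theorem C23 (a b c : ι) : C S ν a b c = C S ν a c b := h.ds.T_symm h.symT a b c

theorem C_tan (b c : ι) : S.Tan fun a => C S ν a b c := h.ds.T_tan1 _ b c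

theorem tr_C (c : ι) : ∑ a, C S ν c a a = S.D c (H S ν) := h.ds.tr_T h.symT c

theorem tr_C' (c : ι) : ∑ a, C S ν a a c = S.D c (H S ν) := by
  rw [← h.tr_C]
  exact sum_congr rfl fun a _ => by rw [h.C23, h.C12]


theorem D_normSq (a : ι) : S.D a (∑ b, ∑ c, A S ν b c * A S ν b c) =
    2 * ∑ b, ∑ c, A S ν b c * C S ν a b c := h.ds.D_normSq h.symT a

theorem Y_tan : S.Tan (Y S ν) := h.ds.tan_sY h.symT

theorem Y_eq (a : ι) : Y S ν a =
    ∑ b, ∑ c, A S ν b c * C S ν a b c - ∑ c, A S ν a c * S.D c (H S ν) := by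
  simp only [Y, sY, sum_sub_distrib, ← h.tr_C', mul_sum]
  congr 1
  · exact sum_congr rfl fun b _ => sum_congr rfl fun c _ => by rw [h.C12 a b]; rfl
  · exact sum_comm

/-- **Simons** -/
theorem simons : S.dv (Y S ν) = ∑ a, ∑ b, ∑ c, C S ν a b c * C S ν a b c
    - ∑ c, S.D c (H S ν) * S.D c (H S ν)
    + H S ν * ∑ b, ∑ c, A S ν b c * ∑ g, A S ν b g * A S ν g c
    - (∑ b, ∑ c, A S ν b c * A S ν b c) * ∑ b, ∑ c, A S ν b c * A S ν b c := by
  set Q : ι → ι → R := fun b c => ∑ g, A S ν b g * A S ν g c with hQ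
  have hs : ∀ b e f, S.sB (A S ν) b e f = -(ν e * Q b f) := h.sB_eq _
  have Qs : ∀ a b, Q a b = Q b a := fun a b =>
    sum_congr rfl fun g _ => by rw [h.A_symm a, h.A_symm g b, mul_comm]
  have e0 : ∀ x y : R, ∑ c, -(ν c * x) * -(ν c * y) = x * y := fun x y => by
    rw [← one_mul (x * y), ← h.unit, sum_mul]
    exact sum_congr rfl fun c _ => by ring
  have e1 : ∑ e, ∑ b, ∑ c, S.nab2 (A S ν) e b c * S.nab2 (A S ν) b e c =
      ∑ a, ∑ b, ∑ c, C S ν a b c * C S ν a b c :=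
    sum_congr rfl fun a _ => sum_congr rfl fun b _ => sum_congr rfl fun c _ =>
      congrArg (C S ν a b c * ·) (h.C12 b a c)
  have e2 : ∀ c, ∑ a, S.nab2 (A S ν) a a c = S.D c (H S ν) := h.tr_C'
  have e3 : ∀ e, ∑ b, ∑ c, A S ν b c * S.sB (A S ν) b e c =
      -(ν e * ∑ b, ∑ c, A S ν b c * Q b c) := fun e => by
    simp only [hs, mul_sum, ← sum_neg_distrib]
    exact sum_congr rfl fun b _ => sum_congr rfl fun c _ => by ring
  have e4 : ∑ e, ∑ b, ∑ c, S.sB (A S ν) e c b * S.sB (A S ν) b c e =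
      ∑ g, ∑ e, ∑ c, S.sB (A S ν) g e c * S.sB (A S ν) g e c := by
    refine sum_congr rfl fun g _ => ?_
    rw [sum_comm (f := fun e c => S.sB (A S ν) g e c * S.sB (A S ν) g e c)]
    simp only [hs, Qs _ g]
  have e5 : ∀ c, ∑ a, S.sB (A S ν) a c a = -(ν c * ∑ b, ∑ c, A S ν b c * A S ν b c) := fun c => by
    simp only [hs, sum_neg_distrib, ← mul_sum, hQ]
    congr 2
    exact sum_congr rfl fun a _ => sum_congr rfl fun g _ => by rw [h.A_symm g a]
  change S.dv (S.sY (A S ν)) = _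
  rw [h.ds.dv_sY h.symT, e1, e4]
  simp only [e2, e3, e5, h.H_eq, e0]
  ring

end Hyp

/-! ### Kato -/

section Kato

theorem s12 (f : ι → ι → ι → ℝ) : ∑ i, ∑ j, ∑ k, f i j k = ∑ i, ∑ j, ∑ k, f j i k := sum_comm

theorem s23 (f : ι → ι → ι → ℝ) : ∑ i, ∑ j, ∑ k, f i j k = ∑ i, ∑ j, ∑ k, f i k j :=
  sum_congr rfl fun _ _ => sum_comm

theorem cs2 (f g : ι → ι → ℝ) : (∑ i, ∑ j, f i j * g i j) ^ 2 ≤
    (∑ i, ∑ j, f i j ^ 2) * ∑ i, ∑ j, g i j ^ 2 := by
  simpa only [Fintype.sum_prod_type] using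
    sum_mul_sq_le_sq_mul_sq univ (fun p : ι × ι => f p.1 p.2) fun p => g p.1 p.2

theorem cs3 (f g : ι → ι → ι → ℝ) : (∑ i, ∑ j, ∑ k, f i j k * g i j k) ^ 2 ≤
    (∑ i, ∑ j, ∑ k, f i j k ^ 2) * ∑ i, ∑ j, ∑ k, g i j k ^ 2 := by
  simpa only [Fintype.sum_prod_type] using sum_mul_sq_le_sq_mul_sq univ
    (fun p : ι × ι × ι => f p.1 p.2.1 p.2.2) fun p => g p.1 p.2.1 p.2.2

/-- Cauchy-Schwarz against a symmetric tensor -/
theorem cs_sym {C T : ι → ι → ι → ℝ} (h12 : ∀ a b c, C a b c = C b a c)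
    (h23 : ∀ a b c, C a b c = C a c b) (hT : ∀ a b c, T a b c = T a c b) :
    3 * (∑ i, ∑ j, ∑ k, C i j k * T i j k) ^ 2 ≤ (∑ i, ∑ j, ∑ k, C i j k ^ 2) *
      (∑ i, ∑ j, ∑ k, T i j k ^ 2 + 2 * ∑ i, ∑ j, ∑ k, T i j k * T j i k) := by
  have h := cs3 C fun i j k => T i j k + T j i k + T k i j
  have e1 : ∑ i, ∑ j, ∑ k, C i j k * T j i k = ∑ i, ∑ j, ∑ k, C i j k * T i j k := by
    rw [s12]; simp only [fun i j k => h12 j i k]
  have e2 : ∑ i, ∑ j, ∑ k, C i j k * T k i j = ∑ i, ∑ j, ∑ k, C i j k * T i j k := by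
    rw [s23, ← e1]; simp only [fun i j k => h23 i k j]
  have e3 : ∑ i, ∑ j, ∑ k, T j i k ^ 2 = ∑ i, ∑ j, ∑ k, T i j k ^ 2 := by rw [s12]
  have e4 : ∑ i, ∑ j, ∑ k, T k i j ^ 2 = ∑ i, ∑ j, ∑ k, T i j k ^ 2 := by rw [s23, e3]
  have e5 : ∑ i, ∑ j, ∑ k, T i j k * T k i j = ∑ i, ∑ j, ∑ k, T i j k * T j i k := by
    rw [s23]; simp only [fun i j k => hT i k j]
  have e6 : ∑ i, ∑ j, ∑ k, T j i k * T k i j = ∑ i, ∑ j, ∑ k, T i j k * T j i k := by
    rw [s12, ← e5]; simp only [fun i j k => hT k j i]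
  have e7 : ∀ x y z : ℝ, (x + y + z) ^ 2 =
      x ^ 2 + y ^ 2 + z ^ 2 + 2 * (x * y) + 2 * (x * z) + 2 * (y * z) := fun x y z => by ring
  simp only [mul_add, e7, sum_add_distrib, ← mul_sum, e1, e2, e3, e4, e5, e6] at h
  linarith

variable {P A : ι → ι → ℝ} {k : ℝ}

/-- symmetric, tangential, trace-free matrices -/
structure TF (P A : ι → ι → ℝ) (k : ℝ) : Prop where
  Ps : ∀ a b, P a b = P b a
  PP : ∀ a b, ∑ c, P a c * P c b = P a b
  trP : ∑ a, P a a = k
  As : ∀ a b, A a b = A b a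
  PA : ∀ a b, ∑ c, P a c * A c b = A a b
  trA : ∑ a, A a a = 0

theorem TF.P_sq (h : TF P A k) : ∑ a, ∑ b, P a b ^ 2 = k := by
  rw [← h.trP]
  exact sum_congr rfl fun a _ => by
    rw [← h.PP a a]
    exact sum_congr rfl fun b _ => by rw [sq, h.Ps b a]

theorem TF.A_P (h : TF P A k) : ∑ a, ∑ b, A a b * P a b = 0 := by
  rw [← h.trA]
  exact sum_congr rfl fun a _ => by
    rw [← h.PA a a]
    exact sum_congr rfl fun b _ => by rw [h.As b a, mul_comm]

theorem TF.P_mul (h : TF P A k) (u : ι → ℝ) (a : ι) :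
    ∑ b, P a b * ∑ c, A b c * u c = ∑ c, A a c * u c := by
  simp only [mul_sum, ← mul_assoc]
  rw [sum_comm]
  simp only [← sum_mul, h.PA]

theorem TF.swap (h : TF P A k) (u w : ι → ℝ) :
    ∑ a, u a * ∑ b, A a b * w b = ∑ b, (∑ a, A b a * u a) * w b := by
  simp only [mul_sum, sum_mul]
  rw [sum_comm]
  exact sum_congr rfl fun b _ => sum_congr rfl fun a _ => by rw [h.As a b]; ring

/-- `|A u|² ≤ (1 - 1/k) |A|² |u|²` -/
theorem TF.mul_le (h : TF P A k) (hk : 2 ≤ k) {u : ι → ℝ} (hu : ∀ a, ∑ b, P a b * u b = u a) :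
    k * ∑ a, (∑ b, A a b * u b) ^ 2 ≤ (k - 1) * ((∑ a, ∑ b, A a b ^ 2) * ∑ a, u a ^ 2) := by
  set w : ι → ℝ := fun a => ∑ b, A a b * u b with hw
  set s := ∑ a, w a * u a with hs
  have h1 := cs2 A fun a b => k * (w a * u b + u a * w b) - 2 * s * P a b
  have e1 : ∑ a, ∑ b, A a b * (k * (w a * u b + u a * w b) - 2 * s * P a b) =
      2 * k * ∑ a, w a ^ 2 := by
    have e : ∀ a b, A a b * (k * (w a * u b + u a * w b) - 2 * s * P a b) =
        k * (w a * (A a b * u b)) + k * (u a * (A a b * w b)) - 2 * s * (A a b * P a b) :=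
      fun a b => by ring
    simp only [e, sum_sub_distrib, sum_add_distrib, ← mul_sum, h.A_P, h.swap u w]
    simp only [hw, ← sq]
    ring
  have e2 : ∑ a, ∑ b, (k * (w a * u b + u a * w b) - 2 * s * P a b) ^ 2 =
      2 * k ^ 2 * ((∑ a, w a ^ 2) * ∑ a, u a ^ 2) + (2 * k ^ 2 - 4 * k) * s ^ 2 := by
    have e : ∀ a b, (k * (w a * u b + u a * w b) - 2 * s * P a b) ^ 2 =
        k ^ 2 * (w a ^ 2 * u b ^ 2) + k ^ 2 * (u a ^ 2 * w b ^ 2) +
          2 * k ^ 2 * (w a * u a * (w b * u b)) - 4 * k * s * (w a * (P a b * u b)) -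
          4 * k * s * (u a * (P a b * w b)) + 4 * s ^ 2 * P a b ^ 2 := fun a b => by ring
    have e' : ∀ a, ∑ b, P a b * w b = w a := h.P_mul u
    simp only [e, sum_sub_distrib, sum_add_distrib, ← mul_sum, ← sum_mul, hu, e', h.P_sq]
    simp only [mul_comm (u _) (w _), ← hs]
    ring
  have e3 : s ^ 2 ≤ (∑ a, w a ^ 2) * ∑ a, u a ^ 2 := sum_mul_sq_le_sq_mul_sq _ _ _
  rw [e1, e2] at h1
  have hW : 0 ≤ ∑ a, w a ^ 2 := by positivity
  have hA : 0 ≤ ∑ a, ∑ b, A a b ^ 2 := by positivity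
  have hU : 0 ≤ ∑ a, u a ^ 2 := by positivity
  rcases hW.eq_or_lt with h0 | h0
  · rw [← h0, mul_zero]
    exact mul_nonneg (by linarith) (mul_nonneg hA hU)
  have h2 := mul_le_mul_of_nonneg_left e3
    (mul_nonneg hA (show 0 ≤ 2 * k ^ 2 - 4 * k by nlinarith))
  refine le_of_mul_le_mul_left ?_ (show 0 < 4 * k * ∑ a, w a ^ 2 by positivity)
  linarith

/-- **Kato with constant `2/k`**: `G = A : C`, `h = tr C` -/
theorem TF.kato (h : TF P A k) (hk : 2 ≤ k) {C : ι → ι → ι → ℝ} {t : ι → ℝ}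
    (h12 : ∀ a b c, C a b c = C b a c) (h23 : ∀ a b c, C a b c = C a c b)
    (hP : ∀ a b c, ∑ e, P a e * C e b c = C a b c) (ht : ∀ c, ∑ a, C c a a = t c) {η : ℝ}
    (hη : 0 < η) : ∑ a, (∑ b, ∑ c, A b c * C a b c) ^ 2 ≤ (∑ a, ∑ b, A a b ^ 2) *
      ((1 + η) * (k / (k + 2)) * ∑ a, ∑ b, ∑ c, C a b c ^ 2 + (1 + η⁻¹) * ∑ a, t a ^ 2) := by
  set u : ι → ℝ := fun a => ∑ b, ∑ c, A b c * C a b c with hu
  set w : ι → ℝ := fun a => ∑ b, A a b * u b with hw
  have hPu : ∀ a, ∑ b, P a b * u b = u a := fun a => by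
    simp only [hu, mul_sum]
    rw [sum_comm]
    refine sum_congr rfl fun b _ => ?_
    rw [sum_comm]
    refine sum_congr rfl fun c _ => ?_
    rw [← hP a b c, mul_sum]
    exact sum_congr rfl fun e _ => by ring
  have hPw : ∀ a, ∑ b, P a b * w b = w a := h.P_mul u
  have h1 := cs_sym (T := fun a b c => (k + 2) * (u a * A b c) - 2 * (w a * P b c)) h12 h23
    fun a b c => by rw [h.As b c, h.Ps b c]
  have e1 : ∑ a, ∑ b, ∑ c, C a b c * ((k + 2) * (u a * A b c) - 2 * (w a * P b c)) =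
      (k + 2) * ∑ a, u a ^ 2 - 2 * ∑ a, w a * t a := by
    have e : ∀ a b c, C a b c * ((k + 2) * (u a * A b c) - 2 * (w a * P b c)) =
        (k + 2) * (u a * (A b c * C a b c)) - 2 * (w a * (P b c * C c a b)) := fun a b c => by
      rw [h23 a b c, h12 a c b]; ring
    have e' : ∀ a, ∑ b, C b a b = t a := fun a => by
      rw [← ht]; exact sum_congr rfl fun b _ => h12 b a b
    simp only [e, sum_sub_distrib, ← mul_sum, hP, e']
    simp only [hu, ← sq]
  have e2 : ∑ a, ∑ b, ∑ c, ((k + 2) * (u a * A b c) - 2 * (w a * P b c)) ^ 2 =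
      (k + 2) ^ 2 * ((∑ a, ∑ b, A a b ^ 2) * ∑ a, u a ^ 2) + 4 * k * ∑ a, w a ^ 2 := by
    have e : ∀ a b c, ((k + 2) * (u a * A b c) - 2 * (w a * P b c)) ^ 2 =
        (k + 2) ^ 2 * (u a ^ 2 * A b c ^ 2) - 4 * (k + 2) * (u a * w a * (A b c * P b c)) +
          4 * (w a ^ 2 * P b c ^ 2) := fun a b c => by ring
    simp only [e, sum_sub_distrib, sum_add_distrib, ← mul_sum, ← sum_mul, h.A_P, h.P_sq]
    ring
  have e3 : ∑ a, ∑ b, ∑ c, ((k + 2) * (u a * A b c) - 2 * (w a * P b c)) *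
      ((k + 2) * (u b * A a c) - 2 * (w b * P a c)) = k ^ 2 * ∑ a, w a ^ 2 := by
    have e : ∀ a b c, ((k + 2) * (u a * A b c) - 2 * (w a * P b c)) *
        ((k + 2) * (u b * A a c) - 2 * (w b * P a c)) =
        (k + 2) ^ 2 * (u a * (A a c * (A c b * u b))) - 2 * (k + 2) * (u a * (P a c * A c b * w b)) -
          2 * (k + 2) * (w a * (P b c * A c a * u b)) + 4 * (w a * (P a c * P c b * w b)) :=
      fun a b c => by rw [h.As b c, h.As c a, h.Ps b c]; ring
    have f1 : ∑ a, ∑ b, ∑ c, u a * (A a c * (A c b * u b)) = ∑ a, w a ^ 2 := by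
      rw [s23]
      simp only [← mul_sum, h.swap u, hw, sq]
    have f2 : ∑ a, w a * ∑ b, A b a * u b = ∑ a, w a ^ 2 := by
      simp only [fun a b => h.As b a, hw, sq]
    simp only [e, sum_sub_distrib, sum_add_distrib, ← mul_sum (a := (k + 2) ^ 2), f1]
    simp only [← mul_sum, ← sum_mul, h.PA, h.PP, hPw, f2, h.swap u w, ← sq]
    simp only [hw, ← sq]
    ring
  rw [e1, e2, e3] at h1
  have h2 := h.mul_le hk hPu
  have h3 : (∑ a, w a * t a) ^ 2 ≤ (∑ a, w a ^ 2) * ∑ a, t a ^ 2 := sum_mul_sq_le_sq_mul_sq _ _ _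
  change k * ∑ a, w a ^ 2 ≤ _ at h2
  change ∑ a, u a ^ 2 ≤ _
  have hW : 0 ≤ ∑ a, w a ^ 2 := by positivity
  have hA : 0 ≤ ∑ a, ∑ b, A a b ^ 2 := by positivity
  have hU : 0 ≤ ∑ a, u a ^ 2 := by positivity
  have hC : 0 ≤ ∑ a, ∑ b, ∑ c, C a b c ^ 2 := by positivity
  have hT : 0 ≤ ∑ a, t a ^ 2 := by positivity
  generalize ∑ a, w a ^ 2 = W, ∑ a, ∑ b, A a b ^ 2 = α, ∑ a, u a ^ 2 = U,
    ∑ a, ∑ b, ∑ c, C a b c ^ 2 = Γ, ∑ a, t a ^ 2 = τ, ∑ a, w a * t a = s at *
  have hk2 : 0 < k + 2 := by linarith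
  rcases hU.eq_or_lt with h0 | h0
  · rw [← h0]; positivity
  have h4 : (U - 2 * s / (k + 2)) ^ 2 ≤ k / (k + 2) * Γ * (α * U) := by
    have : (U - 2 * s / (k + 2)) ^ 2 = ((k + 2) * U - 2 * s) ^ 2 / (k + 2) ^ 2 := by field_simp
    rw [this, div_le_iff₀ (by positivity)]
    have h5 := mul_le_mul_of_nonneg_left h2 (show 0 ≤ Γ * (2 * (k + 2)) by positivity)
    have h6 : k / (k + 2) * Γ * (α * U) * (k + 2) ^ 2 = k * (k + 2) * Γ * (α * U) := by field_simp
    rw [h6]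
    linarith
  have h5 : (2 * s / (k + 2)) ^ 2 ≤ τ * (α * U) := by
    have h6 : W ≤ α * U := by
      refine le_of_mul_le_mul_left ?_ (show 0 < k by linarith)
      nlinarith [mul_nonneg hA h0.le]
    have h7 := mul_le_mul_of_nonneg_right h6 hT
    have h8 : (2 * s / (k + 2)) ^ 2 ≤ s ^ 2 := by
      rw [div_pow, div_le_iff₀ (by positivity)]
      nlinarith [mul_nonneg (sq_nonneg s) (show 0 ≤ (k + 2) ^ 2 - 4 by nlinarith)]
    linarith
  have h6 : ∀ x y : ℝ, (x + y) ^ 2 ≤ (1 + η) * x ^ 2 + (1 + η⁻¹) * y ^ 2 := fun x y => by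
    have : (1 + η) * x ^ 2 + (1 + η⁻¹) * y ^ 2 - (x + y) ^ 2 = η⁻¹ * (η * x - y) ^ 2 := by
      field_simp; ring
    have : 0 ≤ η⁻¹ * (η * x - y) ^ 2 := by positivity
    linarith
  have h7 := h6 (U - 2 * s / (k + 2)) (2 * s / (k + 2))
  rw [sub_add_cancel] at h7
  have h8 := mul_le_mul_of_nonneg_left h4 (show 0 ≤ 1 + η by positivity)
  have h9 := mul_le_mul_of_nonneg_left h5 (show 0 ≤ 1 + η⁻¹ by positivity)
  refine le_of_mul_le_mul_left ?_ h0
  linarith

end Kato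

end Crest.Agent.N067.Hy

end
end

-- ▼ part N067/Y/Hyp2
section

/-!
# Row 67, block X5 (helper66): the pointwise Simons-Kato inequality
-/

set_option autoImplicit false
set_option linter.unusedSectionVars false

open Finset

noncomputable section

namespace Crest.Agent.N067.Hy

open Crest.Agent.N222 Crest.Agent.N222.Pre

variable {R : Type} [CommRing R] {ι : Type} [Fintype ι] [DecidableEq ι]

/-- `|A|²` -/
def nA (S : Pre R ι) (ν : ι → R) : R := ∑ b, ∑ c, A S ν b c * A S ν b c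

/-- the values at a point -/
structure Dat (ι : Type) where
  P : ι → ι → ℝ
  A : ι → ι → ℝ
  C : ι → ι → ι → ℝ
  dH : ι → ℝ
  dα : ι → ℝ
  Y : ι → ℝ
  dY : ℝ

/-- evaluation -/
def dat (φ : R →+* ℝ) (S : Pre R ι) (ν : ι → R) : Dat ι :=
  ⟨fun a b => φ (S.P a b), fun a b => φ (A S ν a b), fun a b c => φ (C S ν a b c),
    fun a => φ (S.D a (H S ν)), fun a => φ (S.D a (nA S ν)), fun a => φ (Y S ν a),
    φ (S.dv (Y S ν))⟩

theorem dat_hom {R' : Type} [CommRing R'] {S : Pre R ι} {S' : Pre R' ι} {φ : R →+* R'}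
    (h : S.Hom S' φ) (ψ : R' →+* ℝ) (ν : ι → R) :
    dat (ψ.comp φ) S ν = dat ψ S' fun a => φ (ν a) := by
  simp only [dat, RingHom.comp_apply, h.P, hom_A h, hom_C h, h.D, hom_H h, hom_Y h, h.dv, nA,
    map_sum, map_mul]

/-- the identities -/
structure Dat.OK (D : Dat ι) : Prop where
  Ps : ∀ a b, D.P a b = D.P b a
  PP : ∀ a b, ∑ c, D.P a c * D.P c b = D.P a b
  As : ∀ a b, D.A a b = D.A b a
  PA : ∀ a b, ∑ c, D.P a c * D.A c b = D.A a b
  c12 : ∀ a b c, D.C a b c = D.C b a c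
  c23 : ∀ a b c, D.C a b c = D.C a c b
  PC : ∀ a b c, ∑ e, D.P a e * D.C e b c = D.C a b c
  trC : ∀ c, ∑ a, D.C c a a = D.dH c
  PH : ∀ a, ∑ b, D.P a b * D.dH b = D.dH a
  dα : ∀ a, D.dα a = 2 * ∑ b, ∑ c, D.A b c * D.C a b c
  PY : ∀ a, ∑ b, D.P a b * D.Y b = D.Y a
  Y : ∀ a, D.Y a = ∑ b, ∑ c, D.A b c * D.C a b c - ∑ c, D.A a c * D.dH c
  sim : D.dY = ∑ a, ∑ b, ∑ c, D.C a b c ^ 2 - ∑ c, D.dH c ^ 2
    + (∑ a, D.A a a) * ∑ b, ∑ c, D.A b c * ∑ g, D.A b g * D.A g c - (∑ b, ∑ c, D.A b c ^ 2) ^ 2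

theorem Hyp.ok [Algebra ℝ R] {S : Pre R ι} {ν : ι → R} (h : Hyp S ν) (φ : R →+* ℝ) :
    (dat φ S ν).OK where
  Ps a b := congrArg φ (h.ds.symm a b)
  PP a b := by simpa only [dat, nA, map_sum, map_mul] using congrArg φ (h.ds.PP a b)
  As a b := congrArg φ (h.A_symm a b)
  PA a b := by simpa only [dat, nA, map_sum, map_mul] using congrArg φ (h.symT.tan b a)
  c12 a b c := congrArg φ (h.C12 a b c)
  c23 a b c := congrArg φ (h.C23 a b c)
  PC a b c := by simpa only [dat, nA, map_sum, map_mul] using congrArg φ (h.C_tan b c a)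
  trC c := by simpa only [dat, nA, map_sum] using congrArg φ (h.tr_C c)
  PH a := by simpa only [dat, nA, map_sum, map_mul] using congrArg φ (h.ds.PD a (H S ν))
  dα a := by simpa only [dat, nA, map_sum, map_mul, map_ofNat] using congrArg φ (h.D_normSq a)
  PY a := by simpa only [dat, nA, map_sum, map_mul] using congrArg φ (h.Y_tan a)
  Y a := by simpa only [dat, nA, map_sum, map_mul, map_sub] using congrArg φ (h.Y_eq a)
  sim := by
    have := congrArg φ h.simons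
    simp only [map_sub, map_add, map_mul] at this
    simpa only [dat, nA, map_sum, map_mul, H, sq] using this

theorem amgm {x P Q l l' : ℝ} (h : x ^ 2 ≤ P * Q) (hP : 0 ≤ P) (hQ : 0 ≤ Q) (hl : 0 ≤ l)
    (hl' : 0 ≤ l') (e : l * l' = 1) : -(l * P + l' * Q) ≤ 2 * x ∧ 2 * x ≤ l * P + l' * Q :=
  abs_le_of_sq_le_sq' (by nlinarith [sq_nonneg (l * P - l' * Q)]) (by positivity)

theorem scal {k H y Y p g X τ Γ E2 Cq s1 s2 s3 T Q α : ℝ} (k2 : 2 ≤ k) (k7 : k ≤ 7) (y0 : 0 ≤ y)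
    (hY : y < Y) (p1 : 1 ≤ p) (p2 : p ≤ 3 / 2) (hα : y = α - H ^ 2 / k)
    (hK : X ≤ y * ((1 + 1 / 200) * (k / (k + 2)) * Cq + (1 + (1 / 200)⁻¹) * τ)) (hE2 : E2 ≤ y * τ)
    (c1 : s1 ^ 2 ≤ X * E2) (c2 : s2 ^ 2 ≤ Γ * X) (c3 : s3 ^ 2 ≤ Γ * E2) (c4 : T ^ 2 ≤ α * Q)
    (c5 : Q ≤ α ^ 2) (n1 : 0 ≤ X) (n2 : 0 ≤ τ) (n3 : 0 ≤ Γ) (n4 : 0 ≤ Cq) (n5 : 0 ≤ α) :
    p ^ 2 * (X / Y) * g ^ 2 ≤ 199 / 200 * (g ^ 2 * (Cq - τ + H * T - α ^ 2) +
      (2 * (p - 1) * g ^ 2 * (X / Y - s1 / Y) + 2 * (g * s2) - 2 * (g * s3))) +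
        999 / 1000 * Y ^ 2 * g ^ 2 + 10 ^ 10 * (τ + H ^ 4) * g ^ 2 + 201 * Y * Γ := by
  have k0 : 0 < k := by linarith
  have Y0 : 0 < Y := y0.trans_lt hY
  have hE3 : E2 ≤ Y * τ := hE2.trans (mul_le_mul_of_nonneg_right hY.le n2)
  obtain ⟨Z, rfl⟩ : ∃ Z, X = Z * Y := ⟨X / Y, (div_mul_cancel₀ _ Y0.ne').symm⟩
  obtain ⟨s, rfl⟩ : ∃ s, s1 = s * Y := ⟨s1 / Y, (div_mul_cancel₀ _ Y0.ne').symm⟩
  rw [mul_div_cancel_right₀ _ Y0.ne', mul_div_cancel_right₀ _ Y0.ne']
  have Z0 : 0 ≤ Z := nonneg_of_mul_nonneg_left n1 Y0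
  have g0 := sq_nonneg g
  have a1 : Z ≤ 469 / 600 * Cq + 201 * τ := by
    have b1 : k / (k + 2) ≤ 7 / 9 := by rw [div_le_iff₀ (by linarith)]; linarith
    have b2 := mul_le_mul_of_nonneg_right b1 n4
    have b3 : y * ((1 + 1 / 200) * (k / (k + 2)) * Cq + (1 + (1 / 200)⁻¹) * τ) ≤
        Y * (469 / 600 * Cq + 201 * τ) :=
      mul_le_mul hY.le (by norm_num; linarith) (by positivity) Y0.le
    exact le_of_mul_le_mul_right (by linarith) Y0
  have a2 : s ^ 2 ≤ Z * τ := by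
    refine le_of_mul_le_mul_right ?_ (pow_pos Y0 2)
    linarith [mul_le_mul_of_nonneg_left hE3 n1]
  have a3 := (amgm a2 Z0 n2 (l := 1 / 100) (l' := 100) (by norm_num) (by norm_num) (by norm_num)).2
  have a4 := (amgm (x := g * s2) (P := g ^ 2 * Z) (Q := Y * Γ) (l := 1 / 200) (l' := 200)
    (by linarith [mul_le_mul_of_nonneg_left c2 g0]) (by positivity) (by positivity) (by norm_num)
    (by norm_num) (by norm_num)).1
  have a5 := (amgm (x := g * s3) (P := g ^ 2 * τ) (Q := Y * Γ) (l := 1) (l' := 1)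
    (by linarith [mul_le_mul_of_nonneg_left (c3.trans (mul_le_mul_of_nonneg_left hE3 n3)) g0])
    (by positivity) (by positivity) (by norm_num) (by norm_num) (by norm_num)).2
  have c6 := c4.trans (mul_le_mul_of_nonneg_left c5 n5)
  have a6 := (amgm (x := H * T) (P := α ^ 2) (Q := H ^ 2 * α) (l := 1 / 1000) (l' := 1000)
    (by linarith [mul_le_mul_of_nonneg_left c6 (sq_nonneg H)]) (by positivity) (by positivity) (by norm_num) (by norm_num) (by norm_num)).1
  have a7 : α ≤ Y + H ^ 2 := by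
    have : H ^ 2 / k ≤ H ^ 2 := div_le_self (sq_nonneg _) (by linarith)
    linarith
  have a8 : α ^ 2 ≤ 1001 / 1000 * Y ^ 2 + 1001 * H ^ 4 := by
    nlinarith [pow_le_pow_left₀ n5 a7 2, sq_nonneg (Y - 1000 * H ^ 2)]
  have a9 : -(1003 / 1000 * Y ^ 2 + 10 ^ 9 * H ^ 4) ≤ H * T - α ^ 2 := by
    nlinarith [sq_nonneg (α - 500000 * H ^ 2), sq_nonneg Y, sq_nonneg (H ^ 2)]
  have a10 : 2 * (p - 1) * s ≤ 1 / 200 * Z + 50 * τ := by
    have b1 := mul_le_mul_of_nonneg_left a3 (sub_nonneg.2 p1)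
    have b2 := mul_le_mul_of_nonneg_right (show p - 1 ≤ 1 / 2 by linarith)
      (show 0 ≤ 1 / 100 * Z + 100 * τ by positivity)
    linarith
  have a11 : p ^ 2 * Z ≤ 199 / 200 * (1269 / 1000 + 2 * (p - 1)) * Z :=
    mul_le_mul_of_nonneg_right (by nlinarith [mul_nonneg (sub_nonneg.2 p1) (sub_nonneg.2 p2)]) Z0
  have a12 : p ^ 2 * Z ≤ 199 / 200 * (Cq - τ + H * T - α ^ 2 + 2 * (p - 1) * (Z - s) - 1 / 200 * Z - τ) +
      999 / 1000 * Y ^ 2 + 10 ^ 10 * (τ + H ^ 4) := by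
    have : 0 ≤ H ^ 4 := by positivity
    linarith [sq_nonneg Y]
  have a13 := mul_le_mul_of_nonneg_right a12 g0
  linarith [mul_nonneg Y0.le n3]

namespace Dat.OK

variable {D : Dat ι} (h : D.OK) {k H : ℝ} (hk : ∑ a, D.P a a = k) (hH : ∑ a, D.A a a = H)
include h hk hH

theorem tf (k0 : k ≠ 0) : TF D.P (fun a b => D.A a b - H / k * D.P a b) k where
  Ps := h.Ps
  PP := h.PP
  trP := hk
  As a b := by rw [h.As, h.Ps]
  PA a b := by simp only [mul_sub, sum_sub_distrib, h.PA, mul_left_comm _ (H / k), ← mul_sum, h.PP]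
  trA := by rw [sum_sub_distrib, ← mul_sum, hk, hH, div_mul_cancel₀ _ k0, sub_self]

theorem sq_eq (k0 : k ≠ 0) : ∑ a, ∑ b, (D.A a b - H / k * D.P a b) ^ 2 =
    ∑ a, ∑ b, D.A a b ^ 2 - H ^ 2 / k := by
  have h1 := (h.tf hk hH k0).A_P
  have h2 := (h.tf hk hH k0).P_sq
  have e : ∀ a b, D.A a b ^ 2 = (D.A a b - H / k * D.P a b) ^ 2 +
      2 * (H / k) * ((D.A a b - H / k * D.P a b) * D.P a b) + (H / k) ^ 2 * D.P a b ^ 2 :=
    fun a b => by ring
  rw [sum_congr rfl fun a _ => sum_congr rfl fun b _ => e a b]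
  simp only [sum_add_distrib, ← mul_sum, h1, h2]
  have : (H / k) ^ 2 * k = H ^ 2 / k := by field_simp
  linarith

/-- **Simons + Kato**; `y = |A₀|²`, `2 G = δ y`, `γ = δ g` -/
theorem main (k2 : 2 ≤ k) (k7 : k ≤ 7) {y Y p g : ℝ} {G γ : ι → ℝ}
    (hy : ∑ a, ∑ b, (D.A a b - H / k * D.P a b) ^ 2 = y) (hY : y < Y) (p1 : 1 ≤ p) (p2 : p ≤ 3 / 2)
    (hG : ∀ a, 2 * G a = D.dα a - 2 * H * D.dH a / k) :
    p ^ 2 * ((∑ a, G a ^ 2) / Y) * g ^ 2 ≤
      199 / 200 * (g ^ 2 * D.dY + ∑ a, (2 * (p - 1) / Y * G a * g ^ 2 + 2 * g * γ a) * D.Y a) +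
        999 / 1000 * Y ^ 2 * g ^ 2 + 10 ^ 10 * (∑ a, D.dH a ^ 2 + H ^ 4) * g ^ 2 +
        201 * Y * ∑ a, γ a ^ 2 := by
  have k0 : 0 < k := by linarith
  have tf := h.tf hk hH k0.ne'
  have hα := h.sq_eq hk hH k0.ne'
  set B : ι → ι → ℝ := fun a b => D.A a b - H / k * D.P a b with hB
  have hAB : ∀ a b, D.A a b = B a b + H / k * D.P a b := fun a b => by simp [hB]
  have hPC : ∀ a, ∑ b, ∑ c, D.P b c * D.C a b c = D.dH a := fun a => by
    rw [← h.trC]
    refine sum_congr rfl fun b _ => ?_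
    rw [h.c12 a b b, ← h.PC b a b]
    exact sum_congr rfl fun c _ => by rw [h.c23 a b c, h.c12 a c b]
  have hAC : ∀ a, ∑ b, ∑ c, D.A b c * D.C a b c =
      ∑ b, ∑ c, B b c * D.C a b c + H / k * D.dH a := fun a => by
    simp only [hAB, add_mul, sum_add_distrib, mul_assoc, ← mul_sum, hPC]
  have hG' : ∀ a, ∑ b, ∑ c, B b c * D.C a b c = G a := fun a => by
    have := hG a
    rw [h.dα, hAC] at this
    linear_combination (-1 / 2 : ℝ) * this
  set E : ι → ℝ := fun a => ∑ c, B a c * D.dH c with hE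
  have hYv : ∀ a, D.Y a = G a - E a := fun a => by
    rw [h.Y, hAC, hG']
    simp only [hAB, add_mul, sum_add_distrib, mul_assoc, ← mul_sum, h.PH, hE]
    ring
  have hK := tf.kato k2 h.c12 h.c23 h.PC h.trC (η := 1 / 200) (by norm_num)
  change ∑ a, ∑ b, B a b ^ 2 = y at hy
  simp only [hG', hy] at hK
  have hE2 : ∑ a, E a ^ 2 ≤ y * ∑ a, D.dH a ^ 2 := by
    rw [← hy, sum_mul]
    exact sum_le_sum fun a _ => sum_mul_sq_le_sq_mul_sq _ _ _
  have c1 := sum_mul_sq_le_sq_mul_sq univ G E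
  have c2 := sum_mul_sq_le_sq_mul_sq univ γ G
  have c3 := sum_mul_sq_le_sq_mul_sq univ γ E
  have c4 := cs2 D.A fun b c => ∑ g, D.A b g * D.A g c
  have c5 : ∑ b, ∑ c, (∑ g, D.A b g * D.A g c) ^ 2 ≤ (∑ b, ∑ c, D.A b c ^ 2) ^ 2 := by
    rw [sq, sum_mul_sum]
    refine sum_le_sum fun b _ => sum_le_sum fun c _ => ?_
    simp only [h.As _ c]
    exact sum_mul_sq_le_sq_mul_sq _ _ _
  have e1 : ∑ a, (2 * (p - 1) / Y * G a * g ^ 2 + 2 * g * γ a) * D.Y a =
      2 * (p - 1) * g ^ 2 * ((∑ a, G a ^ 2) / Y - (∑ a, G a * E a) / Y) +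
        2 * (g * ∑ a, γ a * G a) - 2 * (g * ∑ a, γ a * E a) := by
    simp only [hYv, sum_div, mul_sum, ← sum_sub_distrib, ← sum_add_distrib]
    exact sum_congr rfl fun a _ => by ring
  rw [e1, h.sim, hH]
  rw [hy] at hα
  have y0 : 0 ≤ y := by rw [← hy]; positivity
  have n1 : 0 ≤ ∑ a, G a ^ 2 := by positivity
  have n2 : 0 ≤ ∑ a, D.dH a ^ 2 := by positivity
  have n3 : 0 ≤ ∑ a, γ a ^ 2 := by positivity
  have n4 : 0 ≤ ∑ a, ∑ b, ∑ c, D.C a b c ^ 2 := by positivity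
  have n5 : 0 ≤ ∑ b, ∑ c, D.A b c ^ 2 := by positivity
  exact scal k2 k7 y0 hY p1 p2 hα hK hE2 c1 c2 c3 c4 c5 n1 n2 n3 n4 n5

end Dat.OK

end Crest.Agent.N067.Hy

end
end

-- ▼ part N067/Y/Lev
section

/-!
# Row 67, block X5 (helper66): the delta-calculus on the level sets of a function
-/

set_option autoImplicit false

open Topology Filter Set
open scoped ContDiff

namespace Crest.Agent.N067.Lv

open Crest.Agent.R077 Crest.Agent.N222 Crest.Agent.N067.Hy

noncomputable section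

variable {n : ℕ} {ν : Fin n → EE n → ℝ} {f g d N : EE n → ℝ} {x : EE n} {U : Set (EE n)}

/-- tangential derivative `δ_a` -/
def dl (ν : Fin n → EE n → ℝ) (a : Fin n) (f : EE n → ℝ) (x : EE n) : ℝ :=
  pdv a f x - ν a x * ∑ b, ν b x * pdv b f x

/-- the calculus on all functions -/
def pre (ν : Fin n → EE n → ℝ) : Pre (EE n → ℝ) (Fin n) := ⟨fun a y => y a, dl ν⟩

/-- the projection -/
def Pm (ν : Fin n → EE n → ℝ) (a b : Fin n) (x : EE n) : ℝ :=
  (if a = b then 1 else 0) - ν a x * ν b x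

theorem Pm_mul (z : Fin n → ℝ) (a : Fin n) :
    ∑ b, Pm ν a b x * z b = z a - ν a x * ∑ b, ν b x * z b := by
  simp [Pm, sub_mul, Finset.mul_sum, mul_assoc]

theorem dl_eq (a : Fin n) : dl ν a f x = ∑ b, Pm ν a b x * pdv b f x :=
  (Pm_mul (fun b => pdv b f x) a).symm

theorem P_eq (a b : Fin n) : (pre ν).P a b = Pm ν a b := funext fun x => by
  change dl ν a (fun y => y b) x = _
  simp [dl_eq, pdv_coord]

theorem dl_congr (h : f =ᶠ[𝓝 x] g) (a : Fin n) : dl ν a f x = dl ν a g x := by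
  simp only [dl, pdv_congr h]

theorem dl_const (c : ℝ) (a : Fin n) : dl ν a (fun _ => c) x = 0 := by simp [dl, pdv_const]

theorem dl_add (hf : DifferentiableAt ℝ f x) (hg : DifferentiableAt ℝ g x) (a : Fin n) :
    dl ν a (fun y => f y + g y) x = dl ν a f x + dl ν a g x := by
  simp only [dl_eq, pdv_add hf hg, mul_add, Finset.sum_add_distrib]

theorem dl_sub (hf : DifferentiableAt ℝ f x) (hg : DifferentiableAt ℝ g x) (a : Fin n) :
    dl ν a (fun y => f y - g y) x = dl ν a f x - dl ν a g x := by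
  simp only [dl_eq, pdv_sub hf hg, mul_sub, Finset.sum_sub_distrib]

theorem dl_mul (hf : DifferentiableAt ℝ f x) (hg : DifferentiableAt ℝ g x) (a : Fin n) :
    dl ν a (fun y => f y * g y) x = f x * dl ν a g x + dl ν a f x * g x := by
  simp only [dl_eq, pdv_mul hf hg, Finset.mul_sum, Finset.sum_mul, ← Finset.sum_add_distrib]
  exact Finset.sum_congr rfl fun _ _ => by ring

theorem dl_comp {φ : ℝ → ℝ} {φ' : ℝ} (hφ : HasDerivAt φ φ' (f x)) (hf : DifferentiableAt ℝ f x)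
    (a : Fin n) : dl ν a (fun y => φ (f y)) x = φ' * dl ν a f x := by
  simp only [dl_eq, pdv_comp hφ hf, Finset.mul_sum, mul_left_comm]

theorem sm_dl (hν : ∀ a, ContDiff ℝ ∞ (ν a)) (hf : ContDiff ℝ ∞ f) (a : Fin n) :
    ContDiff ℝ ∞ (dl ν a f) :=
  (contDiff_pdv hf (by simp) a).sub ((hν a).mul
    (ContDiff.sum fun b _ => (hν b).mul (contDiff_pdv hf (by simp) b)))

theorem hess_symm (hf : ContDiffAt ℝ 2 f x) (a b : Fin n) :
    ∑ c, Pm ν b c x * dl ν a (pdv c f) x = ∑ c, Pm ν a c x * dl ν b (pdv c f) x := by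
  simp only [dl_eq, Finset.mul_sum]
  rw [Finset.sum_comm]
  exact Finset.sum_congr rfl fun c _ => Finset.sum_congr rfl fun e _ => by
    rw [pdv_comm hf c e]; ring

/-- `ν = ∇d / N` is the unit normal of the level sets of `d` in `U` -/
structure Lev (U : Set (EE n)) (d N : EE n → ℝ) (ν : Fin n → EE n → ℝ) : Prop where
  op : IsOpen U
  d_sm : ContDiff ℝ ∞ d
  N_sm : ContDiff ℝ ∞ N
  ν_sm : ∀ a, ContDiff ℝ ∞ (ν a)
  ne : ∀ x ∈ U, N x ≠ 0
  eq : ∀ x ∈ U, ∀ a, N x * ν a x = pdv a d x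
  unit : ∀ x ∈ U, ∑ a, ν a x * ν a x = 1

/-- restriction -/
def res (U : Set (EE n)) : (EE n → ℝ) →+* (U → ℝ) := RingHom.pi fun y => Pi.evalRingHom _ y.1

/-- the calculus on all functions on `U` -/
def preU (U : Set (EE n)) (ν : Fin n → EE n → ℝ) : Pre (U → ℝ) (Fin n) :=
  ⟨fun a y => y.1 a, fun a f y => dl ν a (Function.extend Subtype.val f 0) y⟩

theorem homU (hU : IsOpen U) : (pre ν).Hom (preU U ν) (res U) :=
  ⟨fun _ => rfl, fun a f => funext fun y => dl_congr (by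
    filter_upwards [hU.mem_nhds y.2] with z hz
    exact (Subtype.val_injective.extend_apply (res U f) 0 ⟨z, hz⟩).symm) a⟩

/-- restrictions of smooth functions -/
def RU (U : Set (EE n)) : Subalgebra ℝ (U → ℝ) where
  carrier := {f | ∃ F, ContDiff ℝ ∞ F ∧ res U F = f}
  mul_mem' := by
    rintro _ _ ⟨F, hF, rfl⟩ ⟨G, hG, rfl⟩
    exact ⟨_, hF.mul hG, rfl⟩
  add_mem' := by
    rintro _ _ ⟨F, hF, rfl⟩ ⟨G, hG, rfl⟩
    exact ⟨_, hF.add hG, rfl⟩
  algebraMap_mem' r := ⟨fun _ => r, contDiff_const, rfl⟩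

/-- evaluation -/
def evS (y : U) : RU U →+* ℝ := (Pi.evalRingHom _ y).comp (RU U).val.toRingHom

theorem ext_ev {f g : RU U} (h : ∀ y, evS y f = evS y g) : f = g := Subtype.ext (funext h)

namespace Lev

variable (h : Lev U d N ν)
include h

theorem νd (a : Fin n) (x : EE n) : DifferentiableAt ℝ (ν a) x :=
  (h.ν_sm a).differentiable (by simp) x

theorem Nd (x : EE n) : DifferentiableAt ℝ N x := h.N_sm.differentiable (by simp) x

theorem d2 (x : EE n) : ContDiffAt ℝ 2 d x := (contDiff_infty.1 h.d_sm 2).contDiffAt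

theorem P_nu (hx : x ∈ U) (a : Fin n) : ∑ b, Pm ν a b x * ν b x = 0 := by
  rw [Pm_mul, h.unit x hx, mul_one, sub_self]

theorem tan (hx : x ∈ U) (z : Fin n → ℝ) (a : Fin n) :
    ∑ b, Pm ν a b x * (z b - ν b x * ∑ c, ν c x * z c) = z a - ν a x * ∑ c, ν c x * z c := by
  simp only [mul_sub, Finset.sum_sub_distrib, ← mul_assoc, ← Finset.sum_mul, h.P_nu hx, Pm_mul,
    zero_mul, sub_zero]

theorem ev_eq (hx : x ∈ U) (c : Fin n) : pdv c d =ᶠ[𝓝 x] fun y => N y * ν c y := by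
  filter_upwards [h.op.mem_nhds hx] with y hy using (h.eq y hy c).symm

theorem dl_d (hx : x ∈ U) (a : Fin n) : dl ν a d x = 0 := by
  simp only [dl_eq, ← h.eq x hx, mul_left_comm _ (N x), ← Finset.mul_sum, h.P_nu hx, mul_zero]

theorem A_symm (hx : x ∈ U) (a b : Fin n) :
    ∑ c, Pm ν b c x * dl ν a (ν c) x = ∑ c, Pm ν a c x * dl ν b (ν c) x := by
  have h1 : ∀ a b, ∑ c, Pm ν b c x * dl ν a (pdv c d) x =
      N x * ∑ c, Pm ν b c x * dl ν a (ν c) x := fun a b => by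
    simp only [fun c => dl_congr (ν := ν) (h.ev_eq hx c), dl_mul (h.Nd x) (h.νd _ x), mul_add,
      Finset.sum_add_distrib, mul_left_comm _ (dl ν a N x), mul_left_comm _ (N x),
      ← Finset.mul_sum, h.P_nu hx, mul_zero, add_zero]
  exact mul_left_cancel₀ (h.ne x hx) (by rw [← h1, ← h1, hess_symm (h.d2 x)])

theorem hess_symm' (hx : x ∈ U) (hf : ContDiff ℝ ∞ f) (a b : Fin n) :
    ∑ c, Pm ν b c x * dl ν a (dl ν c f) x = ∑ c, Pm ν a c x * dl ν b (dl ν c f) x := by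
  have hp : ∀ c, DifferentiableAt ℝ (pdv c f) x := fun c =>
    (contDiff_pdv (m := ∞) hf (by simp) c).differentiable (by simp) x
  have hs : DifferentiableAt ℝ (fun y => ∑ b, ν b y * pdv b f y) x :=
    DifferentiableAt.fun_sum fun b _ => (h.νd b x).mul (hp b)
  have h1 : ∀ a b, ∑ c, Pm ν b c x * dl ν a (dl ν c f) x = ∑ c, Pm ν b c x * dl ν a (pdv c f) x -
      (∑ c, Pm ν b c x * dl ν a (ν c) x) * ∑ b, ν b x * pdv b f x := fun a b => by
    have e : ∀ c, dl ν a (dl ν c f) x = dl ν a (pdv c f) x -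
        (ν c x * dl ν a (fun y => ∑ b, ν b y * pdv b f y) x +
          dl ν a (ν c) x * ∑ b, ν b x * pdv b f x) := fun c => by
      rw [← dl_mul (h.νd c x) hs, ← dl_sub (hp c) ((h.νd c x).fun_mul hs)]
      rfl
    simp only [e, mul_sub, mul_add, Finset.sum_sub_distrib, Finset.sum_add_distrib, ← mul_assoc,
      ← Finset.sum_mul, h.P_nu hx, zero_mul, zero_add]
  rw [h1, h1, h.A_symm hx, hess_symm (contDiff_infty.1 hf 2).contDiffAt]

/-- the calculus on smooth functions -/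
def preS : Pre (RU U) (Fin n) where
  x a := ⟨_, fun y => y a, (EuclideanSpace.proj a : EE n →L[ℝ] ℝ).contDiff, rfl⟩
  D a f := ⟨(preU U ν).D a f.1, by
    obtain ⟨_, F, hF, rfl⟩ := f
    exact ⟨_, sm_dl h.ν_sm hF a, (homU h.op).D a F⟩⟩

theorem homS : h.preS.Hom (preU U ν) (RU U).val.toRingHom := ⟨fun _ => rfl, fun _ _ => rfl⟩

theorem D_mk (hf : ContDiff ℝ ∞ f) (a : Fin n) :
    h.preS.D a ⟨_, f, hf, rfl⟩ = ⟨_, dl ν a f, sm_dl h.ν_sm hf a, rfl⟩ :=
  Subtype.ext ((homU h.op).D a f).symm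

theorem ev_P (y : U) (a b : Fin n) : evS y (h.preS.P a b) = Pm ν a b y := by
  rw [← P_eq]
  exact congrFun ((h.homS.P a b).trans ((homU h.op).P a b).symm) y

theorem hyp : Hyp h.preS fun a => ⟨_, ν a, h.ν_sm a, rfl⟩ where
  ds :=
    { add := by
        rintro a ⟨_, F, hF, rfl⟩ ⟨_, G, hG, rfl⟩
        rw [h.D_mk hF, h.D_mk hG]
        exact (h.D_mk (hF.add hG) a).trans (ext_ev fun y =>
          dl_add (hF.differentiable (by simp) _) (hG.differentiable (by simp) _) a)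
      mul := by
        rintro a ⟨_, F, hF, rfl⟩ ⟨_, G, hG, rfl⟩
        rw [h.D_mk hF, h.D_mk hG]
        exact (h.D_mk (hF.mul hG) a).trans (ext_ev fun y =>
          dl_mul (hF.differentiable (by simp) _) (hG.differentiable (by simp) _) a)
      const := fun a r => (h.D_mk (contDiff_const (c := r)) a).trans (ext_ev fun y => dl_const r a)
      symm := fun a b => ext_ev fun y => by simp only [h.ev_P, Pm, eq_comm (a := a), mul_comm]
      tan := by
        rintro ⟨_, F, hF, rfl⟩ a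
        refine ext_ev fun y => ?_
        simp only [map_sum, map_mul, h.ev_P, h.D_mk hF]
        exact h.tan y.2 _ a
      hess := by
        rintro ⟨_, F, hF, rfl⟩ a b
        refine ext_ev fun y => ?_
        simp only [Pre.hess, map_sum, map_mul, h.ev_P, h.D_mk hF, h.D_mk (sm_dl h.ν_sm hF _)]
        exact h.hess_symm' y.2 hF a b }
  P_eq a b := ext_ev fun y => by
    rw [h.ev_P, map_sub, map_mul, apply_ite (evS y), map_one, map_zero]
    rfl
  unit := ext_ev fun y => by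
    simp only [map_sum, map_mul, map_one]
    exact h.unit y y.2

/-- all the identities hold at the points of `U` -/
theorem ok (hx : x ∈ U) : (dat (Pi.evalRingHom _ x) (pre ν) ν).OK := by
  have h1 := h.hyp.ok (evS ⟨x, hx⟩)
  rw [evS, dat_hom h.homS] at h1
  have h2 := dat_hom (homU (ν := ν) h.op) (Pi.evalRingHom _ ⟨x, hx⟩) ν
  exact (h2 ▸ h1 :)

theorem pdv_N (hx : x ∈ U) (a : Fin n) : ∑ b, ν b x * pdv a (pdv b d) x = pdv a N x := by
  have h1 : (fun y => ∑ b, ν b y * ν b y) =ᶠ[𝓝 x] fun _ => 1 := by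
    filter_upwards [h.op.mem_nhds hx] with y hy using h.unit y hy
  have h2 := pdv_congr h1 a
  rw [pdv_const, pdv_sum _ fun b _ => (h.νd b x).fun_mul (h.νd b x)] at h2
  simp only [pdv_mul (h.νd _ x) (h.νd _ x), Finset.sum_add_distrib, mul_comm (pdv a _ x)] at h2
  simp only [fun c => pdv_congr (h.ev_eq hx c), pdv_mul (h.Nd x) (h.νd _ x), mul_add,
    Finset.sum_add_distrib, mul_left_comm _ (pdv a N x), mul_left_comm _ (N x), ← Finset.mul_sum,
    h.unit x hx]
  linear_combination N x / 2 * h2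

/-- the divergence of a tangential field -/
theorem div (hx : x ∈ U) {Z : Fin n → EE n → ℝ} (hZ : ∀ a, DifferentiableAt ℝ (Z a) x)
    (h0 : ∀ y ∈ U, ∑ a, ν a y * Z a y = 0) :
    ∑ a, pdv a (fun y => N y * Z a y) x = N x * ∑ a, dl ν a (Z a) x := by
  have h1 : (fun y => ∑ a, ν a y * Z a y) =ᶠ[𝓝 x] fun _ => 0 := by
    filter_upwards [h.op.mem_nhds hx] with y hy using h0 y hy
  have h2 : ∀ b, ∑ a, ν a x * pdv b (Z a) x = -∑ a, pdv b (ν a) x * Z a x := fun b => by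
    have h2 := pdv_congr h1 b
    rw [pdv_const, pdv_sum _ fun a _ => (h.νd a x).fun_mul (hZ a)] at h2
    simp only [pdv_mul (h.νd _ x) (hZ _), Finset.sum_add_distrib] at h2
    linarith
  have h3 : ∀ b, N x * ∑ a, pdv b (ν a) x * Z a x = ∑ a, pdv a (pdv b d) x * Z a x := fun b => by
    simp only [fun a => pdv_comm (h.d2 x) a b, fun c => pdv_congr (h.ev_eq hx c),
      pdv_mul (h.Nd x) (h.νd _ x), add_mul, Finset.sum_add_distrib, mul_assoc, ← Finset.mul_sum,
      h0 x hx, mul_zero, zero_add]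
  have h4 : N x * ∑ a, ν a x * ∑ b, ν b x * pdv b (Z a) x = -∑ a, pdv a N x * Z a x := by
    simp only [← h.pdv_N hx, Finset.sum_mul, Finset.mul_sum, ← Finset.sum_neg_distrib]
    rw [Finset.sum_comm, Finset.sum_comm (f := fun a b => -(ν b x * _ * _))]
    refine Finset.sum_congr rfl fun b _ => ?_
    have := h3 b
    simp only [mul_assoc, mul_left_comm _ (ν b x), Finset.sum_neg_distrib, ← Finset.mul_sum, h2]
    rw [← this]
    ring
  simp only [pdv_mul (h.Nd x) (hZ _), dl, Finset.sum_add_distrib, Finset.sum_sub_distrib, mul_sub,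
    ← Finset.mul_sum, h4]
  ring

end Lev

end

end Crest.Agent.N067.Lv
end

-- ▼ part N067/Y/SK1
section

/-!
# Row 67, block X5 (helper66): the second fundamental form of the level sets of `d`
-/

set_option autoImplicit false

open Laplacian Topology Filter Set
open scoped ContDiff

namespace Crest.Agent.N067.Y.SK

open Crest.Agent.R077 Crest.Agent.N222 Crest.Agent.N067.Lv

noncomputable section

variable {n : ℕ} {v f g : EE n → ℝ} {x : EE n}

/-- `1` for `t ≤ 1/2`, `0` for `t ≥ 3/4` -/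
def ch (t : ℝ) : ℝ := Real.smoothTransition (3 - 4 * t)

/-- `√(1 - t)` for `t ≤ 1/2` -/
def Nf (t : ℝ) : ℝ := √(1 - t * ch t)

/-- `1 / √(1 - t)` for `t ≤ 1/2` -/
def iN (t : ℝ) : ℝ := (Nf t)⁻¹

/-- `(iN t - 1) / t` -/
def jf (t : ℝ) : ℝ := ch t / (Nf t * (1 + Nf t))

/-- coefficient of `⟨∇d, ∇t⟩` in the mean curvature -/
def kf (t : ℝ) : ℝ := deriv iN t - iN t ^ 2 * deriv iN t * (1 - t) + iN t ^ 3 / 2

theorem base_pos (t : ℝ) : 0 < 1 - t * ch t := by
  have h0 : 0 ≤ ch t := Real.smoothTransition.nonneg _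
  have h1 : ch t ≤ 1 := Real.smoothTransition.le_one _
  rcases le_total t (3 / 4) with h | h
  · nlinarith
  · rw [ch, Real.smoothTransition.zero_of_nonpos (by linarith)]
    norm_num

theorem Nf_pos (t : ℝ) : 0 < Nf t := Real.sqrt_pos.2 (base_pos t)

theorem Nf_sq {t : ℝ} (h : t ≤ 1 / 2) : Nf t ^ 2 = 1 - t := by
  rw [Nf, Real.sq_sqrt (base_pos t).le, ch, Real.smoothTransition.one_of_one_le (by linarith),
    mul_one]

theorem sm_ch : ContDiff ℝ ∞ ch :=
  Real.smoothTransition.contDiff.comp (contDiff_const.sub (contDiff_const.mul contDiff_id))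

theorem sm_Nf : ContDiff ℝ ∞ Nf :=
  (contDiff_const.sub (contDiff_id.mul sm_ch)).sqrt fun t => (base_pos t).ne'

theorem sm_iN : ContDiff ℝ ∞ iN := sm_Nf.inv fun t => (Nf_pos t).ne'

theorem sm_iN' : ContDiff ℝ ∞ (deriv iN) := (contDiff_infty_iff_deriv.1 sm_iN).2

theorem sm_jf : ContDiff ℝ ∞ jf := sm_ch.div (sm_Nf.mul (contDiff_const.add sm_Nf)) fun t => by
  have := Nf_pos t
  positivity

theorem sm_kf : ContDiff ℝ ∞ kf :=
  (sm_iN'.sub (((sm_iN.pow 2).mul sm_iN').mul (contDiff_const.sub contDiff_id))).add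
    ((sm_iN.pow 3).div_const 2)

theorem iN_eq (t : ℝ) : iN t = 1 + t * jf t := by
  have h1 : Nf t ^ 2 = 1 - t * ch t := Real.sq_sqrt (base_pos t).le
  have h2 := Nf_pos t
  rw [iN, jf]
  field_simp
  linear_combination -h1

/-- the unit normal -/
def nu (v : EE n → ℝ) (a : Fin n) (x : EE n) : ℝ := iN (tt v x) * pdv a (dd v) x

/-- the second fundamental form -/
def AA (a b : Fin n) : Fam n := fun v => dl (nu v) a (nu v b)

/-- the mean curvature -/
def HH : Fam n := fun v x => ∑ a, AA a a v x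

/-- the trace-free part -/
def A0 (a b : Fin n) : Fam n := fun v x => AA a b v x - HH v x / (n - 1) * Pm (nu v) a b x

/-- `|A₀|²` -/
def yy : Fam n := fun v x => ∑ a, ∑ b, A0 a b v x ^ 2

/-- `⟨∇d, ∇t⟩` -/
def ss : Fam n := fun v => gin (dd v) (tt v)

theorem lev (h : Sol v) : Lev {x | tt v x < 1 / 2} (dd v) (fun x => Nf (tt v x)) (nu v) where
  op := isOpen_lt h.tt_sm.continuous continuous_const
  d_sm := h.dd_sm
  N_sm := sm_Nf.comp h.tt_sm
  ν_sm a := (sm_iN.comp h.tt_sm).mul (h.pdv_dd_sm a)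
  ne _ _ := (Nf_pos _).ne'
  eq x _ a := by rw [nu, iN, mul_inv_cancel_left₀ (Nf_pos _).ne']
  unit x hx := by
    have h1 := Nf_sq (le_of_lt hx)
    have h2 := Nf_pos (tt v x)
    have h3 : ∑ a, nu v a x * nu v a x = iN (tt v x) ^ 2 * gsq (dd v) x := by
      rw [gsq, Finset.mul_sum]
      exact Finset.sum_congr rfl fun a _ => by rw [nu]; ring
    have h4 : gsq (dd v) x = Nf (tt v x) ^ 2 := by rw [h1, tt_eq, sub_sub_cancel]
    rw [h3, h4, iN, inv_pow, inv_mul_cancel₀ (by positivity)]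

theorem nB (h : Sol v) (b : Fin n) (x : EE n) :
    ∑ c, pdv c (dd v) x * hs (dd v) c b x = -pdv b (tt v) x / 2 := by
  rw [h.pdv_tt, gin]
  simp only [hs]
  ring

theorem hs_symm (h : Sol v) (a b : Fin n) (x : EE n) : hs (dd v) a b x = hs (dd v) b a x :=
  pdv_comm (h.dd_cd 2).contDiffAt a b

theorem AA_eq (h : Sol v) (a b : Fin n) (x : EE n) : AA a b v x = iN (tt v x) * hs (dd v) a b x +
    pdv b (dd v) x * (deriv iN (tt v x) * pdv a (tt v) x -
      iN (tt v x) ^ 2 * deriv iN (tt v x) * (pdv a (dd v) x * ss v x)) +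
    pdv a (dd v) x * (iN (tt v x) ^ 3 / 2 * pdv b (tt v) x) := by
  have h0 := (sm_iN.differentiable (by simp) (tt v x)).hasDerivAt
  have h1 : ∀ c, pdv c (nu v b) x =
      deriv iN (tt v x) * pdv c (tt v) x * pdv b (dd v) x + iN (tt v x) * hs (dd v) c b x := fun c => by
    rw [← pdv_comp h0 (h.tt_diff x)]
    exact pdv_mul (h0.differentiableAt.comp x (h.tt_diff x))
      ((h.pdv_dd_sm b).differentiable (by simp) x) c
  have h2 : ∀ c, nu v c x * pdv c (nu v b) x =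
      iN (tt v x) * deriv iN (tt v x) * pdv b (dd v) x * (pdv c (dd v) x * pdv c (tt v) x) +
        iN (tt v x) ^ 2 * (pdv c (dd v) x * hs (dd v) c b x) := fun c => by
    rw [h1, nu]; ring
  simp only [AA, dl, h2, Finset.sum_add_distrib, ← Finset.mul_sum, nB h]
  rw [h1, nu, ss, gin]
  ring

theorem tr_hs (h : Sol v) (x : EE n) : ∑ a, hs (dd v) a a x = -√2 * v x * tt v x := by
  rw [← h.lap_dd, lap_eq (h.dd_cd 2).contDiffAt]
  rfl

theorem HH_eq (h : Sol v) (x : EE n) :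
    HH v x = -√2 * (v x * (tt v x * iN (tt v x))) + kf (tt v x) * ss v x := by
  have e : ∀ a, AA a a v x = iN (tt v x) * hs (dd v) a a x +
      (deriv iN (tt v x) + iN (tt v x) ^ 3 / 2) * (pdv a (dd v) x * pdv a (tt v) x) -
      iN (tt v x) ^ 2 * deriv iN (tt v x) * ss v x * pdv a (dd v) x ^ 2 := fun a => by
    rw [AA_eq h]; ring
  have e2 : ∑ a, pdv a (dd v) x ^ 2 = 1 - tt v x := by rw [tt_eq, sub_sub_cancel, gsq]
  simp only [HH, e, Finset.sum_add_distrib, Finset.sum_sub_distrib, ← Finset.mul_sum, tr_hs h, e2]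
  rw [kf, ss, gin]
  ring

/-! ### orders -/

theorem oc {φ : ℝ → ℝ} (hφ : ContDiff ℝ ∞ φ) : Ord 0 fun (v : EE n → ℝ) x => φ (tt v x) :=
  ((hkS n).t2.mono (by norm_num)).comp hφ

theorem o_n {a : ℕ} {F : Fam n} (h : Ord a F) : Ord a fun v => gin (dd v) (F v) :=
  Ord.usum fun i => ((hkS n).n0 i).mul0 (h.pdv i)

theorem o_ss : Ord 2 (ss : Fam n) := o_n (hkS n).t2

theorem o_nu (a : Fin n) : Ord 0 fun v => nu v a := (oc sm_iN).mul0 ((hkS n).n0 a)

theorem o_Pm (a b : Fin n) : Ord 0 fun v => Pm (nu v) a b :=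
  (Ord.const _).sub ((o_nu a).mul0 (o_nu b))

theorem o_dl {k : ℕ} {F : Fam n} (h : Ord k F) (a : Fin n) : Ord k fun v => dl (nu v) a (F v) :=
  (h.pdv a).sub ((o_nu a).mul0 (Ord.usum fun b => (o_nu b).mul0 (h.pdv b)))

theorem o_HH : Ord 2 (HH : Fam n) :=
  ((((hkS n).v0.mul0 ((hkS n).t2.mulr0 (oc sm_iN))).const_mul _).add
    ((oc sm_kf).mul0 o_ss)).congr' fun _ h x => (HH_eq h x).symm

theorem o_p (a : Fin n) : Ord 2 fun (v : EE n → ℝ) x => deriv iN (tt v x) * pdv a (tt v) x -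
    iN (tt v x) ^ 2 * deriv iN (tt v x) * (pdv a (dd v) x * ss v x) :=
  ((oc sm_iN').mul0 ((hkS n).t2.pdv a)).sub
    ((oc ((sm_iN.pow 2).mul sm_iN')).mul0 (((hkS n).n0 a).mul0 o_ss))

theorem o_q (b : Fin n) : Ord 2 fun (v : EE n → ℝ) x => iN (tt v x) ^ 3 / 2 * pdv b (tt v) x :=
  (oc ((sm_iN.pow 3).div_const 2)).mul0 ((hkS n).t2.pdv b)

theorem o_tj : Ord 2 fun (v : EE n → ℝ) x => tt v x * jf (tt v x) := (hkS n).t2.mulr0 (oc sm_jf)

theorem o_r (a b : Fin n) : Ord 2 fun v x => A0 a b v x - hs (dd v) a b x :=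
  ((((o_tj.mulr0 (((hkS n).b1 a b).mono (by norm_num))).add (((hkS n).n0 b).mul0 (o_p a))).add
    (((hkS n).n0 a).mul0 (o_q b))).sub ((o_HH.div_const (n - 1)).mulr0 (o_Pm a b))).congr'
    fun v h x => by
      rw [A0, AA_eq h]
      linear_combination -hs (dd v) a b x * iN_eq (tt v x)

theorem o_A0 (a b : Fin n) : Ord 1 (A0 a b) :=
  (((o_r a b).mono (by norm_num)).add ((hkS n).b1 a b)).congr' fun _ _ _ => sub_add_cancel _ _

theorem o_AA (a b : Fin n) : Ord 1 (AA a b) :=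
  ((o_A0 a b).add (((o_HH.div_const (n - 1)).mulr0 (o_Pm a b)).mono (by norm_num))).congr'
    fun _ _ _ => sub_add_cancel _ _

theorem o_yy : Ord 2 (yy : Fam n) := Ord.usum fun a => Ord.usum fun b => (o_A0 a b).sq

theorem o_hsq : Ord 2 fun v : EE n → ℝ => hsq (dd v) :=
  Ord.usum fun a => Ord.usum fun b => ((hkS n).b1 a b).sq

theorem Br_eq (h : Sol v) (x : EE n) :
    ∑ a, ∑ b, hs (dd v) a b x * (A0 a b v x - hs (dd v) a b x) =
      tt v x * jf (tt v x) * hsq (dd v) x -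
      ∑ a, pdv a (tt v) x / 2 * (deriv iN (tt v x) * pdv a (tt v) x -
        iN (tt v x) ^ 2 * deriv iN (tt v x) * (pdv a (dd v) x * ss v x)) -
      ∑ b, pdv b (tt v) x / 2 * (iN (tt v x) ^ 3 / 2 * pdv b (tt v) x) -
      HH v x / (n - 1) * (-√2 * (v x * tt v x) + iN (tt v x) ^ 2 / 2 * ss v x) := by
  set p := fun a => deriv iN (tt v x) * pdv a (tt v) x -
    iN (tt v x) ^ 2 * deriv iN (tt v x) * (pdv a (dd v) x * ss v x) with hp
  set q := fun b => iN (tt v x) ^ 3 / 2 * pdv b (tt v) x with hq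
  have e : ∀ a b, hs (dd v) a b x * (A0 a b v x - hs (dd v) a b x) =
      tt v x * jf (tt v x) * hs (dd v) a b x ^ 2 + pdv b (dd v) x * hs (dd v) b a x * p a +
        pdv a (dd v) x * hs (dd v) a b x * q b -
        HH v x / (n - 1) * (if a = b then hs (dd v) a b x else 0) + HH v x / (n - 1) *
          iN (tt v x) ^ 2 * (pdv a (dd v) x * (pdv b (dd v) x * hs (dd v) b a x)) := fun a b => by
    rw [A0, AA_eq h, Pm, nu, nu, hs_symm h b a]
    split_ifs <;> linear_combination hs (dd v) a b x ^ 2 * iN_eq (tt v x)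
  have e1 : ∑ a, ∑ b, pdv a (dd v) x * hs (dd v) a b x * q b = ∑ b, -pdv b (tt v) x / 2 * q b := by
    rw [Finset.sum_comm]
    simp only [← Finset.sum_mul, nB h]
  have e2 : ∑ a, pdv a (dd v) x * (-pdv a (tt v) x / 2) = -ss v x / 2 := by
    simp only [ss, gin, Finset.sum_div, ← Finset.sum_neg_distrib]
    exact Finset.sum_congr rfl fun a _ => by ring
  change _ = _ - ∑ a, _ * p a - ∑ b, _ * q b - _
  simp only [e, Finset.sum_add_distrib, Finset.sum_sub_distrib, e1]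
  simp only [← Finset.mul_sum, ← Finset.sum_mul, nB h, e2, Finset.sum_ite_eq, Finset.mem_univ,
    if_true, tr_hs h]
  simp only [neg_div, neg_mul, Finset.sum_neg_distrib, hsq]
  ring

theorem o_cmp : Ord 4 fun (v : EE n → ℝ) x => yy v x - hsq (dd v) x := by
  have h1 : Ord 4 fun (v : EE n → ℝ) x =>
      ∑ a, ∑ b, hs (dd v) a b x * (A0 a b v x - hs (dd v) a b x) :=
    ((((o_tj.mul o_hsq).sub (Ord.usum fun a => (((hkS n).t2.pdv a).div_const 2).mul (o_p a))).sub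
      (Ord.usum fun b => (((hkS n).t2.pdv b).div_const 2).mul (o_q b))).sub
      ((o_HH.div_const (n - 1)).mul ((((hkS n).v0.mul0 (hkS n).t2).const_mul _).add
        ((oc ((sm_iN.pow 2).div_const 2)).mul0 o_ss)))).congr' fun _ h x => (Br_eq h x).symm
  refine ((h1.const_mul 2).add (Ord.usum fun a => Ord.usum fun b => (o_r a b).sq)).congr'
    fun v _ x => ?_
  simp only [yy, hsq, Finset.mul_sum, ← Finset.sum_add_distrib, ← Finset.sum_sub_distrib]
  exact Finset.sum_congr rfl fun a _ => Finset.sum_congr rfl fun b _ => by ring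

theorem o_nB (a b : Fin n) : Ord 2 fun v : EE n → ℝ => gin (dd v) (hs (dd v) a b) := by
  refine (((((hkS n).t2.pdv b).pdv a).div_const (-2)).sub
    (Ord.usum fun c => ((hkS n).b1 a c).mul ((hkS n).b1 c b))).congr' fun v h x => ?_
  have h1 : pdv b (tt v) = fun y => -2 * gin (dd v) (pdv b (dd v)) y := funext (h.pdv_tt b)
  have h2 : ContDiffAt ℝ 2 (pdv b (dd v)) x := (contDiff_infty.1 (h.pdv_dd_sm b) 2).contDiffAt
  rw [h1, pdv_const_mul ((contDiffAt_gin (m := 1) (h.dd_cd 2).contDiffAt h2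
    (by norm_num)).differentiableAt (by norm_num)), pdv_gin (h.dd_cd 2).contDiffAt h2]
  simp only [pdv_comm h2 a, Finset.sum_add_distrib, gin, hs]
  change _ = ∑ c, pdv c (dd v) x * pdv c (pdv a (pdv b (dd v))) x
  ring

theorem unif {ι : Type} [Fintype ι] {k : ℕ} {F : ι → Fam n} (h : ∀ i, Ord k (F i)) :
    ∃ C : ℝ, 0 ≤ C ∧ ∀ v, Sol v → ∀ i x, |F i v x| ≤ C * √(tt v x) ^ k := by
  choose C h0 hC using fun i => (h i).bd
  exact ⟨∑ i, C i, Finset.sum_nonneg fun i _ => h0 i, fun v hv i x => (hC i v hv x).trans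
    (mul_le_mul_of_nonneg_right (Finset.single_le_sum (fun i _ => h0 i) (Finset.mem_univ i))
      (by positivity))⟩

theorem yy_nonneg (v : EE n → ℝ) (x : EE n) : 0 ≤ yy v x := by rw [yy]; positivity

theorem abs_le_sqrt2 {F : Fin n → Fin n → ℝ} (h : ∀ i j, 0 ≤ F i j) {y : ℝ} {i j : Fin n}
    (hy : y ^ 2 ≤ F i j) : |y| ≤ √(∑ i, ∑ j, F i j) :=
  Real.abs_le_sqrt (hy.trans ((Finset.single_le_sum (fun j _ => h i j) (Finset.mem_univ j)).trans
    (Finset.single_le_sum (f := fun i => ∑ j, F i j) (fun i _ => Finset.sum_nonneg fun j _ => h i j)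
      (Finset.mem_univ i))))

theorem nor : ∃ K : ℝ, 0 ≤ K ∧ ∀ v : EE n → ℝ, Sol v → ∀ x,
    |gin (dd v) (yy v) x| ≤ K * (√(yy v x) * tt v x) := by
  have h1 : ∀ p : Fin n × Fin n, Ord 2 fun v => gin (dd v) (A0 p.1 p.2 v) := fun p =>
    ((o_n (o_r p.1 p.2)).add (o_nB p.1 p.2)).congr' fun v h x => by
      rw [gin_sub_right ((o_A0 _ _).diff h x) (((hkS n).b1 _ _).diff h x), sub_add_cancel]
  obtain ⟨C, h0, hC⟩ := unif h1
  refine ⟨n * (n * (2 * C)), by positivity, fun v h x => ?_⟩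
  have e : gin (dd v) (yy v) x = ∑ a, ∑ b, 2 * A0 a b v x * gin (dd v) (A0 a b v) x := by
    have e1 : ∀ c, pdv c (yy v) x = ∑ a, ∑ b, 2 * A0 a b v x * pdv c (A0 a b v) x := fun c => by
      refine (pdv_sum _ (fun a _ => DifferentiableAt.fun_sum fun b _ =>
        ((o_A0 a b).diff h x).fun_pow 2) c).trans (Finset.sum_congr rfl fun a _ => ?_)
      rw [pdv_sum _ fun b _ => ((o_A0 a b).diff h x).fun_pow 2]
      exact Finset.sum_congr rfl fun b _ => pdv_sq ((o_A0 a b).diff h x) c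
    simp only [gin, e1, Finset.mul_sum]
    rw [Finset.sum_comm]
    refine Finset.sum_congr rfl fun a _ => ?_
    rw [Finset.sum_comm]
    exact Finset.sum_congr rfl fun b _ => Finset.sum_congr rfl fun c _ => by ring
  have e2 : ∀ a b, |2 * A0 a b v x * gin (dd v) (A0 a b v) x| ≤ 2 * C * (√(yy v x) * tt v x) :=
    fun a b => by
      have h2 := hC v h (a, b) x
      have h3 : |A0 a b v x| ≤ √(yy v x) := abs_le_sqrt2 (fun _ _ => sq_nonneg _) le_rfl
      rw [Real.sq_sqrt (h.tt_nonneg x)] at h2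
      rw [abs_mul, abs_mul, abs_two]
      linarith [mul_le_mul h3 h2 (abs_nonneg _) (Real.sqrt_nonneg _)]
  rw [e]
  refine (Finset.abs_sum_le_sum_abs _ _).trans ((Finset.sum_le_sum fun a _ =>
    (Finset.abs_sum_le_sum_abs _ _).trans (Finset.sum_le_sum fun b _ => e2 a b)).trans_eq ?_)
  simp only [Finset.sum_const, Finset.card_univ, Fintype.card_fin, nsmul_eq_mul]
  ring

/-- Lagrange's identity -/
theorem tg_eq (v f : EE n → ℝ) (x : EE n) : tg v f x = (∑ i, ∑ j, wg v f i j x ^ 2) / 2 := by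
  have e : ∀ i j, wg v f i j x ^ 2 = pdv i (dd v) x ^ 2 * pdv j f x ^ 2 +
      pdv i f x ^ 2 * pdv j (dd v) x ^ 2 -
      2 * (pdv i (dd v) x * pdv i f x * (pdv j (dd v) x * pdv j f x)) := fun i j => by
    rw [wg]; ring
  simp only [e, Finset.sum_add_distrib, Finset.sum_sub_distrib, ← Finset.mul_sum, ← Finset.sum_mul]
  rw [tg, tt_eq, gin, gsq, gsq]
  ring

theorem tg_nonneg (v f : EE n → ℝ) (x : EE n) : 0 ≤ tg v f x := by rw [tg_eq]; positivity

theorem tg_le (h : Sol v) (f : EE n → ℝ) (x : EE n) : tg v f x ≤ gsq f x := by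
  rw [tg]
  nlinarith [mul_nonneg (h.tt_nonneg x) (gsq_nonneg f x), sq_nonneg (gin (dd v) f x)]

theorem tg_sub_le (hf : DifferentiableAt ℝ f x) (hg : DifferentiableAt ℝ g x) :
    tg v (fun y => f y - g y) x ≤ 2 * tg v f x + 2 * tg v g x := by
  have e : ∀ i j, wg v (fun y => f y - g y) i j x ^ 2 ≤
      2 * wg v f i j x ^ 2 + 2 * wg v g i j x ^ 2 := fun i j => by
    have : wg v (fun y => f y - g y) i j x = wg v f i j x - wg v g i j x := by
      simp only [wg, pdv_sub hf hg]; ring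
    rw [this]
    nlinarith [sq_nonneg (wg v f i j x + wg v g i j x)]
  have := Finset.sum_le_sum fun i (_ : i ∈ Finset.univ) =>
    Finset.sum_le_sum fun j (_ : j ∈ Finset.univ) => e i j
  simp only [Finset.sum_add_distrib, ← Finset.mul_sum] at this
  simp only [tg_eq]
  linarith

theorem cmp' : ∃ K : ℝ, 0 ≤ K ∧ ∀ v : EE n → ℝ, Sol v → ∀ x,
    tg v (hsq (dd v)) x ≤ 2 * tg v (yy v) x + K * tt v x ^ 4 := by
  obtain ⟨C, h0, hC⟩ := (o_cmp (n := n)).gsq.bd
  refine ⟨2 * C, by positivity, fun v h x => ?_⟩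
  have h1 := tg_sub_le (v := v) (o_yy.diff h x) (o_cmp.diff h x)
  have h2 := (le_abs_self _).trans (hC v h x)
  rw [show 4 + 4 = 2 * 4 from rfl, pow_mul, Real.sq_sqrt (h.tt_nonneg x)] at h2
  simp only [sub_sub_cancel] at h1
  linarith [tg_le h (fun x => yy v x - hsq (dd v) x) x]

theorem wg_ss (h : Sol v) (i j : Fin n) (x : EE n) : wg v (ss v) i j x =
    ∑ c, (pdv c (dd v) x * pdv c (wg v (tt v) i j) x + hs (dd v) j c x * wg v (tt v) i c x -
      hs (dd v) i c x * wg v (tt v) j c x) := by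
  have d2 := (h.dd_cd 2).contDiffAt (x := x)
  have t2 := (h.tt_cd 2).contDiffAt (x := x)
  have e : ∀ c, pdv c (wg v (tt v) i j) x = hs (dd v) i c x * pdv j (tt v) x +
      pdv i (dd v) x * pdv j (pdv c (tt v)) x -
      (hs (dd v) j c x * pdv i (tt v) x + pdv j (dd v) x * pdv i (pdv c (tt v)) x) := fun c => by
    refine (pdv_sub ((diffAt_pdv d2 i).fun_mul (diffAt_pdv t2 j))
      ((diffAt_pdv d2 j).fun_mul (diffAt_pdv t2 i)) c).trans ?_
    rw [pdv_mul (diffAt_pdv d2 i) (diffAt_pdv t2 j), pdv_mul (diffAt_pdv d2 j) (diffAt_pdv t2 i),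
      pdv_comm t2 c, pdv_comm t2 c, pdv_comm d2 c, pdv_comm d2 c]
    rfl
  have e0 : ∑ c, (pdv c (dd v) x * hs (dd v) c i x * pdv j (tt v) x -
      pdv c (dd v) x * hs (dd v) c j x * pdv i (tt v) x) = 0 := by
    simp only [Finset.sum_sub_distrib, ← Finset.sum_mul, nB h]
    ring
  rw [wg, ss, pdv_gin d2 t2, pdv_gin d2 t2, Finset.mul_sum, Finset.mul_sum,
    ← Finset.sum_sub_distrib, ← add_zero (∑ c, _), ← mul_zero 2, ← e0, Finset.mul_sum,
    ← Finset.sum_add_distrib]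
  refine Finset.sum_congr rfl fun c _ => ?_
  simp only [e, wg, hs, pdv_comm d2 c]
  ring

theorem wg_HH (h : Sol v) (i j : Fin n) (x : EE n) : wg v (HH v) i j x =
    (-√2 * (v x * (iN (tt v x) + tt v x * deriv iN (tt v x))) + deriv kf (tt v x) * ss v x) *
      wg v (tt v) i j x + kf (tt v x) * wg v (ss v) i j x := by
  have h0 := (sm_iN.differentiable (by simp) (tt v x)).hasDerivAt
  have h1 := (sm_kf.differentiable (by simp) (tt v x)).hasDerivAt
  have h2 := h0.differentiableAt.fun_comp' x (h.tt_diff x)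
  have h3 := h1.differentiableAt.fun_comp' x (h.tt_diff x)
  have h4 := (h.diff x).fun_mul ((h.tt_diff x).fun_mul h2)
  rw [funext (HH_eq h)]
  simp only [wg, pdv_add (h4.const_mul _) (h3.fun_mul (o_ss.diff h x)), pdv_const_mul h4,
    pdv_mul (h.diff x) ((h.tt_diff x).fun_mul h2), pdv_mul (h.tt_diff x) h2,
    pdv_mul h3 (o_ss.diff h x), pdv_comp h0 (h.tt_diff x), pdv_comp h1 (h.tt_diff x), h.pdv_v]
  ring

theorem dH : ∃ K : ℝ, 0 ≤ K ∧ ∀ v : EE n → ℝ, Sol v → ∀ x, tg v (HH v) x ≤ K * os v x := by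
  obtain ⟨C1, p1, h1⟩ := ((((hkS n).v0.mul0 ((oc sm_iN).add (((hkS n).t2.mono (by norm_num)).mul0
    (oc sm_iN')))).const_mul (-√2)).add ((oc (contDiff_infty_iff_deriv.1 sm_kf).2).mul0
      (o_ss.mono (by norm_num)))).bd0
  obtain ⟨C2, p2, h2⟩ := (oc (n := n) sm_kf).bd0
  obtain ⟨C3, p3, h3⟩ := unif fun p : Fin n × Fin n => ((hkS n).b1 p.1 p.2).mono (Nat.zero_le 1)
  obtain ⟨C4, p4, h4⟩ := unif (hkS n).n0
  refine ⟨n * (n * (C1 + C2 * (n * (C4 + C3 + C3))) ^ 2), by positivity, fun v h x => ?_⟩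
  have o0 : ∀ i j, 0 ≤ wg v (tt v) i j x ^ 2 + gsq (wg v (tt v) i j) x := fun i j =>
    add_nonneg (sq_nonneg _) (gsq_nonneg _ _)
  have o1 : ∀ i j, |wg v (tt v) i j x| ≤ √(os v x) := fun i j =>
    abs_le_sqrt2 o0 (le_add_of_nonneg_right (gsq_nonneg _ _))
  have o2 : ∀ i j c, |pdv c (wg v (tt v) i j) x| ≤ √(os v x) := fun i j c =>
    abs_le_sqrt2 o0 (le_add_of_nonneg_of_le (sq_nonneg _) (Finset.single_le_sum
      (f := fun c => pdv c (wg v (tt v) i j) x ^ 2) (fun _ _ => sq_nonneg _) (Finset.mem_univ c)))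
  have o3 : 0 ≤ os v x := Finset.sum_nonneg fun i _ => Finset.sum_nonneg fun j _ => o0 i j
  have m : ∀ {a b C : ℝ}, |a| ≤ C → |b| ≤ √(os v x) → |a * b| ≤ C * √(os v x) := fun ha hb => by
    rw [abs_mul]
    exact mul_le_mul ha hb (abs_nonneg _) ((abs_nonneg _).trans ha)
  simp only [pow_zero, mul_one] at h3 h4
  have o4 : ∀ i j, |wg v (ss v) i j x| ≤ n * (C4 + C3 + C3) * √(os v x) := fun i j => by
    rw [wg_ss h]
    refine (Finset.abs_sum_le_sum_abs _ _).trans ((Finset.sum_le_sum fun c _ =>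
      (abs_sub _ _).trans (add_le_add ((abs_add_le _ _).trans (add_le_add (m (h4 v h c x) (o2 i j c))
        (m (h3 v h (j, c) x) (o1 i c)))) (m (h3 v h (i, c) x) (o1 j c)))).trans_eq ?_)
    simp only [Finset.sum_const, Finset.card_univ, Fintype.card_fin, nsmul_eq_mul]
    ring
  have o5 : ∀ i j, wg v (HH v) i j x ^ 2 ≤ (C1 + C2 * (n * (C4 + C3 + C3))) ^ 2 * os v x :=
    fun i j => by
      rw [← Real.sq_sqrt o3, ← mul_pow, ← sq_abs, wg_HH h]
      refine pow_le_pow_left₀ (abs_nonneg _) ((abs_add_le _ _).trans ?_) 2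
      have a1 := m (h1 v h x) (o1 i j)
      have a2 := mul_le_mul (h2 v h x) (o4 i j) (abs_nonneg _) p2
      rw [← abs_mul] at a2
      linarith
  have := Finset.sum_le_sum fun i (_ : i ∈ Finset.univ) =>
    Finset.sum_le_sum fun j (_ : j ∈ Finset.univ) => o5 i j
  simp only [Finset.sum_const, Finset.card_univ, Fintype.card_fin, nsmul_eq_mul] at this
  have h5 := tg_nonneg v (HH v) x
  rw [tg_eq] at h5 ⊢
  linarith

end

end Crest.Agent.N067.Y.SK
end

-- ▼ part N067/Y/SK2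

/-!
# Row 67, block X5 (helper66): Simons and Kato on the level sets of `d`, `sk : SKStmt n`
-/

set_option autoImplicit false

open MeasureTheory Laplacian Topology Filter Set
open scoped ContDiff

namespace Crest.Agent.N067.Y

open Crest.Agent.R077 Crest.Agent.N222 Crest.Agent.N067.Lv

noncomputable section

variable {n : ℕ} {v f g : EE n → ℝ} {x : EE n}

namespace Prof

variable (P : Prof) {y : ℝ}

theorem sm_W : ContDiffOn ℝ ∞ P.W (Ioi 0) :=
  P.sm.div (contDiffOn_id.pow 2) fun _ hy => (pow_pos hy 2).ne'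

theorem hasDerivAt_W (hy : 0 < y) : HasDerivAt P.W ((P.p y - 1) / y * P.W y) y := by
  have h1 := ((P.sm.contDiffAt (Ioi_mem_nhds hy)).differentiableAt (by simp)).hasDerivAt
  have h2 := P.pos y hy
  refine (h1.div (hasDerivAt_pow 2 y) (pow_pos hy 2).ne').congr_deriv ?_
  rw [p, W]
  field_simp
  ring

end Prof

namespace SK

/-- bounded continuous functions -/
def BC (f : EE n → ℝ) : Prop := Continuous f ∧ ∃ M, ∀ x, |f x| ≤ M

theorem BC.mul (hf : BC f) (hg : BC g) : BC fun x => f x * g x :=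
  let ⟨h1, M, h2⟩ := hf
  let ⟨h3, M', h4⟩ := hg
  ⟨h1.mul h3, M * M', fun x => by
    rw [abs_mul]; exact mul_le_mul (h2 x) (h4 x) (abs_nonneg _) ((abs_nonneg _).trans (h2 x))⟩

theorem BC.add (hf : BC f) (hg : BC g) : BC fun x => f x + g x :=
  let ⟨h1, M, h2⟩ := hf
  let ⟨h3, M', h4⟩ := hg
  ⟨h1.add h3, M + M', fun x => (abs_add_le _ _).trans (add_le_add (h2 x) (h4 x))⟩

theorem BC.int (hf : BC f) (hg : Integrable g) : Integrable fun x => f x * g x :=
  let ⟨h1, _, h2⟩ := hf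
  hg.bdd_mul h1.aestronglyMeasurable (.of_forall h2)

theorem bc_ord {k : ℕ} {F : Fam n} (h : Ord k F) (hv : Sol v) : BC (F v) :=
  let ⟨C, _, hC⟩ := h.bd0
  ⟨h.cont hv, C, hC v hv⟩

theorem BC.comp {φ : ℝ → ℝ} {ε : ℝ} (hf : BC f) (hε : 0 < ε) (h : ∀ x, ε ≤ f x)
    (hφ : ContinuousOn φ (Ioi 0)) : BC fun x => φ (f x) := by
  obtain ⟨h1, M, h2⟩ := hf
  obtain ⟨C, hC⟩ := (isCompact_Icc (a := ε) (b := M)).exists_bound_of_continuousOn
    (hφ.mono fun y hy => hε.trans_le hy.1)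
  exact ⟨hφ.comp_continuous h1 fun x => hε.trans_le (h x), C,
    fun x => hC _ ⟨h x, (le_abs_self _).trans (h2 x)⟩⟩

/-- bounded with bounded continuous derivatives -/
structure B1 (f : EE n → ℝ) : Prop where
  diff : Differentiable ℝ f
  bc : BC f
  d : ∀ i, BC (pdv i f)

theorem B1.mul (hf : B1 f) (hg : B1 g) : B1 fun x => f x * g x :=
  ⟨hf.diff.mul hg.diff, hf.bc.mul hg.bc, fun i => by
    rw [funext fun x => pdv_mul (hf.diff x) (hg.diff x) i]
    exact ((hf.d i).mul hg.bc).add (hf.bc.mul (hg.d i))⟩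

theorem b1_ord {k : ℕ} {F : Fam n} (h : Ord k F) (hv : Sol v) : B1 (F v) :=
  ⟨h.diff hv, bc_ord h hv, fun i => (bc_ord (h.pdv i) hv :)⟩

theorem int_pdv (hf : B1 f) (hg : ContDiff ℝ 1 g) (h1 : Integrable fun x => g x ^ 2)
    (h2 : Integrable (gsq g)) (a : Fin n) : Integrable (pdv a fun x => f x * g x ^ 2) ∧
      ∫ x, pdv a (fun x => f x * g x ^ 2) x = 0 := by
  have gd := hg.differentiable one_ne_zero
  have h3 : Integrable fun x => 2 * g x * pdv a g x := by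
    refine (h1.add h2).mono' ((continuous_const.mul hg.continuous).mul
      (contDiff_pdv (m := 0) hg (by simp) a).continuous).aestronglyMeasurable (.of_forall fun x => ?_)
    have h4 : pdv a g x ^ 2 ≤ gsq g x := Finset.single_le_sum (f := fun i => pdv i g x ^ 2)
      (fun _ _ => sq_nonneg _) (Finset.mem_univ a)
    rw [Real.norm_eq_abs, abs_le, Pi.add_apply]
    constructor <;> nlinarith [sq_nonneg (g x + pdv a g x), sq_nonneg (g x - pdv a g x)]
  have h4 : Integrable (pdv a fun x => f x * g x ^ 2) := by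
    rw [funext fun x => pdv_mul (hf.diff x) ((gd x).fun_pow 2) a]
    simp only [pdv_sq (gd _)]
    exact ((hf.d a).int h1).add (hf.bc.int h3)
  refine ⟨h4, ?_⟩
  have h5 := integral_mul_fderiv_eq_neg_fderiv_mul_of_integrable (μ := (volume : Measure (EE n)))
    (f := fun _ => (1 : ℝ)) (g := fun x => f x * g x ^ 2) (v := ev a) (by simp)
    (by simp only [one_mul]; exact h4) (by simp only [one_mul]; exact hf.bc.int h1)
    (fun _ _ => differentiableAt_const _) fun x _ => (hf.diff x).fun_mul ((gd x).fun_pow 2)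
  simpa [pdv] using h5

/-- the Simons field -/
def YY (a : Fin n) : Fam n := fun v => Hy.Y (pre (nu v)) (nu v) a

theorem o_C (a b c : Fin n) :
    Ord 1 fun v => (pre (nu v)).nab2 (Hy.A (pre (nu v)) (nu v)) a b c :=
  (Ord.usum fun e => Ord.usum fun f =>
    ((o_Pm b e).mul0 (o_Pm c f)).mul0 (o_dl (o_AA e f) a)).congr' fun v _ x => by
      simp only [Pre.nab2, Finset.sum_apply, Pi.mul_apply, P_eq]
      rfl

theorem o_YY (a : Fin n) : Ord 2 (YY a) :=
  (Ord.usum fun b => Ord.usum fun c =>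
    ((o_AA b c).mul (o_C b a c)).sub ((o_AA a c).mul (o_C b b c))).congr' fun v _ x => by
      simp only [YY, Hy.Y, Pre.sY, Finset.sum_apply, Pi.mul_apply, Pi.sub_apply]
      rfl

theorem sum_dl (h : Sol v) (hx : tt v x < 1 / 2) (f : EE n → ℝ) :
    ∑ a, dl (nu v) a f x ^ 2 = gsq f x - (iN (tt v x) * gin (dd v) f x) ^ 2 := by
  have e1 : ∑ b, nu v b x * pdv b f x = iN (tt v x) * gin (dd v) f x := by
    simp only [nu, gin, Finset.mul_sum, mul_assoc]
  have e2 : ∀ a, dl (nu v) a f x ^ 2 = pdv a f x ^ 2 -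
      2 * (iN (tt v x) * gin (dd v) f x) * (nu v a x * pdv a f x) +
      (iN (tt v x) * gin (dd v) f x) ^ 2 * (nu v a x * nu v a x) := fun a => by
    rw [dl, e1]; ring
  simp only [e2, Finset.sum_add_distrib, Finset.sum_sub_distrib, ← Finset.mul_sum, e1,
    (lev h).unit x hx, gsq]
  ring

theorem tg_dl (h : Sol v) (hx : tt v x < 1 / 2) (f : EE n → ℝ) :
    tg v f x = Nf (tt v x) ^ 2 * ∑ a, dl (nu v) a f x ^ 2 := by
  have := Nf_pos (tt v x)
  rw [sum_dl h hx, tg, ← Nf_sq hx.le, iN]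
  field_simp

theorem trP (h : Sol v) (hx : tt v x < 1 / 2) :
    ∑ a, (Hy.dat (Pi.evalRingHom _ x) (pre (nu v)) (nu v)).P a a = n - 1 := by
  simp only [Hy.dat, P_eq, Pi.evalRingHom_apply, Pm, if_true, Finset.sum_sub_distrib,
    (lev h).unit x hx, Finset.sum_const, Finset.card_univ, Fintype.card_fin, nsmul_eq_mul, mul_one]

theorem H_eq (v : EE n → ℝ) : Hy.H (pre (nu v)) (nu v) = HH v :=
  funext fun x => Finset.sum_apply x _ _

theorem nA_eq (v : EE n → ℝ) : Hy.nA (pre (nu v)) (nu v) = fun x => ∑ a, ∑ b, AA a b v x ^ 2 :=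
  funext fun x => by
    simp only [Hy.nA, Finset.sum_apply, Pi.mul_apply, sq]
    rfl

theorem yy_eq (v : EE n → ℝ) (x : EE n) :
    ∑ a, ∑ b, ((Hy.dat (Pi.evalRingHom _ x) (pre (nu v)) (nu v)).A a b - HH v x / (n - 1) *
      (Hy.dat (Pi.evalRingHom _ x) (pre (nu v)) (nu v)).P a b) ^ 2 = yy v x := by
  simp only [Hy.dat, P_eq]
  rfl

theorem dl_yy (hn : 3 ≤ n) (h : Sol v) (hx : tt v x < 1 / 2) (a : Fin n) :
    dl (nu v) a (yy v) x = dl (nu v) a (Hy.nA (pre (nu v)) (nu v)) x -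
      2 * HH v x * dl (nu v) a (Hy.H (pre (nu v)) (nu v)) x / (n - 1) := by
  have k0 : (n : ℝ) - 1 ≠ 0 := by
    have : (3 : ℝ) ≤ n := by exact_mod_cast hn
    linarith
  have h1 : yy v =ᶠ[𝓝 x] fun y => ∑ a, ∑ b, AA a b v y ^ 2 - HH v y ^ 2 / (n - 1) := by
    filter_upwards [(lev h).op.mem_nhds hx] with y hy
    exact (yy_eq v y).symm.trans (((lev h).ok hy).sq_eq (trP h hy) rfl k0)
  have h2 := o_HH.diff h x
  rw [dl_congr h1, nA_eq, H_eq, dl_sub ((Ord.usum fun a => Ord.usum fun b => (o_AA a b).sq).diff h x)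
    (by simpa only [div_eq_mul_inv] using (h2.fun_pow 2).mul_const _),
    dl_comp (φ := fun s => s ^ 2 / (n - 1)) ((hasDerivAt_pow 2 _).div_const _) h2]
  push_cast
  ring

theorem comb {N W m g Y p X τ H Γ Γ' S K t : ℝ} (N1 : N ^ 2 ≤ 1) (N2 : 1 / 2 ≤ N ^ 2) (N0 : 0 < N)
    (W0 : 0 ≤ W) (m0 : 0 ≤ m) (Y0 : 0 < Y) (X0 : 0 ≤ X) (τ0 : 0 ≤ τ) (Γ0 : 0 ≤ Γ) (hΓ : Γ ≤ Γ')
    (hH : |H| ≤ K * t)
    (h : p ^ 2 * (X / Y) * g ^ 2 ≤ 199 / 200 * S + 999 / 1000 * Y ^ 2 * g ^ 2 +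
      10 ^ 10 * (τ + H ^ 4) * g ^ 2 + 201 * Y * Γ) :
    p ^ 2 * W * (N ^ 2 * (4 * X) / (4 * Y)) * (g ^ 2 * m) ≤ 199 / 200 * (N * (W * m * S)) +
      (999 / 1000 * (W * Y ^ 2 * (g ^ 2 * m)) +
        10 ^ 10 * (2 + K ^ 4) * (W * (N ^ 2 * τ + t ^ 4) * (g ^ 2 * m)) +
        10 ^ 10 * (2 + K ^ 4) * (W * Y * (Γ' * m))) := by
  have a1 : N ≤ 1 := by nlinarith
  have a2 : N ≤ 2 * N ^ 2 := by nlinarith
  have a3 : H ^ 4 ≤ K ^ 4 * t ^ 4 := by
    rw [← mul_pow, ← (by norm_num : Even 4).pow_abs H]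
    exact pow_le_pow_left₀ (abs_nonneg _) hH 4
  have b0 : 0 ≤ X / Y := by positivity
  have b1 : N ^ 2 * (p ^ 2 * (X / Y) * g ^ 2) ≤ N * (p ^ 2 * (X / Y) * g ^ 2) :=
    mul_le_mul_of_nonneg_right (by nlinarith) (by positivity)
  have b2 := mul_le_mul_of_nonneg_left h N0.le
  have b3 : N * (Y ^ 2 * g ^ 2) ≤ Y ^ 2 * g ^ 2 := mul_le_of_le_one_left (by positivity) a1
  have b4 : N * (τ + H ^ 4) ≤ (2 + K ^ 4) * (N ^ 2 * τ + t ^ 4) := by
    have c1 := mul_le_mul_of_nonneg_right a2 τ0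
    have c2 : N * H ^ 4 ≤ H ^ 4 := mul_le_of_le_one_left (by positivity) a1
    have c3 : 0 ≤ K ^ 4 * (N ^ 2 * τ) := by positivity
    have c4 : 0 ≤ t ^ 4 := by positivity
    linarith
  have b5 := mul_le_mul_of_nonneg_right b4 (sq_nonneg g)
  have b6 : N * (Y * Γ) ≤ Y * Γ' :=
    (mul_le_of_le_one_left (by positivity) a1).trans (mul_le_mul_of_nonneg_left hΓ Y0.le)
  have b7 : 0 ≤ K ^ 4 * (Y * Γ') := by have := Γ0.trans hΓ; positivity
  have b8 : 0 ≤ Y * Γ' := by have := Γ0.trans hΓ; positivity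
  have b9 : N ^ 2 * (p ^ 2 * (X / Y) * g ^ 2) ≤ 199 / 200 * (N * S) + (999 / 1000 * (Y ^ 2 * g ^ 2) +
      10 ^ 10 * ((2 + K ^ 4) * (N ^ 2 * τ + t ^ 4) * g ^ 2) + 10 ^ 10 * (2 + K ^ 4) * (Y * Γ')) := by
    linarith
  have e : N ^ 2 * (4 * X) / (4 * Y) = N ^ 2 * (X / Y) := by field_simp
  rw [e]
  linarith [mul_le_mul_of_nonneg_left b9 (mul_nonneg W0 m0)]

/-- the pointwise inequality -/
theorem ptw (hn : 3 ≤ n) (hn' : n ≤ 8) (h : Sol v) (P : Prof) {ε K : ℝ} (hε : 0 < ε) {m : ℝ → ℝ}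
    (hm : Differentiable ℝ m) (m0 : ∀ s, 0 ≤ m s) (hg : Differentiable ℝ g)
    (hK : ∀ x, |HH v x| ≤ K * tt v x) (hx : tt v x < 1 / 2) :
    P.p (yy v x + ε) ^ 2 * P.W (yy v x + ε) * (tg v (yy v) x / (4 * (yy v x + ε))) *
        (g x ^ 2 * m (dd v x)) ≤
      199 / 200 * ∑ a, pdv a (fun y => Nf (tt v y) * (YY a v y * (P.W (yy v y + ε) * m (dd v y))) *
        g y ^ 2) x + (999 / 1000 * (P.F (yy v x + ε) * (g x ^ 2 * m (dd v x))) +
        10 ^ 10 * (2 + K ^ 4) *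
          (P.W (yy v x + ε) * (tg v (HH v) x + tt v x ^ 4) * (g x ^ 2 * m (dd v x))) +
        10 ^ 10 * (2 + K ^ 4) * (P.F (yy v x + ε) / (yy v x + ε) * (gsq g x * m (dd v x)))) := by
  have L := lev h
  have ok := fun y hy => L.ok (x := y) hy
  have Y0 : 0 < yy v x + ε := add_pos_of_nonneg_of_pos (yy_nonneg v x) hε
  have n3 : (3 : ℝ) ≤ n := by exact_mod_cast hn
  have n8 : (n : ℝ) ≤ 8 := by exact_mod_cast hn'
  have key := (ok x hx).main (trP h hx) (H := HH v x) rfl (by linarith) (by linarith) (yy_eq v x)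
    (lt_add_of_pos_right _ hε) (P.one_le_p Y0) (P.p_le Y0) (g := g x)
    (G := fun a => dl (nu v) a (yy v) x / 2) (γ := fun a => dl (nu v) a g x)
    fun a => by rw [mul_div_cancel₀ _ two_ne_zero]; exact dl_yy hn h hx a
  have t0 := h.tt_nonneg x
  have res := comb (N := Nf (tt v x)) (by rw [Nf_sq hx.le]; linarith)
    (by rw [Nf_sq hx.le]; linarith) (Nf_pos _) (P.W_pos Y0).le (m0 (dd v x)) Y0 (by positivity)
    (by positivity) (by positivity) (Γ' := gsq g x)
    (by rw [sum_dl h hx]; exact sub_le_self _ (sq_nonneg _)) (hK x) key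
  have d1 := (o_yy.diff h x).add_const ε
  have d2 := (P.hasDerivAt_W Y0).differentiableAt.fun_comp' x d1
  have d3 := (hm _).fun_comp' x (h.dd_diff x)
  have d4 := (d2.fun_mul d3).fun_mul ((hg x).fun_pow 2)
  have e1 := L.div hx (Z := fun a y => YY a v y * (P.W (yy v y + ε) * m (dd v y) * g y ^ 2))
    (fun a => ((o_YY a).diff h x).fun_mul d4) fun y hy => by
      have h1 : ∀ a, ∑ b, Pm (nu v) a b y * YY b v y = YY a v y := fun a => by
        simpa only [Hy.dat, P_eq, Pi.evalRingHom_apply, YY] using (ok y hy).PY a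
      have h2 : ∑ a, nu v a y * YY a v y = 0 := by
        have h3 : ∑ a, nu v a y * YY a v y =
            ∑ a, nu v a y * (YY a v y - nu v a y * ∑ b, nu v b y * YY b v y) :=
          Finset.sum_congr rfl fun a _ => by rw [← Pm_mul fun b => YY b v y, h1]
        rw [h3]
        simp only [mul_sub, Finset.sum_sub_distrib, ← mul_assoc, ← Finset.sum_mul, L.unit y hy,
          one_mul, sub_self]
      simp only [← mul_assoc _ (YY _ v y), ← Finset.sum_mul, h2, zero_mul]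
  have e2 : ∀ a, dl (nu v) a (fun y => YY a v y * (P.W (yy v y + ε) * m (dd v y) * g y ^ 2)) x =
      P.W (yy v x + ε) * m (dd v x) * (g x ^ 2 * dl (nu v) a (YY a v) x +
        (2 * (P.p (yy v x + ε) - 1) / (yy v x + ε) * (dl (nu v) a (yy v) x / 2) * g x ^ 2 +
          2 * g x * dl (nu v) a g x) * YY a v x) := fun a => by
    rw [dl_mul ((o_YY a).diff h x) d4, dl_mul (d2.fun_mul d3) ((hg x).fun_pow 2), dl_mul d2 d3,
      dl_comp (hm _).hasDerivAt (h.dd_diff x), L.dl_d hx,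
      dl_comp (φ := fun s => s ^ 2) (hasDerivAt_pow 2 _) (hg x), dl_comp (P.hasDerivAt_W Y0) d1,
      dl_add (o_yy.diff h x) (differentiableAt_const ε), dl_const]
    push_cast
    ring
  have e3 : (Hy.dat (Pi.evalRingHom _ x) (pre (nu v)) (nu v)).dY = ∑ a, dl (nu v) a (YY a v) x :=
    Finset.sum_apply x Finset.univ fun a => dl (nu v) a (YY a v)
  have e4 : ∑ a, dl (nu v) a (yy v) x ^ 2 = 4 * ∑ a, (dl (nu v) a (yy v) x / 2) ^ 2 := by
    rw [Finset.mul_sum]
    exact Finset.sum_congr rfl fun a _ => by ring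
  have e5 : P.F (yy v x + ε) = P.W (yy v x + ε) * (yy v x + ε) ^ 2 := by
    rw [Prof.W, div_mul_cancel₀ _ (pow_pos Y0 2).ne']
  have e6 : P.F (yy v x + ε) / (yy v x + ε) = P.W (yy v x + ε) * (yy v x + ε) := by
    rw [e5, sq, ← mul_assoc, mul_div_cancel_right₀ _ Y0.ne']
  simp only [e2, ← Finset.mul_sum, Finset.sum_add_distrib] at e1
  simp only [mul_assoc (Nf _), mul_assoc (YY _ v _)]
  rw [e1, tg_dl h hx, tg_dl h hx, e4, e6, e5, ← e3, ← H_eq]
  exact res

end SK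

open SK in
/-- **SK** -/
theorem sk (n : ℕ) : SKStmt n := by
  intro hn hn'
  obtain ⟨K1, p1, h1⟩ := (o_cmp (n := n)).bd4
  obtain ⟨K2, p2, h2⟩ := cmp' (n := n)
  obtain ⟨K3, p3, h3⟩ := nor (n := n)
  obtain ⟨K4, p4, h4⟩ := dH (n := n)
  obtain ⟨K, -, hK⟩ := (o_HH (n := n)).bd2
  have m : ∀ {a b c : ℝ}, 0 ≤ c → a ≤ b → a * c ≤ b * c := fun hc h =>
    mul_le_mul_of_nonneg_right h hc
  refine ⟨yy, HH, K1 + K2 + K3 + K4, 999 / 1000, 1 / 4, 10 ^ 10 * (2 + K ^ 4), by positivity,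
    by norm_num, by norm_num, by norm_num, by positivity, o_yy, o_HH, fun v _ => yy_nonneg v,
    fun v h x _ => (h1 v h x).trans (m (sq_nonneg _) (by linarith)),
    fun v h x _ => (h2 v h x).trans (add_le_add le_rfl (m (by positivity) (by linarith))),
    fun v h x _ => (h3 v h x).trans
      (m (mul_nonneg (Real.sqrt_nonneg _) (h.tt_nonneg x)) (by linarith)),
    fun v h x _ => (h4 v h x).trans (m (Finset.sum_nonneg fun i _ => Finset.sum_nonneg fun j _ =>
      add_nonneg (sq_nonneg _) (gsq_nonneg _ _)) (by linarith)), ?_⟩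
  intro v P ε M m g h hε _ hm hM hg hg0 i1 i2
  have Y0 : ∀ x, 0 < yy v x + ε := fun x => add_pos_of_nonneg_of_pos (yy_nonneg v x) hε
  have bY : B1 fun x => yy v x + ε := b1_ord ((o_yy.mono (by norm_num)).add (Ord.const ε)) h
  have c : ∀ {φ : ℝ → ℝ}, ContinuousOn φ (Ioi 0) → BC fun x => φ (yy v x + ε) := fun hφ =>
    bY.bc.comp hε (fun x => le_add_of_nonneg_left (yy_nonneg v x)) hφ
  have bW : B1 fun x => P.W (yy v x + ε) :=
    ⟨fun x => (P.hasDerivAt_W (Y0 x)).differentiableAt.fun_comp' x (bY.diff x),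
      c P.sm_W.continuousOn, fun i => by
        rw [show pdv i _ = _ from funext fun x =>
          pdv_comp (P.hasDerivAt_W (Y0 x)).differentiableAt.hasDerivAt (bY.diff x) i]
        exact (c (P.sm_W.continuousOn_deriv_of_isOpen isOpen_Ioi (by simp))).mul (bY.d i)⟩
  have md := hm.differentiable one_ne_zero
  have bm : B1 fun x => m (dd v x) :=
    ⟨fun x => (md _).fun_comp' x (h.dd_diff x), ⟨hm.continuous.comp h.dd_sm.continuous, M,
      fun x => by rw [abs_of_nonneg (hM _).1]; exact (hM _).2.1⟩, fun i => by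
        rw [funext fun x => pdv_comp (md _).hasDerivAt (h.dd_diff x) i]
        exact BC.mul ⟨(hm.continuous_deriv le_rfl).comp h.dd_sm.continuous, M,
          fun x => (hM _).2.2⟩ (bc_ord ((hkS n).n0 i) h :)⟩
  have hV := fun a => int_pdv ((b1_ord (oc sm_Nf) h).mul ((b1_ord (o_YY a) h).mul (bW.mul bm))) hg
    i1 i2 a
  have bt : BC fun x => tg v (HH v) x + tt v x ^ 4 :=
    bc_ord (k := 0) ((((((Ord.const 1).sub ((hkS n).t2.mono (by norm_num))).mul0 o_HH.gsq).sub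
      (o_n o_HH).sq).mono (by norm_num)).add (oc (contDiff_id.pow 4))) h
  have j0 := (integrable_finsetSum Finset.univ fun a _ => (hV a).1).const_mul (199 / 200)
  have j1 : Integrable fun x => P.F (yy v x + ε) * (g x ^ 2 * m (dd v x)) :=
    (c P.sm.continuousOn).int (by simpa only [mul_comm] using bm.bc.int i1)
  have j2 : Integrable fun x =>
      P.W (yy v x + ε) * (tg v (HH v) x + tt v x ^ 4) * (g x ^ 2 * m (dd v x)) :=
    (bW.bc.mul bt).int (by simpa only [mul_comm] using bm.bc.int i1)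
  have j3 : Integrable fun x => P.F (yy v x + ε) / (yy v x + ε) * (gsq g x * m (dd v x)) :=
    (c (φ := fun y => P.F y / y) (P.sm.continuousOn.div continuousOn_id fun _ hy => ne_of_gt hy)).int
      (by simpa only [mul_comm] using bm.bc.int i2)
  have j4 := (j1.const_mul (999 / 1000)).add (j2.const_mul (10 ^ 10 * (2 + K ^ 4)))
  have j5 := j4.add (j3.const_mul (10 ^ 10 * (2 + K ^ 4)))
  refine (integral_mono_of_nonneg (.of_forall fun x => ?_) (j0.add j5)
    (.of_forall fun x => ?_)).trans_eq ?_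
  · have := P.W_pos (Y0 x)
    have := tg_nonneg v (yy v) x
    have := Y0 x
    have := (hM (dd v x)).1
    positivity
  · rcases lt_or_ge (tt v x) (1 / 2) with hx | hx
    · exact ptw hn hn' h P hε md (fun s => (hM s).1) (hg.differentiable one_ne_zero) (hK v h) hx
    have e0 : ∀ᶠ y in 𝓝 x, g y = 0 :=
      (h.tt_sm.continuous.continuousAt.eventually (lt_mem_nhds (show 1 / 4 < tt v x by linarith))).mono
        fun y hy => hg0 y hy.le
    have e1 : ∀ (u : EE n → ℝ) a, pdv a (fun y => u y * g y ^ 2) x = 0 := fun u a =>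
      (pdv_congr (e0.mono fun y hy => by simp only [hy]; ring) a).trans (pdv_const 0 a x)
    have := P.pos _ (Y0 x)
    have := gsq_nonneg g x
    have := Y0 x
    have := (hM (dd v x)).1
    simp only [Pi.add_apply, e1, e0.self_of_nhds, Finset.sum_const_zero, mul_zero, zero_pow two_ne_zero,
      zero_mul, zero_add]
    positivity
  · rw [integral_add' j0 j5, integral_add' j4 (j3.const_mul _), integral_add' (j1.const_mul _) (j2.const_mul _)]
    simp only [integral_const_mul, integral_finsetSum _ fun a _ => (hV a).1, fun a => (hV a).2,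
      Finset.sum_const_zero, mul_zero, zero_add]

end

end Crest.Agent.N067.Y
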