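import Crest.Agent.N067.Y.StG
import Crest.Agent.N067.Y.Base
import Crest.Agent.N067.Y.SK2_Mg

-- ▼ part N067/Y/StM
section

/-!
# Row 67, block X5, ST (helper16): the compression map
-/

set_option autoImplicit false

open MeasureTheory Laplacian InnerProductSpace Topology Filter Set Metric
open scoped RealInnerProductSpace Gradient ContDiff

namespace Crest.Agent.N067.Y.St

open Crest.Agent.R077

noncomputable section

variable {n : ℕ} {v : EE n → ℝ} {h : ℝ}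

/-- `1 - c N ⊗ N` -/
def R1 (c : ℝ) (N : EE n) : EE n →L[ℝ] EE n :=
  ContinuousLinearMap.id ℝ _ - c • (innerSL ℝ N).smulRight N

theorem R1_apply (c : ℝ) (N u : EE n) : R1 c N u = u - (c * ⟪N, u⟫) • N := by
  simp [R1, smul_smul]

theorem det_R1 (c : ℝ) (N : EE n) : (R1 c N).det = 1 - c * ‖N‖ ^ 2 := by
  have e : (R1 c N : EE n →ₗ[ℝ] EE n) =
      LinearMap.transvection (-c • (innerSL ℝ N : EE n →ₗ[ℝ] ℝ)) N := by
    ext u : 1
    simp [R1_apply, LinearMap.transvection.apply, sub_eq_add_neg]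
  rw [ContinuousLinearMap.det, e, LinearMap.transvection.det]
  simp [sub_eq_add_neg]

theorem norm_R1_sub {c : ℝ} (hc : 0 ≤ c) {N : EE n} (hN : ‖N‖ ≤ 1) :
    ‖R1 c N - ContinuousLinearMap.id ℝ _‖ ≤ c := by
  refine ContinuousLinearMap.opNorm_le_bound _ hc fun u => ?_
  rw [ContinuousLinearMap.sub_apply, R1_apply, ContinuousLinearMap.id_apply, sub_sub_cancel_left,
    norm_neg, norm_smul, Real.norm_eq_abs, abs_mul, abs_of_nonneg hc]
  have := abs_real_inner_le_norm N u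
  calc c * |⟪N, u⟫| * ‖N‖ ≤ c * (1 * ‖u‖) * 1 := by
        gcongr; exact this.trans (by gcongr)
    _ = _ := by ring

/-- the derivative of `Pi` -/
def Pd (h : ℝ) (v : EE n → ℝ) (x : EE n) : EE n →L[ℝ] EE n :=
  R1 (1 - h) (∇ (dd v) x) - ((1 - h) * dd v x) • Bm v x

theorem hasFDerivAt_Pi (hv : Sol v) (h : ℝ) (x : EE n) : HasFDerivAt (Pi h v) (Pd h v x) x := by
  have h1 := (hasFDerivAt_id x).sub (((hv.dd_diff x).hasFDerivAt.const_mul (1 - h)).smul
    (hasFDerivAt_grad hv x))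
  refine h1.congr_fderiv ?_
  ext u : 1
  simp only [Pd, R1_apply, inner_grad, ContinuousLinearMap.sub_apply, ContinuousLinearMap.add_apply,
    ContinuousLinearMap.smul_apply, ContinuousLinearMap.id_apply,
    ContinuousLinearMap.smulRight_apply, smul_eq_mul]
  abel

theorem Pi_cd (hv : Sol v) (h : ℝ) : ContDiff ℝ 1 (Pi h v) :=
  contDiff_id.sub ((contDiff_const.mul (hv.dd_cd 1)).smul (grad_cd hv))

theorem norm_sub_Pi (hv : Sol v) (h0 : 0 ≤ h) (h1 : h ≤ 1) (x : EE n) :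
    ‖x - Pi h v x‖ ≤ |dd v x| := by
  rw [Pi, sub_sub_cancel, norm_smul, Real.norm_eq_abs, abs_mul, abs_of_nonneg (by linarith)]
  calc (1 - h) * |dd v x| * ‖∇ (dd v) x‖ ≤ 1 * |dd v x| * 1 := by
        gcongr
        · linarith
        · exact hv.norm_grad_dd_le x
    _ = _ := by ring

theorem norm_E (h0 : 0 ≤ h) (h1 : h ≤ 1) (x : EE n) :
    ‖((1 - h) * dd v x) • Bm v x‖ ≤ (1 - h) * (|dd v x| * ‖Bm v x‖) := by
  rw [norm_smul, Real.norm_eq_abs, abs_mul, abs_of_nonneg (by linarith), mul_assoc]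

theorem approx (hv : Sol v) (h0 : 0 ≤ h) (h1 : h ≤ 1) {s : Set (EE n)} (hs : Convex ℝ s)
    (hB : ∀ y ∈ s, |dd v y| * ‖Bm v y‖ ≤ h / 2) {x y : EE n} (hx : x ∈ s) (hy : y ∈ s) :
    ‖Pi h v x - Pi h v y - (x - y)‖ ≤ (1 - h / 2) * ‖x - y‖ :=
  hs.norm_image_sub_le_of_norm_hasFDerivWithin_le' (φ := ContinuousLinearMap.id ℝ _)
    (fun z _ => (hasFDerivAt_Pi hv h z).hasFDerivWithinAt) (fun z hz => by
      rw [Pd, sub_right_comm]
      refine (norm_sub_le _ _).trans ?_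
      have a1 := norm_R1_sub (c := 1 - h) (by linarith) (hv.norm_grad_dd_le z)
      have a2 := norm_E (v := v) h0 h1 z
      have a3 := mul_le_mul_of_nonneg_left (hB z hz) (show 0 ≤ 1 - h by linarith)
      nlinarith) hy hx

theorem inj (n : ℕ) {g h : ℝ} (hg : 0 < g) (h0 : 0 < h) (h1 : h ≤ 1) : ∀ᶠ κ in 𝓝[>] (0 : ℝ),
    ∀ v : EE n → ℝ, Sol v → InjOn (Pi h v) {x | Gd g κ v x} := by
  filter_upwards [geo n hg (ρ := h / 8) (by positivity), loc n hg (ρ := h / 2) (by positivity)]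
    with κ k1 k2 v hv x hx x' hx' e
  have hs : 1 - h ∈ Icc (0 : ℝ) 1 := ⟨by linarith, by linarith⟩
  obtain ⟨a1, a2, -⟩ := k1 v hv x hx _ hs
  obtain ⟨b1, b2, -⟩ := k1 v hv x' hx' _ hs
  change (1 + |dd v x|) * ‖∇ (dd v) (Pi h v x) - _‖ ≤ _ at a1
  change |dd v (Pi h v x) - _| ≤ _ at a2
  change (1 + |dd v x'|) * ‖∇ (dd v) (Pi h v x') - _‖ ≤ _ at b1
  change |dd v (Pi h v x') - _| ≤ _ at b2
  rw [← e] at b1 b2
  have c1 : |dd v x - dd v x'| ≤ 1 / 4 := by
    rw [abs_le] at a2 b2 ⊢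
    constructor <;> nlinarith
  have c2 : |dd v x| ≤ 1 + |dd v x'| := by linarith [abs_sub_abs_le_abs_sub (dd v x) (dd v x')]
  have c3 : x' - x = ((1 - h) * (dd v x' - dd v x)) • ∇ (dd v) x' +
      ((1 - h) * dd v x) • ((∇ (dd v) (Pi h v x) - ∇ (dd v) x) -
        (∇ (dd v) (Pi h v x) - ∇ (dd v) x')) := by
    have e' := e
    simp only [Pi] at e'
    linear_combination (norm := module) -e'
  have c4 : ‖x' - x‖ ≤ 1 := by
    rw [c3]
    refine (norm_add_le _ _).trans ?_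
    rw [norm_smul, norm_smul, Real.norm_eq_abs, Real.norm_eq_abs, abs_mul, abs_mul,
      abs_of_nonneg hs.1, abs_sub_comm (dd v x')]
    have d1 : (1 - h) * |dd v x - dd v x'| * ‖∇ (dd v) x'‖ ≤ 1 * (1 / 4) * 1 := by
      gcongr
      · exact hs.2
      · exact hv.norm_grad_dd_le x'
    have d2 := norm_sub_le (∇ (dd v) (Pi h v x) - ∇ (dd v) x) (∇ (dd v) (Pi h v x) - ∇ (dd v) x')
    have d3 := mul_le_mul (mul_le_of_le_one_left (abs_nonneg (dd v x)) hs.2) d2 (norm_nonneg _)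
      (abs_nonneg _)
    have d4 := mul_le_mul_of_nonneg_right c2 (norm_nonneg (∇ (dd v) (Pi h v x) - ∇ (dd v) x'))
    nlinarith [norm_nonneg (∇ (dd v) (Pi h v x) - ∇ (dd v) x)]
  have c5 := approx hv h0.le h1 (convex_closedBall x 1) (fun y hy => (k2 v hv x hx).2 y hy)
    (mem_closedBall_iff_norm.2 c4) (mem_closedBall_self zero_le_one)
  rw [e, sub_self, zero_sub, norm_neg] at c5
  have c6 : ‖x' - x‖ = 0 := by nlinarith [norm_nonneg (x' - x)]
  exact (sub_eq_zero.1 (norm_eq_zero.1 c6)).symm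

theorem surj (n : ℕ) {g h e T : ℝ} (hg : 0 ≤ g) (h0 : 0 < h) (h1 : h ≤ 1) (he : 0 ≤ e)
    (hT : 0 ≤ T) : ∀ᶠ e1 in 𝓝[>] (0 : ℝ), ∀ v : EE n → ℝ, Sol v → ∀ y, tt v y ≤ e1 →
      |dd v y| ≤ h * T → ∃ x, Pi h v x = y ∧ uu e g v x ≤ 1 := by
  obtain ⟨C, hC0, hC⟩ := hk_har n
  obtain ⟨K, hK1, hK⟩ := exists_K n
  filter_upwards [ev_small (f := fun e1 => 3 * T * (K * √(Real.exp (C * (2 * T)) * e1)))
    (ρ := h / 2) (by fun_prop) (by simpa using h0),
    ev_small (f := fun e1 => e * (Real.exp (C * (2 * T)) * e1))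
    (ρ := Real.exp (-(√2 * g * (3 * T)))) (by fun_prop) (by simpa using Real.exp_pos _)]
    with e1 k1 k2 v hv y hy hd
  have a1 : ∀ z ∈ closedBall y (2 * T), tt v z ≤ Real.exp (C * (2 * T)) * e1 := fun z hz =>
    (hC v hv y z).trans (by
      have := hv.tt_nonneg y
      have : ‖y - z‖ ≤ 2 * T := mem_closedBall_iff_norm'.1 hz
      gcongr)
  have a2 : ∀ z ∈ closedBall y (2 * T), |dd v z| ≤ 3 * T := fun z hz => by
    have := hv.abs_dd_sub_le z y
    have := mem_closedBall_iff_norm.1 hz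
    nlinarith [abs_sub_abs_le_abs_sub (dd v z) (dd v y)]
  have hA : ApproximatesLinearOn (Pi h v) (ContinuousLinearMap.id ℝ (EE n)) (closedBall y (2 * T))
      ⟨1 - h / 2, by linarith⟩ := fun x hx z hz =>
    approx hv h0.le h1 (convex_closedBall _ _) (fun w hw => le_trans (mul_le_mul (a2 w hw)
      ((hK v hv w).1.trans (mul_le_mul_of_nonneg_left (Real.sqrt_le_sqrt (a1 w hw)) (by linarith)))
      (norm_nonneg _) (by positivity)) k1.le) hx hz
  obtain ⟨x, hx, e⟩ := hA.surjOn_closedBall_of_nonlinearRightInverse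
    ⟨id, 1, fun y => by simp, fun y => rfl⟩ (by positivity) subset_rfl (a := y) (by
      rw [mem_closedBall_iff_norm]
      refine (norm_sub_Pi hv h0.le h1 y).trans (hd.trans (le_of_eq ?_))
      change _ = ((1 : ℝ)⁻¹ - (1 - h / 2)) * (2 * T)
      ring)
  refine ⟨x, e, ?_⟩
  rw [uu, div_le_one (Real.rpow_pos_of_pos (hv.psi_pos x) g)]
  refine (mul_le_mul_of_nonneg_left (a1 x hx) he).trans (k2.le.trans
    (le_trans (Real.exp_le_exp.2 (neg_le_neg ?_)) (le_psi_rpow hv hg x)))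
  exact mul_le_mul_of_nonneg_left (a2 x hx) (by positivity)

theorem det_Pd (n : ℕ) {h ε : ℝ} (h0 : 0 ≤ h) (h1 : h ≤ 1) (hε : 0 < ε) : ∀ᶠ ρ in 𝓝[>] (0 : ℝ),
    ∀ v : EE n → ℝ, Sol v → ∀ x, tt v x ≤ ρ → |dd v x| * ‖Bm v x‖ ≤ ρ →
      |(Pd h v x).det - h| ≤ ε := by
  obtain ⟨δ, hδ, hU⟩ := Metric.uniformContinuousOn_iff.1
    ((isCompact_closedBall (ContinuousLinearMap.id ℝ (EE n)) 2).uniformContinuousOn_of_continuous
      ContinuousLinearMap.continuous_det.continuousOn) (ε / 2) (by positivity)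
  filter_upwards [ev_small (f := fun ρ => ρ) (ρ := min 1 (min δ (ε / 2))) (by fun_prop)
    (by positivity)] with ρ k v hv x ht hB
  obtain ⟨k1, k2⟩ := lt_min_iff.1 k
  obtain ⟨k2, k3⟩ := lt_min_iff.1 k2
  have a1 := norm_R1_sub (c := 1 - h) (by linarith) (hv.norm_grad_dd_le x)
  have a2 : ‖((1 - h) * dd v x) • Bm v x‖ ≤ ρ := (norm_E h0 h1 x).trans
    ((mul_le_of_le_one_left (by positivity) (by linarith)).trans hB)
  have a3 := hU (Pd h v x) (by
      rw [mem_closedBall_iff_norm, Pd, sub_right_comm]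
      exact (norm_sub_le _ _).trans (by linarith)) (R1 (1 - h) (∇ (dd v) x))
    (mem_closedBall_iff_norm.2 (by linarith)) (by
      rw [dist_eq_norm, Pd, sub_sub_cancel_left, norm_neg]; linarith)
  rw [Real.dist_eq, det_R1, show ‖∇ (dd v) x‖ ^ 2 = 1 - tt v x by simp [tt], abs_lt] at a3
  have := hv.tt_nonneg x
  rw [abs_le]
  constructor <;> nlinarith

theorem sq_add_le {ε : ℝ} (hε : 0 < ε) (x y : ℝ) :
    (x + y) ^ 2 ≤ (1 + ε) * x ^ 2 + (1 + ε⁻¹) * y ^ 2 := by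
  have : (1 + ε) * x ^ 2 + (1 + ε⁻¹) * y ^ 2 - (x + y) ^ 2 = ε⁻¹ * (ε * x - y) ^ 2 := by
    field_simp; ring
  have : 0 ≤ ε⁻¹ * (ε * x - y) ^ 2 := by positivity
  linarith

theorem grad_comp_le (hv : Sol v) (h0 : 0 ≤ h) (h1 : h ≤ 1) {z : EE n → ℝ}
    (hz : Differentiable ℝ z) {ρ : ℝ} {x : EE n} (hN : ‖∇ (dd v) (Pi h v x) - ∇ (dd v) x‖ ≤ ρ)
    (hB : |dd v x| * ‖Bm v x‖ ≤ ρ) : ‖∇ (fun y => z (Pi h v y)) x‖ ≤
      ‖R1 (1 - h) (∇ (dd v) (Pi h v x)) (∇ z (Pi h v x))‖ + 3 * ρ * ‖∇ z (Pi h v x)‖ := by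
  have hρ : 0 ≤ ρ := (norm_nonneg _).trans hN
  have hd : HasFDerivAt (fun y => z (Pi h v y)) _ x :=
    (hz _).hasFDerivAt.comp x (hasFDerivAt_Pi hv h x)
  rw [norm_grad, hd.fderiv]
  refine ContinuousLinearMap.opNorm_le_bound _ (by positivity) fun u => ?_
  rw [ContinuousLinearMap.comp_apply, ← inner_grad]
  have hN1 := hv.norm_grad_dd_le x
  have hN2 := hv.norm_grad_dd_le (Pi h v x)
  have a2 : ‖((1 - h) * dd v x) • Bm v x‖ ≤ ρ := (norm_E h0 h1 x).trans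
    ((mul_le_of_le_one_left (by positivity) (by linarith)).trans hB)
  rw [Pd]
  generalize ∇ z (Pi h v x) = ξ, ∇ (dd v) (Pi h v x) = N', ∇ (dd v) x = N,
    ((1 - h) * dd v x) • Bm v x = E at *
  have e : ⟪ξ, (R1 (1 - h) N - E) u⟫ = ⟪R1 (1 - h) N' ξ, u⟫ +
      (1 - h) * (⟪N' - N, ξ⟫ * ⟪N', u⟫ + ⟪N, ξ⟫ * ⟪N' - N, u⟫) - ⟪ξ, E u⟫ := by
    simp only [ContinuousLinearMap.sub_apply, R1_apply, inner_sub_left, inner_sub_right,
      inner_smul_left, inner_smul_right, real_inner_comm ξ, conj_trivial]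
    ring
  have b1 := abs_real_inner_le_norm (R1 (1 - h) N' ξ) u
  have b2 : |⟪N' - N, ξ⟫ * ⟪N', u⟫| ≤ ρ * ‖ξ‖ * (1 * ‖u‖) := by
    rw [abs_mul]
    exact mul_le_mul ((abs_real_inner_le_norm _ _).trans (by gcongr))
      ((abs_real_inner_le_norm _ _).trans (by gcongr)) (abs_nonneg _) (by positivity)
  have b3 : |⟪N, ξ⟫ * ⟪N' - N, u⟫| ≤ 1 * ‖ξ‖ * (ρ * ‖u‖) := by
    rw [abs_mul]
    exact mul_le_mul ((abs_real_inner_le_norm _ _).trans (by gcongr))
      ((abs_real_inner_le_norm _ _).trans (by gcongr)) (abs_nonneg _) (by positivity)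
  have b4 : |⟪ξ, E u⟫| ≤ ‖ξ‖ * (ρ * ‖u‖) := (abs_real_inner_le_norm _ _).trans
    (mul_le_mul_of_nonneg_left ((E.le_opNorm u).trans (by gcongr)) (norm_nonneg _))
  have b5 : |(1 - h) * (⟪N' - N, ξ⟫ * ⟪N', u⟫ + ⟪N, ξ⟫ * ⟪N' - N, u⟫)| ≤ 2 * (ρ * ‖ξ‖ * ‖u‖) := by
    rw [abs_mul, abs_of_nonneg (by linarith)]
    exact (mul_le_of_le_one_left (abs_nonneg _) (by linarith)).trans
      ((abs_add_le _ _).trans (by linarith))
  rw [e, Real.norm_eq_abs]
  refine (abs_sub _ _).trans ((add_le_add (abs_add_le _ _) b4).trans ?_)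
  linarith

/-- the gradient of `z ∘ Pi` -/
theorem gsq_comp_le (n : ℕ) {h ε : ℝ} (h0 : 0 < h) (h1 : h ≤ 1) (hε : 0 < ε) (hε1 : ε ≤ 1) :
    ∀ᶠ ρ in 𝓝[>] (0 : ℝ), ∀ v z : EE n → ℝ, Sol v → Differentiable ℝ z → ∀ x,
      ‖∇ (dd v) (Pi h v x) - ∇ (dd v) x‖ ≤ ρ → |dd v x| * ‖Bm v x‖ ≤ ρ → tt v (Pi h v x) ≤ ρ →
      gsq (fun y => z (Pi h v y)) x ≤
        (1 + ε) * tg v z (Pi h v x) + 2 * h ^ 2 * gin (dd v) z (Pi h v x) ^ 2 := by
  filter_upwards [ev_small (f := fun ρ => ρ) (ρ := 1 / 2) (by fun_prop) (by positivity),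
    ev_small (f := fun ρ => (1 + ε / 2) * (2 * ρ) + (1 + (ε / 2)⁻¹) * (18 * ρ ^ 2))
      (ρ := min (ε / 2) (h ^ 2 / 2)) (by fun_prop) (by simpa using ⟨hε, pow_pos h0 2⟩)]
    with ρ k1 k2 v z hv hz x hN hB ht
  obtain ⟨k2, k3⟩ := lt_min_iff.1 k2
  have hρ : 0 ≤ ρ := (norm_nonneg _).trans hN
  have a1 := pow_le_pow_left₀ (norm_nonneg _) (grad_comp_le hv h0.le h1 hz hN hB) 2
  rw [← gsq_eq] at a1
  have a2 := a1.trans (sq_add_le (half_pos hε) _ _)
  have hT := tg_nonneg v z (Pi h v x)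
  have ht0 := hv.tt_nonneg (Pi h v x)
  have a3 : ‖R1 (1 - h) (∇ (dd v) (Pi h v x)) (∇ z (Pi h v x))‖ ^ 2 ≤
      gsq z (Pi h v x) - (1 - h ^ 2) * gin (dd v) z (Pi h v x) ^ 2 := by
    rw [R1_apply, norm_sub_sq_real, norm_smul, inner_smul_right, ← gin_eq, ← gin_eq, gin_comm z,
      ← gsq_eq, mul_pow, Real.norm_eq_abs, sq_abs, show ‖∇ (dd v) (Pi h v x)‖ ^ 2 =
        1 - tt v (Pi h v x) by simp [tt]]
    nlinarith [mul_nonneg (sq_nonneg ((1 - h) * gin (dd v) z (Pi h v x))) ht0]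
  rw [mul_pow, ← gsq_eq] at a2
  have hG := gsq_nonneg z (Pi h v x)
  have e : tg v z (Pi h v x) = (1 - tt v (Pi h v x)) * gsq z (Pi h v x) -
    gin (dd v) z (Pi h v x) ^ 2 := rfl
  have ha := sq_nonneg (gin (dd v) z (Pi h v x))
  generalize tg v z (Pi h v x) = T, gsq z (Pi h v x) = G, gin (dd v) z (Pi h v x) ^ 2 = a,
    tt v (Pi h v x) = t at *
  have b1 : G ≤ 2 * (T + a) := by nlinarith
  have b2 : G - a ≤ T + ρ * (2 * (T + a)) := by nlinarith [mul_le_mul ht b1 hG hρ]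
  have b3 := mul_le_mul_of_nonneg_left (a3.trans (show G - (1 - h ^ 2) * a ≤
    T + ρ * (2 * (T + a)) + h ^ 2 * a by linarith)) (show 0 ≤ 1 + ε / 2 by positivity)
  have b4 := mul_le_mul_of_nonneg_left b1 (show 0 ≤ (1 + (ε / 2)⁻¹) * (3 * ρ) ^ 2 by positivity)
  have b5 := mul_le_mul_of_nonneg_right k2.le hT
  have b6 := mul_le_mul_of_nonneg_right k3.le ha
  have b7 := mul_le_mul_of_nonneg_right hε1 (mul_nonneg (sq_nonneg h) ha)
  linarith

end

end Crest.Agent.N067.Y.St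
end

-- ▼ part N067/Y/StP
section

/-!
# Row 67, block X5, ST (helper16): the pointwise comparisons at a good point
-/

set_option autoImplicit false

open MeasureTheory Laplacian InnerProductSpace Topology Filter Set Metric
open scoped RealInnerProductSpace Gradient ContDiff

namespace Crest.Agent.N067.Y.St

open Crest.Agent.R077

noncomputable section

variable {n : ℕ} {v : EE n → ℝ} {h : ℝ}

theorem exp_le_pow (s : ℝ) (k : ℕ) : Real.exp (-(√2 * (k * |s|))) ≤ Psi s ^ k := by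
  refine le_trans (le_of_eq ?_) (pow_le_pow_left₀ (Real.exp_pos _).le (Psi_lo s) k)
  rw [← Real.exp_nat_mul]; congr 1; ring

theorem Psi_sq_le (h0 : 0 < h) (s : ℝ) :
    Psi (s / h) ^ 2 ≤ 16 * Real.exp (-(√2 * (2 * (|s| / h)))) := by
  refine (pow_le_pow_left₀ (Psi_pos _).le (Psi_up _) 2).trans (le_of_eq ?_)
  rw [mul_pow, ← Real.exp_nat_mul, abs_div, abs_of_pos h0]
  congr 2
  · norm_num
  · push_cast; ring

theorem mh_nonneg (h0 : 0 < h) (s : ℝ) : 0 ≤ mh h s := by unfold mh; positivity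

theorem mh_le (h0 : 0 < h) (s : ℝ) : mh h s ≤ 1 / h :=
  div_le_div_of_nonneg_right (pow_le_one₀ (Psi_pos _).le (Psi_le_one _)) h0.le

theorem mh_cont (h : ℝ) : Continuous (mh h) :=
  ((Psi_cont.comp (continuous_id.div_const h)).pow 2).div_const h

theorem mul_mh_le (h0 : 0 < h) (h1 : h ≤ 1 / 4) (s : ℝ) : h * mh h s ≤ 16 * Psi s ^ 8 := by
  rw [mh, mul_div_cancel₀ _ h0.ne']
  refine (Psi_sq_le h0 s).trans (mul_le_mul_of_nonneg_left (le_trans (Real.exp_le_exp.2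
    (neg_le_neg (mul_le_mul_of_nonneg_left ?_ sqrt2_pos.le))) (exp_le_pow s 8)) (by norm_num))
  have : 4 * |s| ≤ |s| / h := by rw [le_div_iff₀ h0]; nlinarith [abs_nonneg s]
  push_cast
  linarith

theorem mh_tail (h0 : 0 < h) (h1 : h ≤ 1 / 10) {σ : ℝ} (hσ : 0 < σ) :
    ∃ T : ℝ, 0 ≤ T ∧ ∀ s, h * T ≤ |s| → mh h s ≤ σ * Psi s ^ 10 := by
  have h2 : Tendsto (fun T : ℝ => Real.exp (-T) * (16 / h)) atTop (𝓝 0) := by
    simpa using Real.tendsto_exp_neg_atTop_nhds_zero.mul_const (16 / h)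
  obtain ⟨T, hT, hT0⟩ := ((h2.eventually_lt_const hσ).and (eventually_ge_atTop 0)).exists
  refine ⟨T, hT0, fun s hs => ?_⟩
  have a1 : 10 * |s| ≤ |s| / h := by rw [le_div_iff₀ h0]; nlinarith [abs_nonneg s]
  have a2 : T ≤ |s| / h := by rw [le_div_iff₀ h0]; linarith
  have a3 : Real.exp (-(√2 * (2 * (|s| / h)))) ≤
      Real.exp (-T) * Real.exp (-(√2 * ((10 : ℕ) * |s|))) := by
    rw [← Real.exp_add, Real.exp_le_exp]
    push_cast
    nlinarith [Real.one_lt_sqrt_two]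
  calc mh h s ≤ 16 * (Real.exp (-T) * Real.exp (-(√2 * ((10 : ℕ) * |s|)))) / h :=
        div_le_div_of_nonneg_right ((Psi_sq_le h0 s).trans (by gcongr)) h0.le
    _ = Real.exp (-T) * (16 / h) * Real.exp (-(√2 * ((10 : ℕ) * |s|))) := by ring
    _ ≤ _ := mul_le_mul hT.le (exp_le_pow s 10) (Real.exp_pos _).le hσ.le

/-- what is true at the points of the support of the test function -/
structure Pt (g h ε σ : ℝ) (v : EE n → ℝ) (x : EE n) : Prop where
  w1 : |(Pd h v x).det| * mh h (dd v (Pi h v x)) ≤ (1 + ε) * psi v x ^ 2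
  w2 : psi v x ^ 2 ≤ (1 + ε) * (|(Pd h v x).det| * mh h (dd v (Pi h v x)))
  w3 : psi v x ^ g ≤ 8 * Real.exp 12 / h * (|(Pd h v x).det| * psi v (Pi h v x) ^ 8)
  jac : h ≤ 2 * |(Pd h v x).det|
  ts : tt v x ≤ σ
  hb : hsq (dd v) (Pi h v x) ≤ (1 + ε) * hsq (dd v) x + σ * tt v x
  gr : ∀ z : EE n → ℝ, Differentiable ℝ z → gsq (fun y => z (Pi h v y)) x ≤
    (1 + ε) * tg v z (Pi h v x) + 2 * h ^ 2 * gin (dd v) z (Pi h v x) ^ 2

theorem pt (n : ℕ) {g h ε σ : ℝ} (hg : 0 < g) (hg1 : g ≤ 1) (h0 : 0 < h) (h1 : h ≤ g / 8)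
    (hε : 0 < ε) (hε1 : ε ≤ 1) (hσ : 0 < σ) : ∀ᶠ κ in 𝓝[>] (0 : ℝ), ∀ v : EE n → ℝ, Sol v →
      ∀ x, Gd g κ v x → tt v (Pi h v x) ≤ κ → Pt g h ε σ v x := by
  have h2 : h ≤ 1 := by linarith
  obtain ⟨ρ, ⟨⟨⟨⟨r1, r2⟩, r3⟩, r4⟩, r5⟩, hρ⟩ := ((((((det_Pd n h0.le h2 (ε := h * ε / 4)
    (by positivity)).and (gsq_comp_le n h0 h2 hε hε1)).and
    (ev_small (f := fun ρ => Real.exp (√2 * (ρ / h)) ^ 2) (ρ := 1 + ε / 4) (by fun_prop)
      (by simpa using hε))).and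
    (ev_small (f := fun ρ => (1 + ε⁻¹) * (n * (n * ρ))) (by fun_prop) (by simpa using hσ))).and
    (ev_small (f := fun ρ => ρ) (ρ := min 1 σ) (by fun_prop) (by positivity))).and
    self_mem_nhdsWithin).exists
  obtain ⟨r5, r6⟩ := lt_min_iff.1 r5
  replace hρ : 0 < ρ := hρ
  filter_upwards [geo n hg hρ, loc n hg hρ, ev_small (f := fun κ => κ) (by fun_prop) hρ]
    with κ k1 k2 k3 v hv x hx hy
  obtain ⟨a1, a2, a3⟩ := k1 v hv x hx (1 - h) ⟨by linarith, by linarith⟩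
  change (1 + |dd v x|) * ‖∇ (dd v) (Pi h v x) - _‖ ≤ _ at a1
  change |dd v (Pi h v x) - _| ≤ _ at a2
  change ∀ i j, (hs (dd v) i j (Pi h v x) - _) ^ 2 ≤ _ at a3
  rw [sub_sub_cancel] at a2
  obtain ⟨b1, b2⟩ := k2 v hv x hx
  replace b2 := b2 x (by simp)
  have c1 := abs_le.1 (r1 v hv x b1 b2)
  have c2 : h * ε ≤ h := mul_le_of_le_one_right h0.le hε1
  have c3 : |(Pd h v x).det| = (Pd h v x).det := abs_of_nonneg (by linarith [c1.1])
  have c4 : |dd v (Pi h v x) / h - dd v x| ≤ ρ / h := by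
    rw [le_div_iff₀ h0, ← abs_of_pos h0, ← abs_mul, abs_of_pos h0, sub_mul,
      div_mul_cancel₀ _ h0.ne', mul_comm (dd v x)]
    exact a2
  have c5 : ∀ a b : ℝ, |a - b| ≤ ρ / h → Psi a ^ 2 ≤ (1 + ε / 4) * Psi b ^ 2 := fun a b hab => by
    refine (pow_le_pow_left₀ (Psi_pos _).le (Psi_le a b) 2).trans ?_
    rw [mul_pow]
    refine mul_le_mul_of_nonneg_right (le_trans ?_ r3.le) (sq_nonneg _)
    have := sqrt2_pos
    gcongr
  have c6 := c5 _ _ c4
  have c7 := c5 (dd v x) (dd v (Pi h v x) / h) (by rwa [abs_sub_comm])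
  rw [← psi_eq hv] at c6 c7
  have c8 : Psi (dd v (Pi h v x) / h) ^ 2 = h * mh h (dd v (Pi h v x)) :=
    (mul_div_cancel₀ _ h0.ne').symm
  rw [c8] at c6 c7
  have m0 := mh_nonneg h0 (dd v (Pi h v x))
  have jac : h ≤ 2 * |(Pd h v x).det| := by rw [c3]; linarith [c1.1]
  refine ⟨?_, ?_, ?_, jac, by linarith, ?_, fun z hz => r2 v z hv hz x ?_ b2 (by linarith)⟩
  · rw [c3]
    have d1 := mul_le_mul_of_nonneg_right (show (Pd h v x).det ≤ (1 + ε / 4) * h by linarith [c1.2])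
      m0
    have d2 := mul_le_mul_of_nonneg_left c6 (show 0 ≤ 1 + ε / 4 by positivity)
    have d3 := mul_le_mul_of_nonneg_right (show (1 + ε / 4) * (1 + ε / 4) ≤ 1 + ε by nlinarith)
      (sq_nonneg (psi v x))
    linarith
  · rw [c3]
    have d1 := mul_le_mul_of_nonneg_right (show (1 - ε / 4) * h ≤ (Pd h v x).det by linarith [c1.1])
      m0
    have d2 := mul_le_mul_of_nonneg_left d1 (show 0 ≤ 1 + ε by positivity)
    have d3 := mul_le_mul_of_nonneg_right (show 1 + ε / 4 ≤ (1 + ε) * (1 - ε / 4) by nlinarith)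
      (mul_nonneg h0.le m0)
    linarith
  · have d1 : |dd v (Pi h v x)| ≤ h * |dd v x| + 1 := by
      have := abs_sub_abs_le_abs_sub (dd v (Pi h v x)) (h * dd v x)
      rw [abs_mul, abs_of_pos h0] at this
      linarith
    have d2 : Real.exp (-(√2 * g * |dd v x|)) ≤ Real.exp 12 * psi v (Pi h v x) ^ 8 := by
      rw [psi_eq hv]
      refine le_trans ?_ (mul_le_mul_of_nonneg_left (exp_le_pow _ 8) (Real.exp_pos _).le)
      rw [← Real.exp_add, Real.exp_le_exp]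
      have e1 := mul_le_mul_of_nonneg_right h1 (abs_nonneg (dd v x))
      have e2 := mul_le_mul_of_nonneg_left (show 8 * |dd v (Pi h v x)| ≤ g * |dd v x| + 8 by
        linarith) sqrt2_pos.le
      have e3 := Real.sqrt_two_lt_three_halves
      push_cast
      linarith
    refine (psi_rpow_le hv hg.le hg1 x).trans ?_
    rw [div_mul_eq_mul_div, le_div_iff₀ h0]
    have d3 := mul_le_mul d2 jac h0.le (by have := hv.psi_pos (Pi h v x); positivity)
    linarith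
  · have d1 : ∀ i j, hs (dd v) i j (Pi h v x) ^ 2 ≤
        (1 + ε) * hs (dd v) i j x ^ 2 + (1 + ε⁻¹) * (ρ * tt v x) := fun i j => by
      have := sq_add_le hε (hs (dd v) i j x) (hs (dd v) i j (Pi h v x) - hs (dd v) i j x)
      rw [add_sub_cancel] at this
      linarith [mul_le_mul_of_nonneg_left (a3 i j) (show 0 ≤ 1 + ε⁻¹ by positivity)]
    refine (Finset.sum_le_sum fun i _ => Finset.sum_le_sum fun j _ => d1 i j).trans ?_
    simp only [Finset.sum_add_distrib, ← Finset.mul_sum, Finset.sum_const, Finset.card_univ,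
      Fintype.card_fin, nsmul_eq_mul, hsq]
    linarith [mul_le_mul_of_nonneg_right r4.le (hv.tt_nonneg x)]
  · exact le_trans (le_mul_of_one_le_left (norm_nonneg _) (by linarith [abs_nonneg (dd v x)])) a1

theorem gsq_mul_le {f g : EE n → ℝ} {x : EE n} (hf : DifferentiableAt ℝ f x)
    (hg : DifferentiableAt ℝ g x) (h1 : g x ^ 2 ≤ 1) {ε : ℝ} (hε : 0 < ε) :
    gsq (fun y => f y * g y) x ≤ (1 + ε) * gsq f x + (1 + ε⁻¹) * (f x ^ 2 * gsq g x) := by
  simp only [gsq, pdv_mul hf hg, Finset.mul_sum, ← Finset.sum_add_distrib]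
  refine Finset.sum_le_sum fun i _ => (sq_add_le hε _ _).trans ?_
  rw [mul_pow, mul_pow]
  have := mul_le_of_le_one_right (sq_nonneg (pdv i f x)) h1
  gcongr

theorem alg {ε η δ θ h e C C' J m p q T a Z U t u gw w2 : ℝ} (hε : 0 < ε) (hε1 : ε ≤ 1)
    (hη : (1 + ε) ^ 6 ≤ 1 + η) (h0 : 0 ≤ h) (hδ : 1024 * h ≤ δ) (he : 0 ≤ e) (hC : 0 ≤ C)
    (hC' : 0 ≤ C') (hθ : 8 * (1 + ε⁻¹) * C' * e + (4 * C + 2) * e ≤ θ) (hJ : 0 ≤ J) (hm : 0 ≤ m)
    (hp : 0 ≤ p) (hq : 0 ≤ q) (hT : 0 ≤ T) (ha : 0 ≤ a) (hZ : 0 ≤ Z) (ht : 0 ≤ t) (hw : 0 ≤ w2)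
    (h1 : p ≤ (1 + ε) * (J * m)) (h2 : h * m ≤ 16 * q)
    (h3 : gw ≤ (1 + ε) * ((1 + ε) * T + 2 * h ^ 2 * a) + (1 + ε⁻¹) * (Z * (C' * u)))
    (h4 : u * p = e * U) (h5 : t * p ≤ U) (h6 : t ≤ e) (h7 : w2 ≤ Z) :
    (1 + ε) ^ 2 * (((1 + ε) * gw + C * t ^ 2 * w2) * p) + 2 * (e * (t * p) * Z) ≤
      J * ((1 + η) * (T * m) + δ * (q * a)) + θ * (Z * U) := by
  have hU : 0 ≤ U := (mul_nonneg ht hp).trans h5
  have p2 : ∀ k : ℕ, (1 + ε) ^ k ≤ 2 ^ k := fun k => by gcongr; linarith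
  have a0 := mul_le_mul_of_nonneg_left h3 (show 0 ≤ (1 + ε) ^ 3 * p by positivity)
  have a1 := mul_le_mul_of_nonneg_left h1 (show 0 ≤ (1 + ε) ^ 5 * T by positivity)
  have a2 := mul_le_mul_of_nonneg_right hη (show 0 ≤ J * (T * m) by positivity)
  have a3 := mul_le_mul_of_nonneg_left h1 (show 0 ≤ (1 + ε) ^ 4 * (2 * h ^ 2 * a) by positivity)
  have a4 := mul_le_mul_of_nonneg_right (p2 5) (show 0 ≤ 2 * h ^ 2 * a * (J * m) by positivity)
  have a5 := mul_le_mul_of_nonneg_left h2 (show 0 ≤ 64 * h * a * J by positivity)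
  have a6 := mul_le_mul_of_nonneg_right hδ (show 0 ≤ J * (q * a) by positivity)
  have a7 := mul_le_mul_of_nonneg_right (p2 3)
    (show 0 ≤ (1 + ε⁻¹) * C' * e * (Z * U) by positivity)
  have a8 : (1 + ε) ^ 3 * p * ((1 + ε⁻¹) * (Z * (C' * u))) =
      (1 + ε) ^ 3 * ((1 + ε⁻¹) * C' * e * (Z * U)) := by
    linear_combination (1 + ε) ^ 3 * (1 + ε⁻¹) * Z * C' * h4
  have a9 : (1 + ε) ^ 2 * (C * (t * (t * p) * w2)) ≤ 2 ^ 2 * (C * (e * U * Z)) := by
    have := p2 2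
    gcongr
  have a10 : e * (t * p) * Z ≤ e * U * Z := by gcongr
  have a11 := mul_le_mul_of_nonneg_right hθ (mul_nonneg hZ hU)
  linarith

end

end Crest.Agent.N067.Y.St
end

-- ▼ part N067/Y/St

/-!
# Row 67, block X5, ST (helper16): stability on the level sets near `d = 0`
-/

set_option autoImplicit false

open MeasureTheory Laplacian InnerProductSpace Topology Filter Set Metric
open scoped RealInnerProductSpace Gradient ContDiff

namespace Crest.Agent.N067.Y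

open Crest.Agent.R077

noncomputable section

variable {n : ℕ}

namespace St

theorem int_dom {f g : EE n → ℝ} (hg : Integrable g) (hf : Continuous f) (M : ℝ)
    (h0 : ∀ x, 0 ≤ f x) (h : ∀ x, f x ≤ M * g x) : Integrable f :=
  (hg.const_mul M).mono' hf.aestronglyMeasurable
    (ae_of_all _ fun x => by rw [Real.norm_of_nonneg (h0 x)]; exact h x)

theorem cont_gsq {f : EE n → ℝ} (hf : ContDiff ℝ 1 f) : Continuous (gsq f) :=
  continuous_iff_continuousAt.2 fun _ =>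
    (contDiffAt_gsq (m := 0) hf.contDiffAt (by simp)).continuousAt

theorem cont_gin {f g : EE n → ℝ} (hf : ContDiff ℝ 1 f) (hg : ContDiff ℝ 1 g) :
    Continuous (gin f g) := continuous_iff_continuousAt.2 fun _ =>
  (contDiffAt_gin (m := 0) hf.contDiffAt hg.contDiffAt (by simp)).continuousAt

theorem nor_sq_le {v : EE n → ℝ} (hv : Sol v) (z : EE n → ℝ) (x : EE n) :
    gin (dd v) z x ^ 2 ≤ gsq z x :=
  (gin_sq_le _ _ _).trans (mul_le_of_le_one_left (gsq_nonneg _ _) (hv.gsq_dd_le x))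

theorem pb_mul {v : EE n → ℝ} (hv : Sol v) (β : ℝ) (x : EE n) :
    pb β v x * psi v x ^ ((1 - β) / 2) * psi v x ^ ((1 - β) / 2) = psi v x ^ 2 := by
  rw [pb, ← Real.rpow_add (hv.psi_pos x), ← Real.rpow_add (hv.psi_pos x), ← Real.rpow_two]
  congr 1; ring

end St

open St

set_option maxHeartbeats 1000000 in
/-- **ST** -/
theorem stS (n : ℕ) : STStmt n := by
  intro β η δ hβ0 hβ hη hδ
  obtain ⟨g, hgd⟩ : ∃ g, g = (1 - β) / 2 := ⟨_, rfl⟩
  have hg : 0 < g := by rw [hgd]; linarith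
  have hg2 : g ≤ 1 / 2 := by rw [hgd]; linarith
  have hg1 : g ≤ 1 := by linarith
  obtain ⟨ε, ⟨hη', hε1⟩, hε⟩ := (((ev_small (f := fun ε => (1 + ε) ^ 6) (ρ := 1 + η) (by fun_prop)
    (by simpa using hη)).and (ev_small (f := fun ε => ε) (by fun_prop) one_pos)).and
    self_mem_nhdsWithin).exists
  replace hε : 0 < ε := hε
  obtain ⟨h, h0, h1, h2⟩ : ∃ h : ℝ, 0 < h ∧ h ≤ g / 8 ∧ 1024 * h ≤ δ :=
    ⟨min (g / 8) (δ / 1024), by positivity, min_le_left _ _,
      by linarith [min_le_right (g / 8) (δ / 1024)]⟩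
  have h3 : h ≤ 1 := by linarith
  obtain ⟨C, hC0, hC⟩ := st1 n ε hε
  obtain ⟨C', hC0', hC'⟩ := stC n
  obtain ⟨K, hK0, hK⟩ := hk_hsq n
  obtain ⟨θ, θ0, θ1, θ2⟩ : ∃ θ : ℝ, 0 < θ ∧ θ * (8 * Real.exp 12 / h) ≤ δ / 2 ∧ θ ≤ δ / 8 := by
    refine ⟨min (δ / 2 * h / (8 * Real.exp 12)) (δ / 8), by positivity, ?_, min_le_right _ _⟩
    rw [← mul_div_assoc, div_le_iff₀ h0, ← le_div_iff₀ (by positivity)]
    exact min_le_left _ _
  obtain ⟨e, he1, he⟩ := ((ev_small (f := fun e => 8 * (1 + ε⁻¹) * C' * e + (4 * C + 2) * e)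
    (by fun_prop) (by simpa using θ0)).and self_mem_nhdsWithin).exists
  replace he : 0 < e := he
  obtain ⟨κ, ⟨k1, k2⟩, hκ⟩ := (((pt n hg hg1 h0 h1 hε hε1.le he).and (inj n hg h0 h3)).and
    self_mem_nhdsWithin).exists
  replace hκ : 0 < κ := hκ
  obtain ⟨T, hT0, hT⟩ := mh_tail h0 (by linarith) (σ := δ / 2 / (K + 1)) (by positivity)
  obtain ⟨e1, ⟨⟨k3, k4⟩, k5⟩, he1'⟩ := ((((small n hg hg1 he hκ).and
    (surj n hg.le h0 h3 he.le hT0)).and (ev_small (f := fun e1 => e1) (by fun_prop) hκ)).and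
    self_mem_nhdsWithin).exists
  refine ⟨h, e1, g, h0, by linarith, he1', hg,
    fun v P om z A M hp hst hw hz hz0 iz ig hA hAb hzA => ?_⟩
  have hv := hp.toSol
  obtain ⟨cu, cη, gη⟩ := hC' e g v he hg.le hg1 hv
  have cP := Pi_cd hv h
  have ct := hv.continuous_tt
  have cψ := hv.psi_sm.continuous
  have cd := hv.dd_diff.continuous
  have ψ0 := hv.psi_pos
  have zd : Differentiable ℝ z := hz.differentiable (by simp)
  set S := {x | uu e g v x ≤ 2 ∧ tt v (Pi h v x) ≤ e1} with hS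
  set S' := {x | uu e g v x ≤ 1 ∧ tt v (Pi h v x) ≤ e1} with hS'
  have mS : ∀ c : ℝ, MeasurableSet {x | uu e g v x ≤ c ∧ tt v (Pi h v x) ≤ e1} := fun c =>
    ((isClosed_le cu continuous_const).inter
      (isClosed_le (ct.comp cP.continuous) continuous_const)).measurableSet
  have sub : S' ⊆ S := fun x hx => ⟨hx.1.trans one_le_two, hx.2⟩
  have gd : ∀ x ∈ S, Gd g κ v x := fun x hx =>
    k3 v hv x _ (norm_sub_Pi hv h0.le h3 x) hx.1 hx.2
  have pS : ∀ x ∈ S, Pt g h ε e v x := fun x hx => k1 v hv x (gd x hx) (hx.2.trans k5.le)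
  obtain ⟨hI, hA2⟩ := stA n (Pi h v) (Pd h v) S S' (mS 2) (mS 1) sub (hasFDerivAt_Pi hv h)
    ((k2 v hv).mono gd)
  set w : EE n → ℝ := fun x => z (Pi h v x) * eta e g v x with hwd
  have cw : ContDiff ℝ 1 w := (hz.comp cP).mul cη
  have η1 : ∀ x, eta e g v x ^ 2 ≤ 1 := fun x =>
    pow_le_one₀ (Real.smoothTransition.nonneg _) (Real.smoothTransition.le_one _)
  have w1 : ∀ x, w x ^ 2 ≤ z (Pi h v x) ^ 2 := fun x => by
    rw [hwd, mul_pow]; exact mul_le_of_le_one_right (sq_nonneg _) (η1 x)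
  have w0 : ∀ x ∉ S, w =ᶠ[𝓝 x] fun _ => 0 := fun x hx => by
    rcases not_and_or.1 hx with hx | hx
    · filter_upwards [continuousAt_const.eventually_lt cu.continuousAt (not_le.1 hx)] with y hy
      simp only [hwd, eta]
      rw [Real.smoothTransition.zero_of_nonpos (by linarith), mul_zero]
    · filter_upwards [continuousAt_const.eventually_lt (ct.comp cP.continuous).continuousAt
        (not_le.1 hx)] with y hy
      simp only [hwd]
      rw [hz0 _ hy.le, zero_mul]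
  have w2 : ∀ x ∉ S, w x = 0 := fun x hx => (w0 x hx).self_of_nhds
  have w3 : ∀ x ∉ S, gsq w x = 0 := fun x hx => by
    simp only [gsq, pdv_congr (w0 x hx), pdv_const]; simp
  have w4 : ∀ x ∈ S, gsq w x ≤ (1 + ε) * ((1 + ε) * tg v z (Pi h v x) +
      2 * h ^ 2 * gin (dd v) z (Pi h v x) ^ 2) +
        (1 + ε⁻¹) * (z (Pi h v x) ^ 2 * (C' * uu e g v x)) := fun x hx => by
    refine (gsq_mul_le (f := fun y => z (Pi h v y)) ((hz.comp cP).differentiable (by simp) x)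
      (cη.differentiable (by simp) x) (η1 x) hε).trans ?_
    have := (pS x hx).gr z zd
    have := gη x
    gcongr
  have jm : ∀ x ∈ S, ∀ a : ℝ, 0 ≤ a → a ≤ |(Pd h v x).det| * (2 / h * a) := fun x hx a ha => by
    rw [← mul_assoc]
    refine le_mul_of_one_le_left ha ?_
    rw [← mul_div_assoc, le_div_iff₀ h0]
    linarith [(pS x hx).jac]
  have iw : Integrable fun x => w x ^ 2 :=
    hI _ _ (iz.const_mul (2 / h)) (cw.continuous.pow 2).aestronglyMeasurable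
      (fun x hx => by simp [w2 x hx]) fun x hx => by
        rw [abs_of_nonneg (sq_nonneg _)]
        exact (w1 x).trans (jm x hx _ (sq_nonneg _))
  have ig' : Integrable (gsq w) :=
    hI _ _ (((ig.const_mul 8).add (iz.const_mul ((1 + ε⁻¹) * C' * 2))).const_mul (2 / h))
      (cont_gsq cw).aestronglyMeasurable w3 fun x hx => by
        rw [abs_of_nonneg (gsq_nonneg _ _)]
        have b0 := gsq_nonneg z (Pi h v x)
        refine le_trans ?_ (jm x hx _ (by simp only [Pi.add_apply]; positivity))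
        have b1 := tg_le v z hv (Pi h v x)
        have b2 := nor_sq_le hv z (Pi h v x)
        have b3 := hx.1
        have b4 := tg_nonneg v z (Pi h v x)
        refine (w4 x hx).trans ?_
        calc _ ≤ (1 + 1) * ((1 + 1) * gsq z (Pi h v x) + 2 * 1 ^ 2 * gsq z (Pi h v x)) +
              (1 + ε⁻¹) * (z (Pi h v x) ^ 2 * (C' * 2)) := by gcongr
          _ = _ := by simp only [Pi.add_apply]; ring
  obtain ⟨iQ, hQ⟩ := hC v w hv hst cw iw ig'
  have m0 := mh_nonneg h0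
  have cm : Continuous fun x => mh h (dd v x) := (mh_cont h).comp cd
  have q1 : ∀ x, psi v x ^ 8 ≤ 1 := fun x => pow_le_one₀ (ψ0 x).le (psi_le_one v x)
  have Y0 : ∀ x, 0 < pb β v x * tt v x := fun x => mul_pos (pb_pos hv β x) (hp.tpos x)
  have F0 : ∀ x, 0 ≤ P.F (pb β v x * tt v x) := fun x => P.nonneg (Y0 x).le
  have i1 : Integrable fun x => hsq (dd v) x * z x ^ 2 * mh h (dd v x) :=
    int_dom iz ((hv.hsq_sm.continuous.mul (hz.continuous.pow 2)).mul cm) (K * (1 / h))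
      (fun x => mul_nonneg (mul_nonneg (hsq_nonneg _ _) (sq_nonneg _)) (m0 _)) fun x => by
        have b1 := (hK v hv x).trans (mul_le_of_le_one_right hK0 (tt_le_one v x))
        have b2 := mh_le h0 (dd v x)
        have b3 := m0 (dd v x)
        calc _ ≤ K * z x ^ 2 * (1 / h) := by gcongr
          _ = _ := by ring
  have i2 : Integrable fun x => tg v z x * mh h (dd v x) :=
    int_dom ig ((((continuous_const.sub ct).mul (cont_gsq hz)).sub
      ((cont_gin (hv.dd_cd 1) hz).pow 2)).mul cm) (1 / h)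
      (fun x => mul_nonneg (tg_nonneg _ _ _) (m0 _)) fun x => by
        rw [mul_comm]
        exact mul_le_mul (mh_le h0 _) (tg_le v z hv x) (tg_nonneg _ _ _) (by positivity)
  have i3 : Integrable fun x => psi v x ^ 8 * gin (dd v) z x ^ 2 :=
    int_dom ig ((cψ.pow 8).mul ((cont_gin (hv.dd_cd 1) hz).pow 2)) 1
      (fun x => by have := ψ0 x; positivity) fun x =>
        mul_le_mul (q1 x) (nor_sq_le hv z x) (sq_nonneg _) zero_le_one
  have n4 : ∀ x, 0 ≤ psi v x ^ 8 * A x * om x := fun x =>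
    mul_nonneg (mul_nonneg (pow_nonneg (ψ0 x).le 8) (hAb x).1) (hw.pos x).le
  have n5 : ∀ x, 0 ≤ P.F (pb β v x * tt v x) * om x := fun x => mul_nonneg (F0 x) (hw.pos x).le
  have i4 : Integrable fun x => psi v x ^ 8 * A x * om x :=
    int_dom hw.int (((cψ.pow 8).mul hA).mul hw.cont) M n4 fun x => mul_le_mul_of_nonneg_right
      ((mul_le_of_le_one_left (hAb x).1 (q1 x)).trans (hAb x).2) (hw.pos x).le
  have i5 := integ_TT hv hβ0 P hw
  have key : ∀ x ∈ S, (1 + ε) ^ 2 * (((1 + ε) * gsq w x + C * tt v x ^ 2 * w x ^ 2) * psi v x ^ 2) +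
      2 * (e * (tt v x * psi v x ^ 2) * z (Pi h v x) ^ 2) ≤
      |(Pd h v x).det| * ((1 + η) * (tg v z (Pi h v x) * mh h (dd v (Pi h v x))) +
        δ * (psi v (Pi h v x) ^ 8 * gin (dd v) z (Pi h v x) ^ 2) +
        δ / 2 * (psi v (Pi h v x) ^ 8 * A (Pi h v x) * om (Pi h v x))) +
      δ / 2 * (P.F (pb β v x * tt v x) * om x) := fun x hx => by
    have p := pS x hx
    have e0 := pb_mul hv β x
    rw [← hgd] at e0
    have g0 := Real.rpow_pos_of_pos (ψ0 x) g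
    have g1 : psi v x ^ g ≤ 1 := Real.rpow_le_one (ψ0 x).le (psi_le_one v x) hg.le
    have a1 := alg (U := pb β v x * tt v x * psi v x ^ g) hε hε1.le hη'.le h0.le h2 he.le hC0 hC0'
      he1.le (abs_nonneg _) (m0 _) (sq_nonneg _) (pow_nonneg (ψ0 (Pi h v x)).le 8) (tg_nonneg _ _ _)
      (sq_nonneg _) (sq_nonneg _) (hv.tt_nonneg x) (sq_nonneg _) p.w2
      (by rw [psi_eq hv]; exact mul_mh_le h0 (by linarith) _) (w4 x hx)
      (by rw [uu, ← e0]; field_simp)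
      (by rw [← e0]; linarith [mul_le_of_le_one_right (mul_pos (Y0 x) g0).le g1]) p.ts (w1 x)
    have a2 := mul_le_mul_of_nonneg_right (hzA (Pi h v x) _ (Y0 x)) g0.le
    have a3 := mul_le_mul_of_nonneg_left p.w3 (mul_nonneg (hAb (Pi h v x)).1 (hw.pos (Pi h v x)).le)
    have a4 : om (Pi h v x) * psi v x ^ g ≤ 4 * om x := by
      have b1 : ‖Pi h v x - x‖ ≤ |dd v x| := by rw [norm_sub_rev]; exact norm_sub_Pi hv h0.le h3 x
      have b2 : Real.exp (g * ‖Pi h v x - x‖) * Real.exp (-(√2 * g * |dd v x|)) ≤ 1 := by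
        rw [← Real.exp_add, Real.exp_le_one_iff]
        nlinarith [mul_le_mul_of_nonneg_left b1 hg.le, Real.one_lt_sqrt_two,
          mul_nonneg hg.le (abs_nonneg (dd v x))]
      have b3 := mul_le_mul (hw.le_exp x (Pi h v x)) (psi_rpow_le hv hg.le hg1 x) g0.le
        (mul_pos (Real.exp_pos _) (hw.pos x)).le
      linarith [mul_le_of_le_one_left (hw.pos x).le b2]
    have a5 := mul_le_mul_of_nonneg_left a4 (F0 x)
    have a6 : z (Pi h v x) ^ 2 * (pb β v x * tt v x * psi v x ^ g) ≤ 8 * Real.exp 12 / h *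
        (|(Pd h v x).det| * (psi v (Pi h v x) ^ 8 * A (Pi h v x) * om (Pi h v x))) +
        4 * (P.F (pb β v x * tt v x) * om x) := by linarith
    have a7 := mul_le_mul_of_nonneg_left a6 θ0.le
    have a9 := mul_le_mul_of_nonneg_right θ1 (mul_nonneg (abs_nonneg (Pd h v x).det) (n4 (Pi h v x)))
    have a10 := mul_le_mul_of_nonneg_right θ2 (n5 x)
    linarith
  have fin := hA2 _ _ (fun x => (1 + ε) ^ 2 * Qf ε C v w x) _ _ i1
    (((i2.const_mul (1 + η)).add (i3.const_mul δ)).add (i4.const_mul (δ / 2)))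
    (iQ.const_mul _) (i5.const_mul (δ / 2)) ((i4.const_mul (δ / 2)).add (i5.const_mul (δ / 2)))
    (fun x => by
      have := tg_nonneg v z x
      have := m0 (dd v x)
      have := ψ0 x
      have := n4 x
      simp only [Pi.add_apply]; positivity)
    (fun x => mul_nonneg (by positivity) (n5 x))
    (fun x => add_nonneg (mul_nonneg (by positivity) (n4 x)) (mul_nonneg (by positivity) (n5 x)))
    (fun x hx => by simp [Qf, w2 x hx, w3 x hx])
    (by rw [integral_const_mul]; positivity)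
    (fun y hy => by
      simp only [Pi.add_apply]
      by_cases hz1 : z y = 0
      · rw [hz1]
        have := n4 y
        have := n5 y
        simp only [ne_eq, OfNat.ofNat_ne_zero, not_false_eq_true, zero_pow, mul_zero, zero_mul]
        positivity
      have b1 : tt v y ≤ e1 := (not_le.1 fun h => hz1 (hz0 y h)).le
      have b2 : h * T ≤ |dd v y| := le_of_not_ge fun h => by
        obtain ⟨x, rfl, hx⟩ := k4 v hv y b1 h
        exact hy ⟨x, ⟨hx, b1⟩, rfl⟩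
      have b3 := hT _ b2
      rw [← psi_eq hv] at b3
      have b4 : hsq (dd v) y ≤ (K + 1) * tt v y := by linarith [hK v hv y, hv.tt_nonneg y]
      have b5 := sq_le_pb hv hβ y
      have b6 := hv.tt_nonneg y
      have b7 := ψ0 y
      have b8 := m0 (dd v y)
      have b9 := mul_le_of_le_one_left (n5 y) (q1 y)
      calc _ ≤ (K + 1) * tt v y * z y ^ 2 * (δ / 2 / (K + 1) * psi v y ^ 10) := by gcongr
        _ = δ / 2 * psi v y ^ 8 * (z y ^ 2 * (psi v y ^ 2 * tt v y)) := by field_simp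
        _ ≤ δ / 2 * psi v y ^ 8 * (z y ^ 2 * (pb β v y * tt v y)) := by gcongr
        _ ≤ δ / 2 * psi v y ^ 8 * ((A y + P.F (pb β v y * tt v y)) * om y) :=
            mul_le_mul_of_nonneg_left (hzA y _ (Y0 y)) (by positivity)
        _ ≤ _ := by linarith [mul_le_mul_of_nonneg_left b9 (half_pos hδ).le])
    (fun x hx => by
      have p := pS x (sub hx)
      have b1 : w x = z (Pi h v x) := by
        simp only [hwd, eta]
        rw [Real.smoothTransition.one_of_one_le (by linarith [hx.1]), mul_one]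
      have b2 := mul_le_mul p.w1 p.hb (hsq_nonneg _ _) (by positivity)
      have b3 := mul_le_mul_of_nonneg_right b2 (sq_nonneg (z (Pi h v x)))
      have b4 := mul_le_mul_of_nonneg_right hε1.le (mul_nonneg (mul_nonneg he.le
        (mul_nonneg (hv.tt_nonneg x) (sq_nonneg (psi v x)))) (sq_nonneg (z (Pi h v x))))
      have b5 := key x (sub hx)
      simp only [Pi.add_apply, Qf]
      rw [b1] at b5 ⊢
      linarith)
    (fun x hx _ => by
      have b1 := key x hx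
      have b2 := hsq_nonneg (dd v) x
      have b3 := hv.tt_nonneg x
      have b4 : 0 ≤ (1 + ε) ^ 2 * (hsq (dd v) x * w x ^ 2 * psi v x ^ 2) := by positivity
      have b5 : 0 ≤ e * (tt v x * psi v x ^ 2) * z (Pi h v x) ^ 2 := by positivity
      simp only [Pi.add_apply, Qf]
      linarith)
  simp only [Pi.add_apply] at fin
  rw [integral_add (f := fun x => (1 + η) * (tg v z x * mh h (dd v x)) +
      δ * (psi v x ^ 8 * gin (dd v) z x ^ 2))
      ((i2.const_mul (1 + η)).add (i3.const_mul δ)) (i4.const_mul (δ / 2)),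
    integral_add (i2.const_mul (1 + η)) (i3.const_mul δ),
    integral_add (i4.const_mul (δ / 2)) (i5.const_mul (δ / 2))] at fin
  simp only [integral_const_mul] at fin
  rw [TT]
  linarith

end

end Crest.Agent.N067.Y
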