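import Crest.Agent.N067.Y.GE
import Crest.Agent.N067.Y.Base
import Crest.Agent.N067.Y.Out_Mg

-- ▼ part N067/Y/X5a
section

/-!
# Row 67, block X5 (helper54): the objects of the assembly
-/

set_option autoImplicit false

open MeasureTheory Laplacian InnerProductSpace Topology Filter Set
open scoped RealInnerProductSpace Gradient ContDiff

namespace Crest.Agent.N067.Y

open Crest.Agent.R077

noncomputable section

variable {n : ℕ}

/-! ### monotonicity of integrals -/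

theorem int_le2 {f f1 f2 : EE n → ℝ} {a b : ℝ} (hf : Integrable f) (h1 : Integrable f1)
    (h2 : Integrable f2) (h : ∀ x, f x ≤ a * f1 x + b * f2 x) :
    ∫ x, f x ≤ a * (∫ x, f1 x) + b * ∫ x, f2 x := by
  rw [← integral_const_mul, ← integral_const_mul,
    ← integral_add (h1.const_mul a) (h2.const_mul b)]
  exact integral_mono hf ((h1.const_mul a).add (h2.const_mul b)) h

theorem int_le3 {f f1 f2 f3 : EE n → ℝ} {a b c : ℝ} (hf : Integrable f) (h1 : Integrable f1)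
    (h2 : Integrable f2) (h3 : Integrable f3) (h : ∀ x, f x ≤ a * f1 x + b * f2 x + c * f3 x) :
    ∫ x, f x ≤ a * (∫ x, f1 x) + b * (∫ x, f2 x) + c * ∫ x, f3 x := by
  have := int_le2 (f1 := fun x => a * f1 x + b * f2 x) (a := 1) (b := c) hf
    ((h1.const_mul a).add (h2.const_mul b)) h3 fun x => by simpa using h x
  rwa [one_mul, integral_add (h1.const_mul a) (h2.const_mul b), integral_const_mul,
    integral_const_mul] at this


/-! ### the weight `mh` -/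

theorem mh_nonneg {h : ℝ} (h0 : 0 < h) (s : ℝ) : 0 ≤ mh h s := div_nonneg (sq_nonneg _) h0.le

theorem mh_sm (h : ℝ) : ContDiff ℝ ∞ (mh h) :=
  ((Psi_sm.comp (contDiff_id.div_const h)).pow 2).div_const h

theorem mh_le {h : ℝ} (h0 : 0 < h) (h8 : h ≤ 1 / 8) (s : ℝ) : mh h s ≤ 16 / h * Psi s ^ 8 := by
  have h1 : Psi (s / h) ≤ 4 * Psi s ^ 4 := by
    refine (Psi_le_exp _).trans (mul_le_mul_of_nonneg_left ?_ (by norm_num))
    refine le_trans ?_ (pow_le_pow_left₀ (Real.exp_pos _).le (exp_le_Psi s) 4)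
    rw [← Real.exp_nat_mul, Real.exp_le_exp, abs_div, abs_of_pos h0]
    have : 4 * |s| ≤ |s| / h := by
      rw [le_div_iff₀ h0]
      nlinarith [abs_nonneg s]
    push_cast
    nlinarith [sqrt2_pos]
  rw [mh, div_mul_eq_mul_div]
  refine div_le_div_of_nonneg_right ?_ h0.le
  nlinarith [pow_le_pow_left₀ (Psi_pos _).le h1 2]

theorem integral_mh {h : ℝ} (h0 : 0 < h) : ∫ s, mh h s = ∫ s, Psi s ^ 2 := by
  have := Measure.integral_comp_div (fun s => Psi s ^ 2) h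
  simp only [mh]
  rw [integral_div, this, abs_of_pos h0, smul_eq_mul]
  field_simp

theorem hasDerivAt_Psi (s : ℝ) : ∃ a, HasDerivAt Psi a s ∧ |a| ≤ 2 := by
  have hc := Real.cosh_pos (s / Real.sqrt 2)
  have h1 : HasDerivAt (fun s => Real.cosh (s / Real.sqrt 2))
      (Real.sinh (s / Real.sqrt 2) * (1 / Real.sqrt 2)) s :=
    (Real.hasDerivAt_cosh _).comp s ((hasDerivAt_id s).div_const _)
  have h2 := (hasDerivAt_const s (1 : ℝ)).div (h1.pow 2) (pow_ne_zero 2 hc.ne')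
  have e : Psi = fun s => 1 / Real.cosh (s / Real.sqrt 2) ^ 2 := funext Psi_eq_cosh
  refine ⟨_, by rw [e]; exact h2, ?_⟩
  set c := Real.cosh (s / Real.sqrt 2)
  set σ := Real.sinh (s / Real.sqrt 2)
  have hc1 : 1 ≤ c := Real.one_le_cosh _
  have hσ : |σ| ≤ c := by
    refine abs_le_of_sq_le_sq ?_ hc.le
    have := Real.cosh_sq (s / Real.sqrt 2)
    linarith
  have hr : 1 / Real.sqrt 2 ≤ 1 := by
    rw [div_le_one sqrt2_pos]
    nlinarith [sqrt2_mul, sqrt2_pos]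
  have hr0 : 0 < 1 / Real.sqrt 2 := by have := sqrt2_pos; positivity
  simp only [Pi.pow_apply, zero_mul, one_mul, zero_sub, Nat.cast_ofNat, Nat.add_one_sub_one,
    pow_one]
  rw [abs_div, abs_neg, abs_mul, abs_mul, abs_mul, abs_of_pos hc, abs_of_pos hr0,
    abs_of_pos (show (0 : ℝ) < (c ^ 2) ^ 2 by positivity), div_le_iff₀ (by positivity),
    abs_two]
  have h3 : |σ| * (1 / Real.sqrt 2) ≤ c := (mul_le_of_le_one_right (abs_nonneg _) hr).trans hσ
  have h4 : 1 ≤ c ^ 2 := one_le_pow₀ hc1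
  nlinarith [mul_le_mul_of_nonneg_left h3 hc.le]

theorem mh_bd {h : ℝ} (h0 : 0 < h) :
    ∃ M : ℝ, ∀ s, 0 ≤ mh h s ∧ mh h s ≤ M ∧ |deriv (mh h) s| ≤ M := by
  refine ⟨1 / h + 4 / h ^ 2, fun s => ⟨mh_nonneg h0 s, ?_, ?_⟩⟩
  · have : mh h s ≤ 1 / h :=
      div_le_div_of_nonneg_right (pow_le_one₀ (Psi_pos _).le (Psi_le_one _)) h0.le
    have : 0 ≤ 4 / h ^ 2 := by positivity
    linarith
  · obtain ⟨a, ha, hb⟩ := hasDerivAt_Psi (s / h)
    have h1 : HasDerivAt (fun s => Psi (s / h)) (a * (1 / h)) s :=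
      HasDerivAt.comp (h₂ := Psi) (h := fun s => s / h) s ha ((hasDerivAt_id s).div_const h)
    have h2 : HasDerivAt (mh h) _ s := (h1.pow 2).div_const h
    rw [h2.deriv]
    simp only [Nat.cast_ofNat, Nat.add_one_sub_one, pow_one]
    have e : 2 * Psi (s / h) * (a * (1 / h)) / h = 2 * (Psi (s / h) * a) / h ^ 2 := by field_simp
    rw [e, abs_div, abs_mul, abs_mul, abs_two, abs_of_pos (Psi_pos _),
      abs_of_pos (show 0 < h ^ 2 by positivity)]
    have : 2 * (Psi (s / h) * |a|) / h ^ 2 ≤ 4 / h ^ 2 := by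
      refine div_le_div_of_nonneg_right ?_ (by positivity)
      nlinarith [mul_le_of_le_one_left (abs_nonneg a) (Psi_le_one (s / h))]
    have : 0 ≤ 1 / h := by positivity
    linarith

/-! ### the root `gg` of the cut weight -/

/-- `χ(t/e) √ω` -/
def gg (e : ℝ) (v om : EE n → ℝ) (x : EE n) : ℝ := cut e v x * √(om x)

section gg

variable {v om : EE n → ℝ} {lam e : ℝ}

theorem gg_sq (hw : Wt lam om) (x : EE n) : gg e v om x ^ 2 = cut e v x ^ 2 * om x := by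
  rw [gg, mul_pow, Real.sq_sqrt (hw.pos x).le]

theorem gg_sq_le (hw : Wt lam om) (x : EE n) : gg e v om x ^ 2 ≤ om x := by
  rw [gg_sq hw]
  exact mul_le_of_le_one_left (hw.pos x).le (cut_sq_le_one e v x)

theorem sqrt_cd (hw : Wt lam om) : ContDiff ℝ 1 fun x => √(om x) :=
  hw.cd.sqrt fun x => (hw.pos x).ne'

theorem gg_cd (hv : Sol v) (hw : Wt lam om) : ContDiff ℝ 1 (gg e v om) :=
  (cut_cd hv e 1).mul (sqrt_cd hw)

theorem gg_zero (he : 0 < e) {x : EE n} (h : 2 * e ≤ tt v x) : gg e v om x = 0 := by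
  rw [gg, cut_zero he h, zero_mul]

theorem gsq_gg (hv : Sol v) (hw : Wt lam om) (x : EE n) : gsq (gg e v om) x ≤
    2 * ‖∇ (cut e v) x‖ ^ 2 * om x + (‖∇ om x‖ / om x) ^ 2 * gg e v om x ^ 2 := by
  have h0 := hw.pos x
  have hs : 0 < √(om x) := Real.sqrt_pos.2 h0
  have e1 : ∀ i, pdv i (gg e v om) x =
      pdv i (cut e v) x * √(om x) + cut e v x * (1 / (2 * √(om x)) * pdv i om x) := fun i => by
    rw [← pdv_comp (Real.hasDerivAt_sqrt h0.ne') (hw.diff x) i]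
    exact pdv_mul (cut_diff hv e x) ((sqrt_cd hw).differentiable (by simp) x) i
  rw [gg_sq hw, div_pow, ← gsq_eq, ← gsq_eq]
  simp only [gsq, e1, Finset.mul_sum, Finset.sum_mul, Finset.sum_div, ← Finset.sum_add_distrib]
  refine Finset.sum_le_sum fun i _ => ?_
  obtain ⟨r, hr⟩ : ∃ r, r = √(om x) := ⟨_, rfl⟩
  have hr2 : om x = r ^ 2 := by rw [hr, Real.sq_sqrt h0.le]
  rw [← hr] at hs ⊢
  rw [hr2]
  have e2 : pdv i om x ^ 2 / (r ^ 2) ^ 2 * (cut e v x ^ 2 * r ^ 2) =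
      4 * (cut e v x * (1 / (2 * r) * pdv i om x)) ^ 2 := by field_simp; ring
  rw [e2]
  nlinarith [sq_nonneg (pdv i (cut e v) x * r - cut e v x * (1 / (2 * r) * pdv i om x)),
    sq_nonneg (cut e v x * (1 / (2 * r) * pdv i om x))]

theorem lam_le (hw : Wt lam om) (x : EE n) : (‖∇ om x‖ / om x) ^ 2 ≤ lam ^ 2 :=
  pow_le_pow_left₀ (div_nonneg (norm_nonneg _) (hw.pos x).le)
    ((div_le_iff₀ (hw.pos x)).2 (hw.lip x)) 2

theorem lam_cont (hw : Wt lam om) : Continuous fun x => (‖∇ om x‖ / om x) ^ 2 :=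
  ((St.continuous_grad hw.cd).norm.div hw.cont fun x => (hw.pos x).ne').pow 2

theorem cont_gsq {f : EE n → ℝ} (hf : ContDiff ℝ 1 f) : Continuous (gsq f) :=
  continuous_finsetSum _ fun i _ => (St.continuous_pdv hf i).pow 2

theorem cont_gin {f g : EE n → ℝ} (hf : ContDiff ℝ 1 f) (hg : ContDiff ℝ 1 g) :
    Continuous (gin f g) :=
  continuous_finsetSum _ fun i _ => (St.continuous_pdv hf i).mul (St.continuous_pdv hg i)

theorem cont_tg (hv : Sol v) {f : EE n → ℝ} (hf : ContDiff ℝ 1 f) : Continuous (tg v f) :=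
  ((continuous_const.sub hv.continuous_tt).mul (cont_gsq hf)).sub
    ((cont_gin (hv.dd_cd 1) hf).pow 2)

theorem gsq_gg_bd (hv : Sol v) (hw : Wt lam om) (e : ℝ) :
    ∃ M : ℝ, ∀ x, gsq (gg e v om) x ≤ M * om x := by
  obtain ⟨C, h0, hC⟩ := grad_cut_bd n e
  refine ⟨2 * C ^ 2 + lam ^ 2, fun x => (gsq_gg hv hw x).trans ?_⟩
  have h1 := pow_le_pow_left₀ (norm_nonneg _) (hC v hv x) 2
  have h2 := mul_le_mul (lam_le hw x) (gg_sq_le (e := e) (v := v) hw x) (sq_nonneg _) (sq_nonneg _)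
  nlinarith [mul_le_mul_of_nonneg_right h1 (hw.pos x).le]

theorem integ_gg_sq (hv : Sol v) (hw : Wt lam om) : Integrable fun x => gg e v om x ^ 2 :=
  hw.integ' ((gg_cd hv hw).continuous.pow 2).aestronglyMeasurable (M := 1) fun x => by
    rw [abs_of_nonneg (sq_nonneg _), one_mul]; exact gg_sq_le hw x

theorem integ_gsq_gg (hv : Sol v) (hw : Wt lam om) : Integrable (gsq (gg e v om)) := by
  obtain ⟨M, hM⟩ := gsq_gg_bd hv hw e
  exact hw.integ' (cont_gsq (gg_cd hv hw)).aestronglyMeasurable (M := M) fun x => by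
    rw [abs_of_nonneg (gsq_nonneg _ _)]; exact hM x

/-- integrability of `φ · (G · m)` for bounded continuous `φ`, `m` and integrable `G` -/
theorem integ_mul {φ G m : EE n → ℝ} (hG : Integrable G) (hφ : Continuous φ) (hm : Continuous m)
    {a b : ℝ} (ha : ∀ x, |φ x| ≤ a) (hb : ∀ x, |m x| ≤ b) :
    Integrable fun x => φ x * (G x * m x) :=
  (hG.mul_bdd (c := b) hm.aestronglyMeasurable (ae_of_all _ hb)).bdd_mul (c := a)
    hφ.aestronglyMeasurable (ae_of_all _ ha)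

theorem integ_LAM (hv : Sol v) (P : Prof) (hw : Wt lam om) :
    Integrable fun x => P.F ((‖∇ om x‖ / om x) ^ 2) * (psi v x ^ 2 * om x) :=
  (integ_MU hv hw).bdd_mul (c := P.F (lam ^ 2))
    (P.cont (lam_cont hw) fun _ => sq_nonneg _).aestronglyMeasurable (ae_of_all _ fun x => by
      rw [Real.norm_eq_abs, abs_of_nonneg (P.nonneg (sq_nonneg _))]
      exact P.mono (sq_nonneg _) (lam_le hw x))

theorem LAM_nonneg (P : Prof) (hw : Wt lam om) : 0 ≤ LAM v P om :=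
  integral_nonneg fun x => mul_nonneg (P.nonneg (sq_nonneg _))
    (mul_nonneg (sq_nonneg _) (hw.pos x).le)

end gg

/-! ### admissible normal weights -/

/-- `0 ≤ m ≤ M ψ⁸`, continuous -/
structure NW (M : ℝ) (v m : EE n → ℝ) : Prop where
  cont : Continuous m
  nonneg : ∀ x, 0 ≤ m x
  le : ∀ x, m x ≤ M * psi v x ^ 8

theorem psi8_le {v : EE n → ℝ} (hv : Sol v) (x : EE n) {k : ℕ} (hk : k ≤ 8) :
    psi v x ^ 8 ≤ psi v x ^ k := pow_le_pow_of_le_one (hv.psi_pos x).le (psi_le_one v x) hk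

theorem NW.M_nonneg {M : ℝ} {v m : EE n → ℝ} (h : NW M v m) (hv : Sol v) : 0 ≤ M :=
  nonneg_of_mul_nonneg_left ((h.nonneg 0).trans (h.le 0)) (pow_pos (hv.psi_pos 0) 8)

theorem NW.le_pow {M : ℝ} {v m : EE n → ℝ} (h : NW M v m) (hv : Sol v) (x : EE n) {k : ℕ}
    (hk : k ≤ 8) : m x ≤ M * psi v x ^ k :=
  (h.le x).trans (mul_le_mul_of_nonneg_left (psi8_le hv x hk) (h.M_nonneg hv))

theorem NW.abs_le {M : ℝ} {v m : EE n → ℝ} (h : NW M v m) (hv : Sol v) (x : EE n) : |m x| ≤ M := by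
  rw [abs_of_nonneg (h.nonneg x)]
  simpa using h.le_pow hv x (Nat.zero_le 8)

theorem nw_mh {v : EE n → ℝ} (hv : Sol v) {h : ℝ} (h0 : 0 < h) (h8 : h ≤ 1 / 8) :
    NW (16 / h) v fun x => mh h (dd v x) :=
  ⟨(mh_sm h).continuous.comp hv.dd_sm.continuous, fun _ => mh_nonneg h0 _, fun x => by
    rw [psi_eq_Psi hv]; exact mh_le h0 h8 _⟩

theorem nw_psi {v : EE n → ℝ} (hv : Sol v) : NW 1 v fun x => psi v x ^ 8 :=
  ⟨hv.psi_sm.continuous.pow 8, fun x => (pow_pos (hv.psi_pos x) 8).le, fun x => by simp⟩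

/-- `m F(y) ≤ M F(pb y)` -/
theorem NW.mul_F {M β : ℝ} {v m : EE n → ℝ} (h : NW M v m) (hv : Sol v) (h0 : 0 ≤ β) (h1 : β < 1)
    (P : Prof) (x : EE n) {y : ℝ} (hy : 0 ≤ y) : P.F y * m x ≤ M * P.F (pb β v x * y) := by
  have a := mul_le_mul_of_nonneg_left (h.le_pow hv x (k := 6) (by norm_num)) (P.nonneg hy)
  have b := mul_le_mul_of_nonneg_left (psi6_le hv h0 h1 P x hy) (h.M_nonneg hv)
  linarith

/-- NP2 in the form used twice: from `ψ⁸` to `mh h` -/
theorem np2_mh (h2 : NP2Stmt n) {β K h δ : ℝ} (h0 : 0 ≤ β) (h1 : β < 1) (hh : 0 < h)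
    (h8 : h ≤ 1 / 8) (hδ : 0 < δ) : ∃ e1 lam : ℝ, 0 < e1 ∧ 0 < lam ∧ ∀ e, 0 < e → e ≤ e1 →
    ∃ C : ℝ, 0 ≤ C ∧ ∀ (v : EE n → ℝ) (P : Prof) (om y : EE n → ℝ) (ε : ℝ), Pos v → Wt lam om →
      ContDiff ℝ 1 y → 0 < ε → ε ≤ 1 → (∀ x, 0 < y x ∧ y x ≤ K * (tt v x + ε)) →
      (∀ x, tt v x ≤ 1 / 4 → |gin (dd v) y x| ≤ K * (tt v x * √(tt v x))) →
      ∫ x, psi v x ^ 8 * P.F (y x) * (cut e v x ^ 2 * om x) ≤
        (∫ x, P.F (y x) * (gg e v om x ^ 2 * mh h (dd v x))) +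
          δ * TT β v P om + C * (BAD β v P om e + P.F ε * MU v om) := by
  obtain ⟨e1, lam, he1, hl, H⟩ := h2 β K (16 / h) δ h0 h1 hδ
  refine ⟨e1, lam, he1, hl, fun e he hee => ?_⟩
  obtain ⟨C, hC, H⟩ := H e he hee
  refine ⟨C, hC, fun v P om y ε hv hw hy hε hε1 hb hn => ?_⟩
  have hI2 : 0 < ∫ s, Psi s ^ 2 :=
    (integral_pos_iff_support_of_nonneg (fun s => sq_nonneg _) (integrable_Psi_pow 1)).2 (by
      have : (Function.support fun s => Psi s ^ 2) = univ :=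
        eq_univ_of_forall fun s => pow_ne_zero 2 (Psi_pos s).ne'
      rw [this]; simp)
  have hI8 : ∫ s, Psi s ^ 8 ≤ ∫ s, Psi s ^ 2 :=
    integral_mono (integrable_Psi_pow 7) (integrable_Psi_pow 1) fun s =>
      pow_le_pow_of_le_one (Psi_pos s).le (Psi_le_one s) (by norm_num)
  set c := (∫ s, Psi s ^ 8) / ∫ s, Psi s ^ 2 with hc
  have hc0 : 0 ≤ c := div_nonneg (integral_nonneg fun s => (pow_pos (Psi_pos s) 8).le) hI2.le
  have hc1 : c ≤ 1 := (div_le_one hI2).2 hI8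
  have hM : 1 ≤ 16 / h := by rw [le_div_iff₀ hh]; linarith
  have key := H v P om y (fun s => Psi s ^ 8) (fun s => c * mh h s) ε hv hw hy hε hε1 hb hn
    (Psi_cont.pow 8) (continuous_const.mul (mh_sm h).continuous) (fun s => ⟨?_, ?_⟩) ?_
  · simp only [← psi_eq_Psi hv.toSol] at key
    refine key.trans (add_le_add_left (add_le_add_left ?_ _) _)
    have hyc := P.cont hy.continuous fun x => (hb x).1.le
    have hK : ∀ x, |P.F (y x)| ≤ P.F (|K| * 2) := fun x => by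
      rw [abs_of_pos (P.pos _ (hb x).1)]
      refine P.mono (hb x).1.le ((hb x).2.trans ?_)
      have := hv.tt_nonneg x
      exact mul_le_mul (le_abs_self K) (by linarith [tt_le_one v x]) (by linarith) (abs_nonneg K)
    have hi := integ_mul (integ_gg_sq (e := e) hv.toSol hw) hyc (nw_mh hv.toSol hh h8).cont hK
      ((nw_mh hv.toSol hh h8).abs_le hv.toSol)
    refine integral_mono_of_nonneg (ae_of_all _ fun x => ?_) hi (ae_of_all _ fun x => ?_)
    · exact mul_nonneg (mul_nonneg (mul_nonneg hc0 (mh_nonneg hh _)) (P.pos _ (hb x).1).le)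
        (mul_nonneg (sq_nonneg _) (hw.pos x).le)
    · simp only
      rw [← gg_sq hw]
      have : 0 ≤ P.F (y x) * (gg e v om x ^ 2 * mh h (dd v x)) :=
        mul_nonneg (P.pos _ (hb x).1).le (mul_nonneg (sq_nonneg _) (mh_nonneg hh _))
      nlinarith
  · rw [abs_of_pos (pow_pos (Psi_pos s) 8)]
    exact le_mul_of_one_le_left (pow_pos (Psi_pos s) 8).le hM
  · rw [abs_of_nonneg (mul_nonneg hc0 (mh_nonneg hh s))]
    exact (mul_le_of_le_one_left (mh_nonneg hh s) hc1).trans (mh_le hh h8 s)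
  · rw [integral_const_mul, integral_mh hh, hc, div_mul_cancel₀ _ hI2.ne']

end

end Crest.Agent.N067.Y
end

-- ▼ part N067/Y/X5b
section

/-!
# Row 67, block X5 (helper54): `TT ≤ c AA + C R` and the cost of the weight
-/

set_option autoImplicit false

open MeasureTheory Laplacian InnerProductSpace Topology Filter Set
open scoped RealInnerProductSpace Gradient ContDiff

namespace Crest.Agent.N067.Y

open Crest.Agent.R077

noncomputable section

variable {n : ℕ}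

/-- `∫ Φ(a) g² m` -/
def AA (yy : Fam n) (m : EE n → ℝ) (e ε : ℝ) (v : EE n → ℝ) (P : Prof) (om : EE n → ℝ) : ℝ :=
  ∫ x, P.F (yy v x + ε) * (gg e v om x ^ 2 * m x)

/-- `∫ f'(a)² |δ a|² g² m` -/
def DD (yy : Fam n) (m : EE n → ℝ) (e ε : ℝ) (v : EE n → ℝ) (P : Prof) (om : EE n → ℝ) : ℝ :=
  ∫ x, P.p (yy v x + ε) ^ 2 * P.W (yy v x + ε) * (tg v (yy v) x / (4 * (yy v x + ε))) *
    (gg e v om x ^ 2 * m x)

/-- the mean curvature error -/
def I1 (yy HH : Fam n) (m : EE n → ℝ) (e ε : ℝ) (v : EE n → ℝ) (P : Prof) (om : EE n → ℝ) : ℝ :=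
  ∫ x, P.W (yy v x + ε) * (tg v (HH v) x + tt v x ^ 4) * (gg e v om x ^ 2 * m x)

/-- the cut-off error -/
def I2 (yy : Fam n) (m : EE n → ℝ) (e ε : ℝ) (v : EE n → ℝ) (P : Prof) (om : EE n → ℝ) : ℝ :=
  ∫ x, P.F (yy v x + ε) / (yy v x + ε) * (gsq (gg e v om) x * m x)

/-- the admissible remainder -/
def RR (β e ε : ℝ) (v : EE n → ℝ) (P : Prof) (om : EE n → ℝ) : ℝ :=
  BAD β v P om e + LAM v P om + P.F ε * MU v om

variable {yy HH : Fam n} {K θ eK CK : ℝ}

section basic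

variable {v om m : EE n → ℝ} {lam β e ε M : ℝ}

theorem RR_ge (hv : Sol v) (P : Prof) (hw : Wt lam om) (hε : 0 < ε) :
    0 ≤ BAD β v P om e ∧ 0 ≤ LAM v P om ∧ 0 ≤ P.F ε * MU v om :=
  ⟨BAD_nonneg hv P hw e, LAM_nonneg P hw, mul_nonneg (P.pos _ hε).le (MU_nonneg hw)⟩

theorem RR_nonneg (hv : Sol v) (P : Prof) (hw : Wt lam om) (hε : 0 < ε) :
    0 ≤ RR β e ε v P om := by
  obtain ⟨a, b, c⟩ := RR_ge (β := β) (e := e) hv P hw hε
  exact add_nonneg (add_nonneg a b) c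

theorem SKData.yy_le (hK : SKData yy HH K θ eK CK) :
    ∃ Ky : ℝ, 1 ≤ Ky ∧ ∀ v, Sol v → ∀ x, yy v x ≤ Ky * tt v x := by
  obtain ⟨C, h0, hC⟩ := hK.o2.bd2
  exact ⟨C + 1, by linarith, fun v hv x => by
    nlinarith [(le_abs_self _).trans (hC v hv x), hv.tt_nonneg x]⟩

theorem SKData.Y_pos (hK : SKData yy HH K θ eK CK) (hv : Sol v) (hε : 0 < ε) (x : EE n) :
    0 < yy v x + ε := add_pos_of_nonneg_of_pos (hK.nonneg v hv x) hε

theorem SKData.Y_cd (hK : SKData yy HH K θ eK CK) (hv : Sol v) (ε : ℝ) :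
    ContDiff ℝ 1 fun x => yy v x + ε := (hK.o2.cd hv 1).add contDiff_const

theorem SKData.Y_bd (hK : SKData yy HH K θ eK CK) (hv : Sol v) (ε : ℝ) :
    ∃ B : ℝ, ∀ x, yy v x + ε ≤ B := by
  obtain ⟨C, -, hC⟩ := hK.o2.bd0
  exact ⟨C + ε, fun x => by linarith [(le_abs_self _).trans (hC v hv x)]⟩

theorem Prof.div_eq (P : Prof) {y : ℝ} (hy : 0 < y) : P.F y / y = P.W y * y := by
  rw [Prof.W]; field_simp

theorem SKData.int_AA (hK : SKData yy HH K θ eK CK) (hv : Sol v) (P : Prof) (hw : Wt lam om)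
    (hε : 0 < ε) (hm : NW M v m) :
    Integrable fun x => P.F (yy v x + ε) * (gg e v om x ^ 2 * m x) := by
  obtain ⟨B, hB⟩ := hK.Y_bd hv ε
  have hY := hK.Y_pos hv hε
  exact integ_mul (integ_gg_sq hv hw) (P.cont (hK.Y_cd hv ε).continuous fun x => (hY x).le) hm.cont
    (a := P.F B) (fun x => by rw [abs_of_pos (P.pos _ (hY x))]; exact P.mono (hY x).le (hB x))
    (hm.abs_le hv)

theorem SKData.int_I2 (hK : SKData yy HH K θ eK CK) (hv : Sol v) (P : Prof) (hw : Wt lam om)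
    (hε : 0 < ε) (hm : NW M v m) :
    Integrable fun x => P.F (yy v x + ε) / (yy v x + ε) * (gsq (gg e v om) x * m x) := by
  obtain ⟨B, hB⟩ := hK.Y_bd hv ε
  have hY := hK.Y_pos hv hε
  have hc := (hK.Y_cd hv ε).continuous
  refine integ_mul (integ_gsq_gg hv hw) ((P.cont hc fun x => (hY x).le).div hc fun x => (hY x).ne')
    hm.cont (a := P.W B * B) (fun x => ?_) (hm.abs_le hv)
  rw [abs_of_pos (div_pos (P.pos _ (hY x)) (hY x)), P.div_eq (hY x)]
  exact mul_le_mul (P.W_mono (hY x) (hB x)) (hB x) (hY x).le (P.W_pos ((hY x).trans_le (hB x))).le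

theorem SKData.int_I1 (hK : SKData yy HH K θ eK CK) (hv : Sol v) (P : Prof) (hw : Wt lam om)
    (hε : 0 < ε) (hm : NW M v m) : Integrable fun x =>
      P.W (yy v x + ε) * (tg v (HH v) x + tt v x ^ 4) * (gg e v om x ^ 2 * m x) := by
  obtain ⟨B, hB⟩ := hK.Y_bd hv ε
  obtain ⟨C, -, hC⟩ := hK.oH.tg.bd0
  have hY := hK.Y_pos hv hε
  refine integ_mul (integ_gg_sq hv hw) ((P.cont_W (hK.Y_cd hv ε).continuous hY).mul
    ((hK.oH.tg.cont hv).add (hv.continuous_tt.pow 4))) hm.cont (a := P.W B * (C + 1))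
    (fun x => ?_) (hm.abs_le hv)
  have h1 : 0 ≤ tg v (HH v) x + tt v x ^ 4 :=
    add_nonneg (tg_nonneg _ _ _) (pow_nonneg (hv.tt_nonneg x) 4)
  rw [abs_of_nonneg (mul_nonneg (P.W_pos (hY x)).le h1)]
  exact mul_le_mul (P.W_mono (hY x) (hB x)) (add_le_add ((le_abs_self _).trans (hC v hv x))
    (pow_le_one₀ (hv.tt_nonneg x) (tt_le_one v x))) h1 (P.W_pos ((hY x).trans_le (hB x))).le

theorem SKData.DD_ge (hK : SKData yy HH K θ eK CK) (hv : Sol v) (P : Prof) (hε : 0 < ε)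
    (x : EE n) :
    0 ≤ P.p (yy v x + ε) ^ 2 * P.W (yy v x + ε) * (tg v (yy v) x / (4 * (yy v x + ε))) :=
  mul_nonneg (mul_nonneg (sq_nonneg _) (P.W_pos (hK.Y_pos hv hε x)).le)
    (div_nonneg (tg_nonneg _ _ _) (mul_pos four_pos (hK.Y_pos hv hε x)).le)

theorem SKData.int_DD (hK : SKData yy HH K θ eK CK) (hv : Sol v) (P : Prof) (hw : Wt lam om)
    (hε : 0 < ε) (hm : NW M v m) : Integrable fun x =>
      P.p (yy v x + ε) ^ 2 * P.W (yy v x + ε) * (tg v (yy v) x / (4 * (yy v x + ε))) *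
        (gg e v om x ^ 2 * m x) := by
  obtain ⟨B, hB⟩ := hK.Y_bd hv ε
  obtain ⟨C, hC0, hC⟩ := hK.o2.tg.bd0
  have hY := hK.Y_pos hv hε
  have hc := (hK.Y_cd hv ε).continuous
  refine integ_mul (integ_gg_sq hv hw) ((((P.cont_p hc hY).pow 2).mul (P.cont_W hc hY)).mul
    ((hK.o2.tg.cont hv).div (continuous_const.mul hc) fun x => (mul_pos four_pos (hY x)).ne'))
    hm.cont (a := (3 / 2) ^ 2 * P.W B * (C / (4 * ε))) (fun x => ?_) (hm.abs_le hv)
  rw [abs_of_nonneg (hK.DD_ge hv P hε x)]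
  have hWB := (P.W_pos ((hY x).trans_le (hB x))).le
  refine mul_le_mul (mul_le_mul (pow_le_pow_left₀ (by linarith [P.one_le_p (hY x)])
    (P.p_le (hY x)) 2) (P.W_mono (hY x) (hB x)) (P.W_pos (hY x)).le (by positivity))
    (div_le_div₀ hC0 ((le_abs_self _).trans (hC v hv x)) (by positivity) ?_)
    (div_nonneg (tg_nonneg _ _ _) (mul_pos four_pos (hY x)).le) (by positivity)
  linarith [hK.nonneg v hv x]

theorem SKData.AA_nonneg (hK : SKData yy HH K θ eK CK) (hv : Sol v) (P : Prof)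
    (hε : 0 < ε) (hm : NW M v m) : 0 ≤ AA yy m e ε v P om := integral_nonneg fun x =>
  mul_nonneg (P.pos _ (hK.Y_pos hv hε x)).le (mul_nonneg (sq_nonneg _) (hm.nonneg x))

theorem SKData.DD_nonneg (hK : SKData yy HH K θ eK CK) (hv : Sol v) (P : Prof)
    (hε : 0 < ε) (hm : NW M v m) : 0 ≤ DD yy m e ε v P om := integral_nonneg fun x =>
  mul_nonneg (hK.DD_ge hv P hε x) (mul_nonneg (sq_nonneg _) (hm.nonneg x))

end basic

/-- `Y = yy + ε` is admissible for NP1 and NP2 -/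
theorem SKData.adm (hK : SKData yy HH K θ eK CK) (hK0 : 0 ≤ K) : ∃ K' : ℝ, 1 ≤ K' ∧
    ∀ (v : EE n → ℝ) (ε : ℝ), Sol v → 0 < ε → ε ≤ 1 → ∀ x, yy v x + ε ≤ K' ∧
      yy v x + ε ≤ K' * (tt v x + ε) ∧ (tt v x ≤ 1 / 4 →
        |gin (dd v) (fun y => yy v y + ε) x| ≤ K' * (tt v x * √(tt v x))) := by
  obtain ⟨Ky, h1, hy⟩ := hK.yy_le
  have h2 : 0 ≤ K * Ky := by positivity
  refine ⟨K * Ky + Ky + 1, by linarith, fun v ε hv hε hε1 x => ⟨?_, ?_, fun ht => ?_⟩⟩
  · nlinarith [hy v hv x, tt_le_one v x]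
  · nlinarith [hy v hv x, hv.tt_nonneg x, mul_nonneg h2 (hv.tt_nonneg x), mul_nonneg h2 hε.le]
  · have e : gin (dd v) (fun y => yy v y + ε) x = gin (dd v) (yy v) x := by
      simp only [gin, pdv_add_const]
    rw [e]
    refine (hK.nor v hv x ht).trans ?_
    have h3 : √(yy v x) ≤ Ky * √(tt v x) := by
      refine Real.sqrt_le_iff.2 ⟨by positivity, ?_⟩
      rw [mul_pow, Real.sq_sqrt (hv.tt_nonneg x)]
      exact (hy v hv x).trans (mul_le_mul_of_nonneg_right (by nlinarith) (hv.tt_nonneg x))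
    have h4 : 0 ≤ tt v x * √(tt v x) := mul_nonneg (hv.tt_nonneg x) (Real.sqrt_nonneg _)
    have h5 := mul_le_mul_of_nonneg_left (mul_le_mul_of_nonneg_right h3 (hv.tt_nonneg x)) hK0
    nlinarith

theorem s1_alg {CG K Kt Ca Cb e T A B L E G X Z : ℝ} (hCG : 0 ≤ CG) (hK : 0 ≤ K) (hKt : 0 ≤ Kt)
    (hCa : 0 ≤ Ca) (hCb : 0 ≤ Cb) (he : 0 < e) (he4 : e ≤ 1 / 4)
    (he3 : e ≤ 1 / (64 * (2 * K + 2) ^ 3 * (CG + 1))) (hT : 0 ≤ T) (hA : 0 ≤ A) (hB : 0 ≤ B)
    (hL : 0 ≤ L) (hE : 0 ≤ E) (k0 : T ≤ CG * G)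
    (k1 : X ≤ 200 * Z + 1 / (256 * (CG + 1)) * T + Ca * B)
    (k2 : Z ≤ A + 1 / (256 * 200 * (CG + 1)) * T + Cb * (B + E))
    (k3 : G ≤ 64 * X + 8 * (2 * K + 2) ^ 3 * e ^ 2 * T + (2 * Kt + 2) ^ 3 * B) :
    T ≤ 3 * 12800 * (CG + 1) * A +
      3 * (CG * (64 * (200 * Cb + Ca) + (2 * Kt + 2) ^ 3)) * (B + L + E) := by
  have q1 : CG * (64 * (1 / (256 * (CG + 1)))) ≤ 1 / 4 := by
    rw [mul_one_div, ← mul_div_assoc, div_le_iff₀ (by positivity)]; linarith
  have q2 : CG * (64 * 200 * (1 / (256 * 200 * (CG + 1)))) ≤ 1 / 4 := by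
    rw [mul_one_div, ← mul_div_assoc, div_le_iff₀ (by positivity)]; linarith
  have q3 : CG * (8 * (2 * K + 2) ^ 3 * e ^ 2) ≤ 1 / 8 := by
    have a : e * (64 * (2 * K + 2) ^ 3 * (CG + 1)) ≤ 1 := (le_div_iff₀ (by positivity)).1 he3
    have b : e ^ 2 ≤ e := by nlinarith
    have c := mul_le_mul_of_nonneg_left b (show 0 ≤ CG * (8 * (2 * K + 2) ^ 3) by positivity)
    have d : 0 ≤ e * (2 * K + 2) ^ 3 := by positivity
    linarith
  generalize 1 / (256 * (CG + 1)) = δ1 at k1 q1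
  generalize 1 / (256 * 200 * (CG + 1)) = δ2 at k2 q2
  have hk : 0 ≤ (2 * Kt + 2) ^ 3 := by positivity
  generalize (2 * Kt + 2) ^ 3 = kt at k3 hk ⊢
  generalize 8 * (2 * K + 2) ^ 3 * e ^ 2 = δ3 at k3 q3
  have k4 := mul_le_mul_of_nonneg_left k3 hCG
  have k5 := mul_le_mul_of_nonneg_left k1 (show 0 ≤ CG * 64 by positivity)
  have k6 := mul_le_mul_of_nonneg_left k2 (show 0 ≤ CG * 64 * 200 by positivity)
  have m1 := mul_le_mul_of_nonneg_right q1 hT
  have m2 := mul_le_mul_of_nonneg_right q2 hT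
  have m3 := mul_le_mul_of_nonneg_right q3 hT
  have p1 : 0 ≤ CG * Cb * L := by positivity
  have p2 : 0 ≤ CG * Ca * (L + E) := by positivity
  have p3 : 0 ≤ CG * kt * (L + E) := by positivity
  have p4 : 0 ≤ CG * Cb * B := by positivity
  have p5 : 0 ≤ CG * Ca * B := by positivity
  have p6 : 0 ≤ CG * kt * B := by positivity
  have p7 : 0 ≤ CG * Cb * E := by positivity
  have p8 : 0 ≤ CG * A := by positivity
  linarith

/-- the step `TT ≤ c AA + C R` -/
theorem s1 (h1 : NP1Stmt n) (h2 : NP2Stmt n) (hK : SKData yy HH K θ eK CK) (hK0 : 0 ≤ K) {β : ℝ}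
    (hβ0 : 0 ≤ β) (hβ1 : β < 1) : ∃ c : ℝ, 0 < c ∧ ∀ h : ℝ, 0 < h → h ≤ 1 / 8 →
    ∃ e1 lam : ℝ, 0 < e1 ∧ 0 < lam ∧ ∀ e, 0 < e → e ≤ e1 → ∃ C : ℝ, 0 ≤ C ∧
      ∀ (v : EE n → ℝ) (P : Prof) (om : EE n → ℝ) (ε : ℝ), Pos v → Wt lam om → 0 < ε → ε ≤ 1 →
        TT β v P om ≤ c * AA yy (fun x => mh h (dd v x)) e ε v P om + C * RR β e ε v P om := by
  obtain ⟨lG, CG, hlG, hCG, HG⟩ := geS n β hβ0 hβ1
  obtain ⟨Kt, hKt, Ht⟩ := hk_hsq n
  obtain ⟨Cg, hCg, Hg⟩ := hk_grad_t n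
  obtain ⟨K', hK', Ha⟩ := hK.adm hK0
  refine ⟨3 * 12800 * (CG + 1), by positivity, fun h hh h8 => ?_⟩
  set δ1 := 1 / (256 * (CG + 1)) with hδ1
  set δ2 := 1 / (256 * 200 * (CG + 1)) with hδ2
  set e3 := 1 / (64 * (2 * K + 2) ^ 3 * (CG + 1)) with he3
  obtain ⟨ea, la, hea, hla, H1⟩ := h1 β K' δ1 hβ0 hβ1 (by positivity)
  obtain ⟨eb, lb, heb, hlb, H2⟩ := np2_mh h2 (K := K') (δ := δ2) hβ0 hβ1 hh h8 (by positivity)
  refine ⟨min (min ea eb) (min e3 (1 / 4)), min lG (min la lb), by positivity, by positivity,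
    fun e he hee => ?_⟩
  simp only [le_min_iff] at hee
  obtain ⟨Ca, hCa, H1⟩ := H1 e he hee.1.1
  obtain ⟨Cb, hCb, H2⟩ := H2 e he hee.1.2
  refine ⟨3 * (CG * (64 * (200 * Cb + Ca) + (2 * Kt + 2) ^ 3)), by positivity,
    fun v P om ε hv hw hε hε1 => ?_⟩
  have hs := hv.toSol
  have hY := hK.Y_pos hs hε
  set g : EE n → ℝ := fun x => 2 * hsq (dd v) x + 2 * psi v x * tt v x ^ 2 with hg
  have hg0 : ∀ x, 0 ≤ g x := fun x => add_nonneg (mul_nonneg zero_le_two (hsq_nonneg _ _))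
    (mul_nonneg (mul_nonneg zero_le_two (hs.psi_pos x).le) (sq_nonneg _))
  have hg1 : ∀ x, g x ≤ 2 * hsq (dd v) x + 2 * tt v x ^ 2 := fun x => by
    have := mul_le_mul_of_nonneg_right (psi_le_one v x) (sq_nonneg (tt v x))
    simp only [hg]; linarith
  have hg2 : ∀ x, g x ≤ 2 * Kt + 2 := fun x => by
    have a := hg1 x
    have b := Ht v hs x
    have c := mul_le_mul_of_nonneg_left (tt_le_one v x) hKt
    have d := pow_le_one₀ (n := 2) (hs.tt_nonneg x) (tt_le_one v x)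
    linarith
  have hgc : Continuous g := (continuous_const.mul hs.hsq_sm.continuous).add
    ((continuous_const.mul hs.psi_sm.continuous).mul (hs.continuous_tt.pow 2))
  have k0 := HG v P om (tt v) g (2 * Kt + 2 + Cg) hs (hw.mono (min_le_left _ _)) (hs.tt_cd 2) hgc
    (fun x => ⟨hv.tpos x, by linarith [tt_le_one v x], by
      nlinarith [Hg v hs x, tt_le_one v x], hg0 x, by linarith [hg2 x]⟩)
    (fun x => by have := hs.Lm_tt x; simp only [hg, qq] at this ⊢; linarith)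
  have k1 := H1 v P om (fun x => yy v x + ε) hv
    (hw.mono ((min_le_right _ _).trans (min_le_left _ _))) (hK.Y_cd hs ε)
    (fun x => ⟨hY x, (Ha v ε hs hε hε1 x).1⟩) fun x => (Ha v ε hs hε hε1 x).2.2
  have k2 := H2 v P om (fun x => yy v x + ε) ε hv
    (hw.mono ((min_le_right _ _).trans (min_le_right _ _))) (hK.Y_cd hs ε) hε hε1
    (fun x => ⟨hY x, (Ha v ε hs hε hε1 x).2.1⟩) fun x => (Ha v ε hs hε hε1 x).2.2
  have iY : Integrable fun x => P.F (pb β v x * (yy v x + ε)) * (cut e v x ^ 2 * om x) := by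
    have := (integ_F hs hβ0 P hw (hK.Y_cd hs ε).continuous fun x =>
      ⟨(hY x).le, (Ha v ε hs hε hε1 x).1⟩).mul_bdd (c := 1)
      ((cut_cont hs e).pow 2).aestronglyMeasurable (ae_of_all _ fun x => by
        rw [Real.norm_eq_abs, abs_of_nonneg (sq_nonneg _)]; exact cut_sq_le_one e v x)
    exact this.congr (ae_of_all _ fun x => by simp only [Pi.pow_apply]; ring)
  have k3 : ∫ x, P.F (pb β v x * g x) * om x ≤
      64 * (∫ x, P.F (pb β v x * (yy v x + ε)) * (cut e v x ^ 2 * om x)) +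
        8 * (2 * K + 2) ^ 3 * e ^ 2 * TT β v P om + (2 * Kt + 2) ^ 3 * BAD β v P om e := by
    rw [BAD_eq hs, TT]
    refine int_le3 (integ_F hs hβ0 P hw hgc fun x => ⟨hg0 x, hg2 x⟩) iY (integ_TT hs hβ0 P hw)
      (integ_bad hs hβ0 P hw e) fun x => ?_
    have hp := pb_pos hs β x
    have ho := hw.pos x
    have ht := hv.tpos x
    have n1 := P.pos _ (mul_pos hp (hY x))
    have n2 := P.pos _ (mul_pos hp ht)
    have n3 := bad_nonneg (β := β) hs P hw e x
    rcases le_total (tt v x) e with hte | hte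
    · rw [cut_one he hte]
      have c1 := (abs_le.1 (hK.cmp v hs x (hte.trans hee.2.2))).1
      have c2 : g x ≤ 2 * (yy v x + ε) + (2 * K + 2) * (e * tt v x) := by
        have := mul_le_mul_of_nonneg_left (mul_le_mul_of_nonneg_right hte ht.le)
          (show 0 ≤ 2 * K + 2 by positivity)
        nlinarith [hg1 x]
      have c3 := P.mono (mul_nonneg hp.le (hg0 x)) (mul_le_mul_of_nonneg_left c2 hp.le)
      rw [mul_add _ (2 * (yy v x + ε))] at c3
      have c4 := P.add_le (a := pb β v x * (2 * (yy v x + ε)))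
        (b := pb β v x * ((2 * K + 2) * (e * tt v x))) (by have := hY x; positivity) (by positivity)
      have c5 := P.le_of_le_mul (K := 2) (a := pb β v x * (2 * (yy v x + ε)))
        (b := pb β v x * (yy v x + ε)) (by norm_num) (by have := hY x; positivity)
        (mul_pos hp (hY x)).le (by linarith)
      have c6 := P.le_of_le_small (K := 2 * K + 2) (s := e)
        (a := pb β v x * ((2 * K + 2) * (e * tt v x))) (b := pb β v x * tt v x) (by linarith) he.le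
        (by linarith [hee.2.2]) (by positivity) (by positivity) (by linarith)
      have c7 : P.F (pb β v x * g x) ≤ 64 * P.F (pb β v x * (yy v x + ε)) +
          8 * (2 * K + 2) ^ 3 * e ^ 2 * P.F (pb β v x * tt v x) := by linarith
      have c8 := mul_le_mul_of_nonneg_right c7 ho.le
      have : 0 ≤ (2 * Kt + 2) ^ 3 * bad β v P om e x := by positivity
      linarith
    · rw [bad_of_le hte]
      have c1 := P.le_of_le_mul (K := 2 * Kt + 2) (a := pb β v x * g x) (b := pb β v x)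
        (by linarith) (mul_nonneg hp.le (hg0 x)) hp.le (by nlinarith [hg2 x])
      have c2 := mul_le_mul_of_nonneg_right c1 ho.le
      have : 0 ≤ 64 * (P.F (pb β v x * (yy v x + ε)) * (cut e v x ^ 2 * om x)) := by positivity
      have : 0 ≤ 8 * (2 * K + 2) ^ 3 * e ^ 2 * (P.F (pb β v x * tt v x) * om x) := by positivity
      linarith
  obtain ⟨r1, r2, r3⟩ := RR_ge (β := β) (e := e) hs P hw hε
  have hT := TT_nonneg (β := β) hs P hw
  have hA := hK.AA_nonneg (e := e) (om := om) hs P hε (nw_mh hs hh h8)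
  change TT β v P om ≤ _ at k0
  change _ ≤ AA yy (fun x => mh h (dd v x)) e ε v P om + _ + _ at k2
  exact s1_alg hCG hK0 hKt hCa hCb he hee.2.2 hee.2.1 hT hA r1 r2 r3 k0 k1 k2 k3

/-- the cut-off error -/
theorem i2 (hK : SKData yy HH K θ eK CK) (hK0 : 0 ≤ K) {β : ℝ} (hβ0 : 0 ≤ β) (hβ1 : β < 1)
    {M δ e : ℝ} (hM : 0 ≤ M) (hδ : 0 < δ) (hδ1 : δ ≤ 1) (he : 0 < e) : ∃ C : ℝ, 0 ≤ C ∧
    ∀ (v : EE n → ℝ) (P : Prof) (om m : EE n → ℝ) (ε lam : ℝ), Sol v → Wt lam om → 0 < ε → ε ≤ 1 →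
      NW M v m → I2 yy m e ε v P om ≤ δ * AA yy m e ε v P om + C * RR β e ε v P om := by
  obtain ⟨K', hK', Ha⟩ := hK.adm hK0
  obtain ⟨Cc, hCc, Hc⟩ := grad_cut_bd n e
  set C := M / δ ^ 2 + 2 * Cc ^ 2 * (K' ^ 3 + 1) * M with hC
  refine ⟨C, by positivity, fun v P om m ε lam hs hw hε hε1 hm => ?_⟩
  have hY := hK.Y_pos hs hε
  have key : I2 yy m e ε v P om ≤ δ * AA yy m e ε v P om + M / δ ^ 2 * LAM v P om +
      2 * Cc ^ 2 * (K' ^ 3 + 1) * M * BAD β v P om e := by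
    rw [BAD_eq hs]
    refine int_le3 (hK.int_I2 hs P hw hε hm) (hK.int_AA hs P hw hε hm) (integ_LAM hs P hw)
      (integ_bad hs hβ0 P hw e) fun x => ?_
    have ho := hw.pos x
    have hm0 := hm.nonneg x
    have n0 : 0 ≤ P.F (yy v x + ε) / (yy v x + ε) := (div_pos (P.pos _ (hY x)) (hY x)).le
    have c1 := mul_le_mul_of_nonneg_left (mul_le_mul_of_nonneg_right (gsq_gg (e := e) hs hw x) hm0) n0
    have c2 := mul_le_mul_of_nonneg_right
      (P.young (hY x) (sq_nonneg (‖∇ om x‖ / om x)) hδ hδ1)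
      (mul_nonneg (sq_nonneg (gg e v om x)) hm0)
    have c3 : gg e v om x ^ 2 * m x ≤ om x * (M * psi v x ^ 2) :=
      mul_le_mul (gg_sq_le hw x) (hm.le_pow hs x (by norm_num)) hm0 ho.le
    have c4 := mul_le_mul_of_nonneg_left c3
      (div_nonneg (P.nonneg (sq_nonneg (‖∇ om x‖ / om x))) (sq_nonneg δ))
    have c5 : P.F (yy v x + ε) / (yy v x + ε) * (2 * ‖∇ (cut e v) x‖ ^ 2 * om x * m x) ≤
        2 * Cc ^ 2 * (K' ^ 3 + 1) * M * bad β v P om e x := by
      rcases lt_or_ge (tt v x) e with hte | hte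
      · rw [grad_cut_of_lt hs he hte]
        have := bad_nonneg (β := β) hs P hw e x
        simp only [norm_zero, ne_eq, OfNat.ofNat_ne_zero, not_false_eq_true, zero_pow, mul_zero,
          zero_mul]
        positivity
      · rw [bad_of_le hte]
        have d1 := P.young1 (hY x) zero_le_one
        have d2 := P.le_of_le_mul hK' (hY x).le zero_le_one
          (by rw [mul_one]; exact (Ha v ε hs hε hε1 x).1)
        have d3 : P.F (yy v x + ε) / (yy v x + ε) ≤ (K' ^ 3 + 1) * P.F 1 := by linarith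
        have d4 := hm.mul_F hs hβ0 hβ1 P x zero_le_one
        rw [mul_one] at d4
        have d5 := pow_le_pow_left₀ (norm_nonneg _) (Hc v hs x) 2
        have d6 := P.pos 1 one_pos
        calc _ ≤ (K' ^ 3 + 1) * P.F 1 * (2 * Cc ^ 2 * om x * m x) := by gcongr
          _ = 2 * Cc ^ 2 * (K' ^ 3 + 1) * om x * (P.F 1 * m x) := by ring
          _ ≤ 2 * Cc ^ 2 * (K' ^ 3 + 1) * om x * (M * P.F (pb β v x)) := by gcongr
          _ = _ := by ring
    have e1 : P.F ((‖∇ om x‖ / om x) ^ 2) / δ ^ 2 * (om x * (M * psi v x ^ 2)) =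
        M / δ ^ 2 * (P.F ((‖∇ om x‖ / om x) ^ 2) * (psi v x ^ 2 * om x)) := by ring
    linarith
  obtain ⟨r1, r2, r3⟩ := RR_ge (β := β) (e := e) hs P hw hε
  have p1 : 0 ≤ M / δ ^ 2 * (BAD β v P om e + P.F ε * MU v om) := by positivity
  have p2 : 0 ≤ 2 * Cc ^ 2 * (K' ^ 3 + 1) * M * (LAM v P om + P.F ε * MU v om) := by positivity
  rw [RR, hC]
  linarith

end

end Crest.Agent.N067.Y
end

-- ▼ part N067/Y/X5c
section

/-!
# Row 67, block X5 (helper54): the mean curvature error is small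
-/

set_option autoImplicit false

open MeasureTheory Laplacian InnerProductSpace Topology Filter Set
open scoped RealInnerProductSpace Gradient ContDiff

namespace Crest.Agent.N067.Y

open Crest.Agent.R077

noncomputable section

variable {n : ℕ} {yy HH : Fam n} {K θ eK CK : ℝ}

theorem Prof.F_le_W_mul (P : Prof) {Y s : ℝ} (hY : 0 < Y) (hs : 0 ≤ s) :
    P.F s ≤ P.W Y * (s ^ 2 / Y) * (Y + s) := by
  have hW := P.W_pos hY
  rcases hs.eq_or_lt with h | h
  · simp [← h, P.zero]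
  have e : P.W Y * (s ^ 2 / Y) * (Y + s) = P.W Y * s ^ 2 + s / Y * P.W Y * s ^ 2 := by field_simp
  rw [e, ← P.W_mul h]
  rcases le_total s Y with h1 | h1
  · have := mul_le_mul_of_nonneg_right (P.W_mono h h1) (sq_nonneg s)
    have : 0 ≤ s / Y * P.W Y * s ^ 2 := by positivity
    linarith
  · have := mul_le_mul_of_nonneg_right (P.W_le_of_le_mul ((one_le_div hY).2 h1) h hY
      (div_mul_cancel₀ s hY.ne').ge) (sq_nonneg s)
    have : 0 ≤ P.W Y * s ^ 2 := by positivity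
    linarith

theorem lt_of_gg {v om : EE n → ℝ} {e : ℝ} {x : EE n} (he : 0 < e) (h : gg e v om x ≠ 0) :
    tt v x < 2 * e := not_le.1 fun h' => h (gg_zero he h')

theorem os_nonneg (v : EE n → ℝ) (x : EE n) : 0 ≤ os v x :=
  Finset.sum_nonneg fun _ _ => Finset.sum_nonneg fun _ _ => add_nonneg (sq_nonneg _) (gsq_nonneg _ _)

theorem integ_O {v om : EE n → ℝ} {lam β : ℝ} (hv : Pos v) (hβ0 : 0 ≤ β) (P : Prof)
    (hw : Wt lam om) : Integrable fun x => P.F (pb β v x * tt v x) / tt v x ^ 2 * os v x * om x := by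
  have hs := hv.toSol
  obtain ⟨C, hC0, hC⟩ := (Ord.os4 (n := n)).bd0
  have h1 : ∀ x, 0 < pb β v x * tt v x := fun x => mul_pos (pb_pos hs β x) (hv.tpos x)
  refine hw.integ (((P.cont ((pb_cont hs β).mul hs.continuous_tt) fun x => (h1 x).le).div
    (hs.continuous_tt.pow 2) fun x => pow_ne_zero 2 (hv.tpos x).ne').mul (Ord.os4.cont hs))
    (M := P.W 1 * C) fun x => ?_
  have h2 : P.F (pb β v x * tt v x) / tt v x ^ 2 ≤ P.W 1 :=
    (div_le_div_of_nonneg_right (P.mono (h1 x).le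
      (mul_le_of_le_one_left (hv.tpos x).le (pb_le_one hs hβ0 x))) (sq_nonneg _)).trans
      (P.W_mono (hv.tpos x) (tt_le_one v x))
  rw [abs_mul, abs_of_nonneg (div_nonneg (P.pos _ (h1 x)).le (sq_nonneg _))]
  exact mul_le_mul h2 (hC v hs x) (abs_nonneg _) (P.W_pos one_pos).le

theorem i1a (hK : SKData yy HH K θ eK CK) (hK0 : 0 ≤ K) {β : ℝ} (hβ0 : 0 ≤ β) (hβ1 : β < 1) :
    ∃ c : ℝ, 0 < c ∧ ∀ (v : EE n → ℝ) (P : Prof) (om m : EE n → ℝ) (e ε lam M : ℝ), Pos v →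
      Wt lam om → 0 < e → e ≤ 1 / 8 → 0 < ε → ε ≤ 1 → NW M v m → I1 yy HH m e ε v P om ≤
        c * M * (∫ x, P.F (pb β v x * tt v x) / tt v x ^ 2 * os v x * om x) +
          c * M * e * TT β v P om + c * M * P.F ε * MU v om := by
  obtain ⟨Ky, hKy, Hy⟩ := hK.yy_le
  obtain ⟨Ko, hKo, Ho⟩ := (Ord.os4 (n := n)).bd4
  refine ⟨(Ky + 1) * (K * Ko + K + 1), by positivity, fun v P om m e ε lam M hv hw he he8 hε hε1 hm => ?_⟩
  have hs := hv.toSol
  have hM := hm.M_nonneg hs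
  refine int_le3 (hK.int_I1 hs P hw hε hm) (integ_O hv hβ0 P hw) (integ_TT hs hβ0 P hw)
    (integ_MU hs hw) fun x => ?_
  have ht := hv.tpos x
  have ho := hw.pos x
  have hF := P.pos _ (mul_pos (pb_pos hs β x) ht)
  have hE := P.pos _ hε
  have hos := os_nonneg v x
  have hY := hK.Y_pos hs hε x
  have hm0 := hm.nonneg x
  have hKK : 0 ≤ K * Ko := by positivity
  have n1 : 0 ≤ (Ky + 1) * (K * Ko + K + 1) * M *
    (P.F (pb β v x * tt v x) / tt v x ^ 2 * os v x * om x) := by positivity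
  have n2 : 0 ≤ (Ky + 1) * (K * Ko + K + 1) * M * e * (P.F (pb β v x * tt v x) * om x) := by
    positivity
  have n3 : 0 ≤ (Ky + 1) * (K * Ko + K + 1) * M * P.F ε * (psi v x ^ 2 * om x) := by positivity
  by_cases hg : gg e v om x = 0
  · rw [hg]
    simp only [ne_eq, OfNat.ofNat_ne_zero, not_false_eq_true, zero_pow, zero_mul, mul_zero]
    linarith
  have hte := lt_of_gg he hg
  have c1 := hK.dH v hs x (by linarith)
  have c0 := tg_nonneg v (HH v) x
  have c2 := gg_sq_le (e := e) (v := v) hw x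
  have hW := P.W_pos hY
  rcases le_total ε (tt v x) with h | h
  · have d1 : P.W (yy v x + ε) ≤ (Ky + 1) * P.W (tt v x) :=
      P.W_le_of_le_mul (by linarith) hY ht (by linarith [Hy v hs x])
    have d2 : P.W (tt v x) * m x ≤ M * (P.F (pb β v x * tt v x) / tt v x ^ 2) := by
      rw [Prof.W, div_mul_eq_mul_div, ← mul_div_assoc]
      exact div_le_div_of_nonneg_right (hm.mul_F hs hβ0 hβ1 P x ht.le) (sq_nonneg _)
    have d3 : tt v x ^ 4 ≤ e * tt v x ^ 2 := by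
      have : tt v x ^ 2 ≤ e := by nlinarith
      nlinarith [mul_le_mul_of_nonneg_right this (sq_nonneg (tt v x))]
    have hWt := P.W_pos ht
    calc _ ≤ (Ky + 1) * P.W (tt v x) * (K * os v x + e * tt v x ^ 2) * (om x * m x) := by gcongr
      _ = (Ky + 1) * (K * os v x + e * tt v x ^ 2) * om x * (P.W (tt v x) * m x) := by ring
      _ ≤ (Ky + 1) * (K * os v x + e * tt v x ^ 2) * om x *
          (M * (P.F (pb β v x * tt v x) / tt v x ^ 2)) := by gcongr
      _ = (Ky + 1) * K * M * (P.F (pb β v x * tt v x) / tt v x ^ 2 * os v x * om x) +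
          (Ky + 1) * 1 * M * e * (P.F (pb β v x * tt v x) * om x) := by field_simp
      _ ≤ (Ky + 1) * (K * Ko + K + 1) * M * (P.F (pb β v x * tt v x) / tt v x ^ 2 * os v x * om x) +
          (Ky + 1) * (K * Ko + K + 1) * M * e * (P.F (pb β v x * tt v x) * om x) := by
        gcongr <;> linarith
      _ ≤ _ := by linarith
  · have d1 : P.W (yy v x + ε) ≤ (Ky + 1) * P.W ε :=
      P.W_le_of_le_mul (by linarith) hY hε (by nlinarith [Hy v hs x])
    have d0 : tt v x ^ 2 ≤ ε ^ 2 := pow_le_pow_left₀ ht.le h 2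
    have d2 : os v x ≤ Ko * ε ^ 2 :=
      ((le_abs_self _).trans (Ho v hs x)).trans (mul_le_mul_of_nonneg_left d0 hKo)
    have d3 : tt v x ^ 4 ≤ ε ^ 2 :=
      (pow_le_pow_of_le_one ht.le (tt_le_one v x) (by norm_num)).trans d0
    have d4 : tg v (HH v) x ≤ K * (Ko * ε ^ 2) := c1.trans (mul_le_mul_of_nonneg_left d2 hK0)
    have d5 := hm.le_pow hs x (k := 2) (by norm_num)
    have hWt := P.W_pos hε
    calc _ ≤ (Ky + 1) * P.W ε * (K * (Ko * ε ^ 2) + ε ^ 2) * (om x * (M * psi v x ^ 2)) := by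
          gcongr
      _ = (Ky + 1) * (K * Ko + 1) * M * (P.W ε * ε ^ 2) * (psi v x ^ 2 * om x) := by ring
      _ ≤ (Ky + 1) * (K * Ko + K + 1) * M * P.F ε * (psi v x ^ 2 * om x) := by
        rw [P.W_mul hε]; gcongr; linarith
      _ ≤ _ := by linarith

theorem yb_alg {S T K t s ε : ℝ} (hK : 0 ≤ K) (ht : 0 < t) (hs : 0 ≤ s) (hε : 0 < ε)
    (c1 : S ≤ 2 * T + K * t ^ 4) (hT : T = 4 * s ^ 2) :
    √(S + ε ^ 2) ≤ 3 * s + (K + 1) * t ^ 2 + ε := by
  refine Real.sqrt_le_iff.2 ⟨by positivity, ?_⟩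
  have a1 : 0 ≤ s * ((K + 1) * t ^ 2) := by positivity
  have a2 : 0 ≤ s * ε := by positivity
  have a3 : 0 ≤ (K + 1) * t ^ 2 * ε := by positivity
  have a4 : K ≤ (K + 1) ^ 2 := by nlinarith
  have a5 := mul_le_mul_of_nonneg_right a4 (pow_pos ht 4).le
  have a6 := sq_nonneg s
  linarith

theorem s_alg {T K t s : ℝ} (hK : 0 ≤ K) (ht : 0 < t) (c1 : T ≤ K * t ^ 2) (hT : T = 4 * s ^ 2) :
    s ≤ (K + 1) * t := by
  refine (le_abs_self s).trans (abs_le_of_sq_le_sq ?_ (by positivity))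
  have a2 : K ≤ (K + 1) ^ 2 := by nlinarith
  have a3 := mul_le_mul_of_nonneg_right a2 (sq_nonneg t)
  have a4 := sq_nonneg s
  linarith

theorem sq_le_e {t e : ℝ} (ht : 0 < t) (h : t < 2 * e) (h8 : e ≤ 1 / 8) : t ^ 2 ≤ e := by nlinarith

theorem i1b (hY : YBStmt n) (hK : SKData yy HH K θ eK CK) (hK0 : 0 ≤ K) {β : ℝ} (hβ0 : 0 ≤ β)
    (hβ1 : β < 1) : ∃ c : ℝ, 0 < c ∧ ∀ (v : EE n → ℝ) (P : Prof) (om m : EE n → ℝ) (e ε lam M : ℝ),
      Pos v → Wt lam om → 0 < e → e ≤ 1 / 8 → 0 < ε → ε ≤ e → NW M v m →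
      ∫ x, P.F (yb v ε x) * (gg e v om x ^ 2 * m x) ≤ c * e * DD yy m e ε v P om +
        c * M * e * TT β v P om + c * M * P.F ε * MU v om := by
  obtain ⟨Ky, hKy, Hy⟩ := hK.yy_le
  obtain ⟨Kb, hKb, Hb⟩ := hY
  obtain ⟨Kg, hKg, Hg⟩ := hK.o2.tg.bd4
  set c := 64 * (27 * (2 * Ky + 2 * Kg + 3) + (K + 1) ^ 3) with hc
  have hc1 : 64 * (27 * (2 * Ky + 2 * Kg + 3)) ≤ c := by
    have : 0 ≤ (K + 1) ^ 3 := by positivity
    linarith
  have hc2 : 64 * (K + 1) ^ 3 ≤ c := by linarith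
  have hc3 : 64 ≤ c := by linarith
  clear_value c
  refine ⟨c, by linarith, fun v P om m e ε lam M hv hw he he8 hε hεe hm => ?_⟩
  have hs := hv.toSol
  have hM := hm.M_nonneg hs
  obtain ⟨b1, b2⟩ := Hb v ε hv hε
  refine int_le3 (integ_mul (integ_gg_sq hs hw) (P.cont b1.continuous fun x => (b2 x).1.le) hm.cont
    (a := P.F (Kb * 2)) (fun x => ?_) (hm.abs_le hs)) (hK.int_DD hs P hw hε hm)
    (integ_TT hs hβ0 P hw) (integ_MU hs hw) fun x => ?_
  · rw [abs_of_pos (P.pos _ (b2 x).1)]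
    exact P.mono (b2 x).1.le ((b2 x).2.1.trans (mul_le_mul_of_nonneg_left
      (by linarith [tt_le_one v x]) (by linarith)))
  have ht := hv.tpos x
  have ho := hw.pos x
  have hF := P.pos _ (mul_pos (pb_pos hs β x) ht)
  have hE := P.pos _ hε
  have hYp := hK.Y_pos hs hε x
  have hm0 := hm.nonneg x
  have hc0 : 0 ≤ c := by linarith
  have hD := hK.DD_ge hs P hε x
  by_cases hg : gg e v om x = 0
  · rw [hg]
    simp only [ne_eq, OfNat.ofNat_ne_zero, not_false_eq_true, zero_pow, zero_mul, mul_zero]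
    positivity
  have hte := lt_of_gg he hg
  have c1 := hK.cmp' v hs x (by linarith)
  have c0 := tg_nonneg v (yy v) x
  have c2 := gg_sq_le (e := e) (v := v) hw x
  obtain ⟨s, hs0, hss⟩ : ∃ s, 0 ≤ s ∧ tg v (yy v) x = 4 * s ^ 2 :=
    ⟨√(tg v (yy v) x) / 2, by positivity, by rw [div_pow, Real.sq_sqrt c0]; ring⟩
  have d1 : yb v ε x ≤ 3 * s + (K + 1) * tt v x ^ 2 + ε := yb_alg hK0 ht hs0 hε c1 hss
  have d2 : s ≤ (Kg + 1) * tt v x := s_alg hKg ht ((le_abs_self _).trans (Hg v hs x)) hss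
  have d3 : yy v x + ε + s ≤ (2 * Ky + 2 * Kg + 3) * e := by
    have a1 := mul_le_mul_of_nonneg_left hte.le (show 0 ≤ Ky + Kg + 1 by positivity)
    linarith [Hy v hs x]
  have d4 : P.F s ≤ (2 * Ky + 2 * Kg + 3) * e * (P.p (yy v x + ε) ^ 2 * P.W (yy v x + ε) *
      (tg v (yy v) x / (4 * (yy v x + ε)))) := by
    have hW := P.W_pos hYp
    have a1 : 1 ≤ P.p (yy v x + ε) ^ 2 := one_le_pow₀ (P.one_le_p hYp)
    refine (P.F_le_W_mul hYp hs0).trans ?_
    rw [hss, mul_div_mul_left _ _ four_ne_zero, mul_comm ((2 * Ky + 2 * Kg + 3) * e)]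
    gcongr
    exact le_mul_of_one_le_left hW.le a1
  have d5 := P.le_of_le_mul (K := 3) (a := 3 * s) (by norm_num) (by positivity) hs0 le_rfl
  have d6 := P.le_of_le_small (K := K + 1) (s := tt v x) (a := (K + 1) * tt v x ^ 2) (b := tt v x)
    (by linarith) ht.le (tt_le_one v x) (by positivity) ht.le (by rw [pow_two])
  have d7 := sq_le_e ht hte he8
  have hFt := P.pos _ ht
  have d8 : P.F ((K + 1) * tt v x ^ 2) ≤ (K + 1) ^ 3 * e * P.F (tt v x) :=
    d6.trans (by gcongr)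
  have d9 := (P.mono (b2 x).1.le d1).trans (P.add3_le (by positivity) (by positivity) hε.le)
  set D := P.p (yy v x + ε) ^ 2 * P.W (yy v x + ε) * (tg v (yy v) x / (4 * (yy v x + ε)))
  have f1 : P.F (yb v ε x) ≤ c * e * D + c * e * P.F (tt v x) + c * P.F ε := by
    have a1 := mul_le_mul_of_nonneg_right hc1 (mul_nonneg he.le hD)
    have a2 := mul_le_mul_of_nonneg_right hc2 (mul_pos he hFt).le
    have a3 := mul_le_mul_of_nonneg_right hc3 hE.le
    linarith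
  have f2 := mul_le_mul_of_nonneg_right f1 (mul_nonneg (sq_nonneg (gg e v om x)) hm0)
  have f3 : P.F (tt v x) * (gg e v om x ^ 2 * m x) ≤ M * (P.F (pb β v x * tt v x) * om x) := by
    calc _ ≤ P.F (tt v x) * (om x * m x) := by gcongr
      _ = P.F (tt v x) * m x * om x := by ring
      _ ≤ M * P.F (pb β v x * tt v x) * om x :=
        mul_le_mul_of_nonneg_right (hm.mul_F hs hβ0 hβ1 P x ht.le) ho.le
      _ = _ := by ring
  have f4 : gg e v om x ^ 2 * m x ≤ om x * (M * psi v x ^ 2) :=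
    mul_le_mul c2 (hm.le_pow hs x (by norm_num)) hm0 ho.le
  have f5 := mul_le_mul_of_nonneg_left f3 (mul_nonneg hc0 he.le)
  have f6 := mul_le_mul_of_nonneg_left f4 (mul_nonneg hc0 hE.le)
  linarith

/-- the mean curvature error is small -/
theorem i1 (h2 : NP2Stmt n) (hY : YBStmt n) (hO : OMStmt n) (hK : SKData yy HH K θ eK CK)
    (hK0 : 0 ≤ K) {β h δ : ℝ} (hβ0 : 0 ≤ β) (hβ1 : β < 1) (hh : 0 < h) (h8 : h ≤ 1 / 8)
    (hδ : 0 < δ) : ∃ e1 lam : ℝ, 0 < e1 ∧ 0 < lam ∧ ∀ e, 0 < e → e ≤ e1 → ∃ C : ℝ, 0 ≤ C ∧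
      ∀ (v : EE n → ℝ) (P : Prof) (om : EE n → ℝ) (ε : ℝ), Pos v → Wt lam om → 0 < ε → ε ≤ e →
        I1 yy HH (fun x => mh h (dd v x)) e ε v P om ≤
          δ * DD yy (fun x => mh h (dd v x)) e ε v P om + δ * TT β v P om +
            C * RR β e ε v P om := by
  obtain ⟨ca, hca, Ha⟩ := i1a hK hK0 hβ0 hβ1
  obtain ⟨cb, hcb, Hb⟩ := i1b hY hK hK0 hβ0 hβ1
  obtain ⟨Kb, hKb, HY⟩ := hY
  obtain ⟨M, hM⟩ : ∃ M, M = 16 / h := ⟨_, rfl⟩
  have hM1 : 1 ≤ M := by rw [hM, le_div_iff₀ hh]; linarith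
  have hM0 : 0 < M := by linarith
  obtain ⟨C0, eO, lO, hC0, heO, hlO, HO⟩ := hO β (δ / (4 * (ca * M))) hβ0 hβ1 (by positivity)
  obtain ⟨eb, lb, heb, hlb, H2⟩ := np2_mh h2 (K := Kb) (δ := δ / (4 * (ca * M * (C0 + 1))))
    hβ0 hβ1 hh h8 (by positivity)
  refine ⟨min (min eO eb) (min (1 / 8) (δ / (4 * (ca * M * (1 + C0 * (cb * M)))))), min lO lb,
    by positivity, by positivity, fun e he hee => ?_⟩
  simp only [le_min_iff] at hee
  obtain ⟨CO, hCO, HO⟩ := HO e he hee.1.1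
  obtain ⟨Cb, hCb, H2⟩ := H2 e he hee.1.2
  refine ⟨ca * M * (1 + CO + C0 * (Cb + cb * M)), by positivity, fun v P om ε hv hw hε hεe => ?_⟩
  have hs := hv.toSol
  have hε1 : ε ≤ 1 := by linarith [hee.2.1]
  have hm := nw_mh hs hh h8
  rw [← hM] at hm
  have k1 := Ha v P om _ e ε _ M hv hw he hee.2.1 hε hε1 hm
  have k2 := HO v P om ε hv (hw.mono (min_le_left _ _)) hε hε1
  obtain ⟨b1, b2⟩ := HY v ε hv hε
  have k3 := H2 v P om (yb v ε) ε hv (hw.mono (min_le_right _ _)) b1 hε hε1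
    (fun x => ⟨(b2 x).1, (b2 x).2.1⟩) fun x _ => (b2 x).2.2.1
  have k4 := Hb v P om _ e ε _ M hv hw he hee.2.1 hε hεe hm
  obtain ⟨r1, r2, r3⟩ := RR_ge (β := β) (e := e) hs P hw hε
  have hT := TT_nonneg (β := β) hs P hw
  have hD := hK.DD_nonneg (e := e) (om := om) hs P hε hm
  have q1 : ca * M * (δ / (4 * (ca * M))) = δ / 4 := by field_simp
  have q2 : ca * M * C0 * (δ / (4 * (ca * M * (C0 + 1)))) ≤ δ / 4 := by
    rw [← mul_div_assoc, div_le_div_iff₀ (by positivity) (by positivity)]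
    have : 0 ≤ δ * (ca * M) := by positivity
    linarith
  have q3 : ca * M * (1 + C0 * (cb * M)) * e ≤ δ / 4 := by
    have := (le_div_iff₀ (by positivity)).1 hee.2.2
    linarith
  have q4 : ca * M * C0 * cb * e ≤ δ := by
    have a1 : 0 ≤ ca * M * e := by positivity
    have a2 := mul_le_mul_of_nonneg_left hM1 (show 0 ≤ ca * M * C0 * cb * e by positivity)
    linarith
  rw [RR]
  rw [mul_assoc (ca * M) (P.F ε)] at k1
  rw [mul_assoc (cb * M) (P.F ε)] at k4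
  generalize P.F ε * MU v om = E at *
  generalize δ / (4 * (ca * M)) = δ1 at *
  generalize δ / (4 * (ca * M * (C0 + 1))) = δ2 at *
  have k5 := mul_le_mul_of_nonneg_left k2 (show 0 ≤ ca * M by positivity)
  have k6 := mul_le_mul_of_nonneg_left k3 (show 0 ≤ ca * M * C0 by positivity)
  have k7 := mul_le_mul_of_nonneg_left k4 (show 0 ≤ ca * M * C0 by positivity)
  have m1 := congrArg (· * TT β v P om) q1
  have m2 := mul_le_mul_of_nonneg_right q2 hT
  have m3 := mul_le_mul_of_nonneg_right q3 hT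
  have m4 := mul_le_mul_of_nonneg_right q4 hD
  have p0 : 0 ≤ δ * TT β v P om := by positivity
  have p1 : 0 ≤ ca * M * (BAD β v P om e + LAM v P om) := by positivity
  have p2 : 0 ≤ ca * M * CO * (LAM v P om + E) := by positivity
  have p3 : 0 ≤ ca * M * C0 * Cb * LAM v P om := by positivity
  have p4 : 0 ≤ ca * M * C0 * (cb * M) * (BAD β v P om e + LAM v P om) := by positivity
  linarith

end

end Crest.Agent.N067.Y
end

-- ▼ part N067/Y/X5d
section

/-!
# Row 67, block X5 (helper54): the stability inequality for the SSY test function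
-/

set_option autoImplicit false

open MeasureTheory Laplacian InnerProductSpace Topology Filter Set
open scoped RealInnerProductSpace Gradient ContDiff

namespace Crest.Agent.N067.Y

open Crest.Agent.R077

noncomputable section

variable {n : ℕ} {yy HH : Fam n} {K θ eK CK : ℝ}

/-- `f(a) = √(F(a²) / a²)` as a function of `a²` -/
def Prof.f (P : Prof) (y : ℝ) : ℝ := √(P.F y / y)

theorem Prof.f_sq (P : Prof) {y : ℝ} (hy : 0 < y) : P.f y ^ 2 = P.F y / y :=
  Real.sq_sqrt (div_pos (P.pos y hy) hy).le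

theorem Prof.hd_f (P : Prof) {y : ℝ} (hy : 0 < y) :
    HasDerivAt P.f (P.f y * P.p y / (2 * y)) y := by
  have h0 := div_pos (P.pos y hy) hy
  have h := ((P.hd hy).div (hasDerivAt_id y) hy.ne').sqrt h0.ne'
  refine h.congr_deriv ?_
  have h1 : 0 < P.f y := Real.sqrt_pos.2 h0
  have h2 := P.f_sq hy
  change (deriv P.F y * y - P.F y * 1) / y ^ 2 / (2 * P.f y) = _
  rw [P.deriv_eq hy, div_eq_div_iff (by positivity) (by positivity)]
  have h3 : P.F y = P.f y ^ 2 * y := by rw [h2]; field_simp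
  rw [h3]
  field_simp
  ring

/-- the SSY test function -/
def zz (yy : Fam n) (e ε : ℝ) (v : EE n → ℝ) (P : Prof) (om : EE n → ℝ) (x : EE n) : ℝ :=
  P.f (yy v x + ε) * gg e v om x

section zz

variable {v om m : EE n → ℝ} {lam β e ε M : ℝ}

theorem SKData.f_cd (hK : SKData yy HH K θ eK CK) (hv : Sol v) (P : Prof) (hε : 0 < ε) :
    ContDiff ℝ 1 fun x => P.f (yy v x + ε) :=
  ((P.cd_comp (hK.Y_cd hv ε) (hK.Y_pos hv hε)).div (hK.Y_cd hv ε)
    fun x => (hK.Y_pos hv hε x).ne').sqrt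
    fun x => (div_pos (P.pos _ (hK.Y_pos hv hε x)) (hK.Y_pos hv hε x)).ne'

theorem SKData.zz_cd (hK : SKData yy HH K θ eK CK) (hv : Sol v) (P : Prof) (hw : Wt lam om)
    (hε : 0 < ε) : ContDiff ℝ 1 (zz yy e ε v P om) := (hK.f_cd hv P hε).mul (gg_cd hv hw)

theorem SKData.zz_sq (hK : SKData yy HH K θ eK CK) (hv : Sol v) (P : Prof) (hε : 0 < ε)
    (x : EE n) : zz yy e ε v P om x ^ 2 = P.F (yy v x + ε) / (yy v x + ε) * gg e v om x ^ 2 := by
  rw [zz, mul_pow, P.f_sq (hK.Y_pos hv hε x)]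

/-- the gradient of the test function -/
theorem SKData.pdv_zz (hK : SKData yy HH K θ eK CK) (hv : Sol v) (P : Prof) (hw : Wt lam om)
    (hε : 0 < ε) (x : EE n) : ∃ a b : ℝ,
      a ^ 2 = P.p (yy v x + ε) ^ 2 * P.W (yy v x + ε) / (4 * (yy v x + ε)) * gg e v om x ^ 2 ∧
      b ^ 2 = P.F (yy v x + ε) / (yy v x + ε) ∧
      ∀ i, pdv i (zz yy e ε v P om) x = a * pdv i (yy v) x + b * pdv i (gg e v om) x := by
  have hY := hK.Y_pos hv hε x
  refine ⟨P.f (yy v x + ε) * P.p (yy v x + ε) / (2 * (yy v x + ε)) * gg e v om x,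
    P.f (yy v x + ε), ?_, P.f_sq hY, fun i => ?_⟩
  · rw [mul_pow, div_pow, mul_pow, P.f_sq hY, Prof.W]
    field_simp
    ring
  · have h1 := pdv_comp (f := fun y => yy v y + ε) (P.hd_f hY)
      ((hK.Y_cd hv ε).differentiable (by simp) x) i
    have h2 := pdv_mul ((hK.f_cd hv P hε).differentiable (by simp) x)
      ((gg_cd (e := e) hv hw).differentiable (by simp) x) i
    rw [h1, pdv_add_const] at h2
    refine h2.trans ?_
    ring

theorem sq_add_le {a b η : ℝ} (hη : 0 < η) :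
    (a + b) ^ 2 ≤ (1 + η) * a ^ 2 + (1 + 1 / η) * b ^ 2 := by
  have h : 0 ≤ (η * a - b) ^ 2 / η := by positivity
  have e : (η * a - b) ^ 2 / η = η * a ^ 2 - 2 * a * b + 1 / η * b ^ 2 := by field_simp; ring
  linarith

theorem tg_comb {z f g : EE n → ℝ} {a b η : ℝ} {x : EE n} (hη : 0 < η)
    (h : ∀ i, pdv i z x = a * pdv i f x + b * pdv i g x) :
    tg v z x ≤ (1 + η) * (a ^ 2 * tg v f x) + (1 + 1 / η) * (b ^ 2 * tg v g x) := by
  have key : 2 * tg v z x ≤ (1 + η) * a ^ 2 * (2 * tg v f x) + (1 + 1 / η) * b ^ 2 * (2 * tg v g x) := by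
    simp only [tg_eq_wg, Finset.mul_sum, ← Finset.sum_add_distrib]
    refine Finset.sum_le_sum fun i _ => Finset.sum_le_sum fun j _ => ?_
    have e : wg v z i j x = a * wg v f i j x + b * wg v g i j x := by
      simp only [wg, h]; ring
    rw [e]
    have := sq_add_le (a := a * wg v f i j x) (b := b * wg v g i j x) hη
    linarith
  linarith

theorem gsq_comb {z f g : EE n → ℝ} {a b : ℝ} {x : EE n}
    (h : ∀ i, pdv i z x = a * pdv i f x + b * pdv i g x) :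
    gsq z x ≤ 2 * (a ^ 2 * gsq f x) + 2 * (b ^ 2 * gsq g x) := by
  simp only [gsq, Finset.mul_sum, ← Finset.sum_add_distrib, h]
  exact Finset.sum_le_sum fun i _ => by nlinarith [sq_nonneg (a * pdv i f x - b * pdv i g x)]

theorem gin_comb {u z f g : EE n → ℝ} {a b : ℝ} {x : EE n}
    (h : ∀ i, pdv i z x = a * pdv i f x + b * pdv i g x) :
    gin u z x = a * gin u f x + b * gin u g x := by
  simp only [gin, Finset.mul_sum, ← Finset.sum_add_distrib, h]
  exact Finset.sum_congr rfl fun i _ => by ring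

theorem nor_sq_le (hv : Sol v) (f : EE n → ℝ) (x : EE n) : gin (dd v) f x ^ 2 ≤ gsq f x :=
  (gin_sq_le _ _ x).trans (mul_le_of_le_one_left (gsq_nonneg f x) (hv.gsq_dd_le x))

theorem SKData.int_zz_sq (hK : SKData yy HH K θ eK CK) (hv : Sol v) (P : Prof) (hw : Wt lam om)
    (hε : 0 < ε) : Integrable fun x => zz yy e ε v P om x ^ 2 := by
  obtain ⟨B, hB⟩ := hK.Y_bd hv ε
  have hY := hK.Y_pos hv hε
  refine hw.integ' ((hK.zz_cd hv P hw hε).continuous.pow 2).aestronglyMeasurable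
    (M := P.W B * B) fun x => ?_
  have hB0 := (hY x).trans_le (hB x)
  rw [abs_of_nonneg (sq_nonneg _), hK.zz_sq hv P hε, P.div_eq (hY x)]
  exact mul_le_mul (mul_le_mul (P.W_mono (hY x) (hB x)) (hB x) (hY x).le (P.W_pos hB0).le)
    (gg_sq_le hw x) (sq_nonneg _) (mul_pos (P.W_pos hB0) hB0).le

theorem SKData.int_gsq_zz (hK : SKData yy HH K θ eK CK) (hv : Sol v) (P : Prof) (hw : Wt lam om)
    (hε : 0 < ε) : Integrable (gsq (zz yy e ε v P om)) := by
  obtain ⟨B, hB⟩ := hK.Y_bd hv ε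
  obtain ⟨C, hC0, hC⟩ := hK.o2.gsq.bd0
  obtain ⟨G, hG⟩ := gsq_gg_bd hv hw e
  have hY := hK.Y_pos hv hε
  refine hw.integ' (cont_gsq (hK.zz_cd hv P hw hε)).aestronglyMeasurable
    (M := 2 * ((3 / 2) ^ 2 * P.W B / (4 * ε) * C) + 2 * (P.W B * B * G)) fun x => ?_
  have hB0 := (hY x).trans_le (hB x)
  have hWB := P.W_pos hB0
  have hW := P.W_pos (hY x)
  have ho := hw.pos x
  obtain ⟨a, b, ha, hb, h⟩ := hK.pdv_zz (e := e) hv P hw hε x
  rw [abs_of_nonneg (gsq_nonneg _ _)]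
  refine (gsq_comb h).trans ?_
  have c1 : a ^ 2 ≤ (3 / 2) ^ 2 * P.W B / (4 * ε) * om x := by
    rw [ha]
    have := P.one_le_p (hY x)
    gcongr
    · exact P.p_le (hY x)
    · exact P.W_mono (hY x) (hB x)
    · linarith [hK.nonneg v hv x]
    · exact gg_sq_le hw x
  have c2 : b ^ 2 ≤ P.W B * B := by
    rw [hb, P.div_eq (hY x)]
    exact mul_le_mul (P.W_mono (hY x) (hB x)) (hB x) (hY x).le hWB.le
  have c3 := mul_le_mul c1 ((le_abs_self _).trans (hC v hv x)) (gsq_nonneg _ _) (by positivity)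
  have c4 := mul_le_mul c2 (hG x) (gsq_nonneg _ _) (by positivity)
  linarith

end zz

theorem aa_le (hK : SKData yy HH K θ eK CK) (hK0 : 0 ≤ K) {β : ℝ} (hβ0 : 0 ≤ β) (hβ1 : β < 1) :
    ∃ c : ℝ, 0 < c ∧ ∀ (v : EE n → ℝ) (P : Prof) (om : EE n → ℝ) (e ε lam : ℝ), Sol v →
      Wt lam om → 0 < ε → ε ≤ 1 → AA yy (fun x => psi v x ^ 8) e ε v P om ≤
        c * TT β v P om + c * P.F ε * MU v om := by
  obtain ⟨K', hK', Ha⟩ := hK.adm hK0
  refine ⟨8 * K' ^ 3, by positivity, fun v P om e ε lam hs hw hε hε1 => ?_⟩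
  refine int_le2 (hK.int_AA hs P hw hε (nw_psi hs)) (integ_TT hs hβ0 P hw) (integ_MU hs hw)
    fun x => ?_
  have ht := hs.tt_nonneg x
  have ho := hw.pos x
  have hψ := hs.psi_pos x
  have c1 := P.le_of_le_mul hK' (hK.Y_pos hs hε x).le (by positivity) (Ha v ε hs hε hε1 x).2.1
  have c2 := P.add_le ht hε.le
  have c3 := (nw_psi hs).mul_F hs hβ0 hβ1 P x ht
  have c4 := psi8_le hs x (k := 2) (by norm_num)
  have c5 := gg_sq_le (e := e) (v := v) hw x
  have hE := P.pos _ hε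
  have hFt := P.nonneg ht
  calc _ ≤ K' ^ 3 * (8 * (P.F (tt v x) + P.F ε)) * (om x * psi v x ^ 8) := by
        gcongr
        exact c1.trans (by gcongr)
    _ = 8 * K' ^ 3 * (P.F (tt v x) * psi v x ^ 8 * om x) +
        8 * K' ^ 3 * P.F ε * (psi v x ^ 8 * om x) := by ring
    _ ≤ _ := by gcongr; linarith

/-- the left side of ST -/
theorem s3a (hK : SKData yy HH K θ eK CK) (hK0 : 0 ≤ K) {β η : ℝ} (hβ0 : 0 ≤ β) (hβ1 : β < 1)
    (hη : 0 < η) (hη1 : η ≤ 1) : ∃ c : ℝ, 0 < c ∧ ∀ (v : EE n → ℝ) (P : Prof) (om m : EE n → ℝ)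
      (e ε lam M : ℝ), Pos v → Wt lam om → 0 < e → e ≤ 1 / 8 → 0 < ε → NW M v m →
      (1 - η) * AA yy m e ε v P om ≤ 1 * (∫ x, hsq (dd v) x * zz yy e ε v P om x ^ 2 * m x) +
        c * M * e * TT β v P om + c * M * P.F ε * MU v om := by
  obtain ⟨Kt, hKt, Ht⟩ := (Ord.hsq2 (n := n)).bd0
  refine ⟨8 * (K + 1) ^ 3 / η ^ 2, by positivity, fun v P om m e ε lam M hv hw he he8 hε hm => ?_⟩
  have hs := hv.toSol
  have hM := hm.M_nonneg hs
  rw [AA, ← integral_const_mul]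
  refine int_le3 ((hK.int_AA hs P hw hε hm).const_mul _) ?_ (integ_TT hs hβ0 P hw)
    (integ_MU hs hw) fun x => ?_
  · simp only [mul_assoc]
    exact integ_mul (hK.int_zz_sq hs P hw hε) hs.hsq_sm.continuous hm.cont (Ht v hs) (hm.abs_le hs)
  have ht := hv.tpos x
  have ho := hw.pos x
  have hF := P.pos _ (mul_pos (pb_pos hs β x) ht)
  have hE := P.pos _ hε
  have hY := hK.Y_pos hs hε x
  have hm0 := hm.nonneg x
  have hb := hsq_nonneg (dd v) x
  rw [hK.zz_sq hs P hε]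
  by_cases hg : gg e v om x = 0
  · rw [hg]
    simp only [ne_eq, OfNat.ofNat_ne_zero, not_false_eq_true, zero_pow, zero_mul, mul_zero]
    positivity
  have hte := lt_of_gg he hg
  have c1 := (abs_le.1 (hK.cmp v hs x (by linarith))).2
  have c2 := gg_sq_le (e := e) (v := v) hw x
  have c3 := P.young (s := K * tt v x ^ 2 + ε) hY (by positivity) hη hη1
  have c4 := P.add_le (a := K * tt v x ^ 2) (b := ε) (by positivity) hε.le
  have c5 := P.le_of_le_small (K := K + 1) (s := tt v x) (a := K * tt v x ^ 2) (b := tt v x)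
    (by linarith) ht.le (tt_le_one v x) (by positivity) ht.le (by nlinarith [sq_nonneg (tt v x)])
  have c6 := sq_le_e ht hte he8
  have hFt := P.pos _ ht
  have c7 : P.F (K * tt v x ^ 2) ≤ (K + 1) ^ 3 * e * P.F (tt v x) := c5.trans (by gcongr)
  have c8 : P.F ε ≤ (K + 1) ^ 3 * P.F ε :=
    le_mul_of_one_le_left hE.le (one_le_pow₀ (by linarith))
  have c9 : P.F (K * tt v x ^ 2 + ε) / η ^ 2 ≤
      8 * (K + 1) ^ 3 / η ^ 2 * (e * P.F (tt v x) + P.F ε) := by
    rw [div_mul_eq_mul_div]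
    exact div_le_div_of_nonneg_right (by linarith) (sq_nonneg η)
  have hq : 0 < P.F (yy v x + ε) / (yy v x + ε) := div_pos (P.pos _ hY) hY
  have d0 : P.F (yy v x + ε) = P.F (yy v x + ε) / (yy v x + ε) * (yy v x + ε) :=
    (div_mul_cancel₀ _ hY.ne').symm
  have d1 := mul_le_mul_of_nonneg_left
    (show yy v x + ε ≤ hsq (dd v) x + (K * tt v x ^ 2 + ε) by linarith) hq.le
  have hc : 0 ≤ 8 * (K + 1) ^ 3 / η ^ 2 := by positivity
  generalize 8 * (K + 1) ^ 3 / η ^ 2 = c at c9 hc ⊢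
  have d2 : (1 - η) * P.F (yy v x + ε) ≤ hsq (dd v) x * (P.F (yy v x + ε) / (yy v x + ε)) +
      c * (e * P.F (tt v x) + P.F ε) := by linarith
  have f2 := mul_le_mul_of_nonneg_right d2 (mul_nonneg (sq_nonneg (gg e v om x)) hm0)
  have f3 : P.F (tt v x) * (gg e v om x ^ 2 * m x) ≤ M * (P.F (pb β v x * tt v x) * om x) := by
    calc _ ≤ P.F (tt v x) * (om x * m x) := by gcongr
      _ = P.F (tt v x) * m x * om x := by ring
      _ ≤ M * P.F (pb β v x * tt v x) * om x :=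
        mul_le_mul_of_nonneg_right (hm.mul_F hs hβ0 hβ1 P x ht.le) ho.le
      _ = _ := by ring
  have f4 : gg e v om x ^ 2 * m x ≤ om x * (M * psi v x ^ 2) :=
    mul_le_mul c2 (hm.le_pow hs x (by norm_num)) hm0 ho.le
  have f5 := mul_le_mul_of_nonneg_left f3 (mul_nonneg hc he.le)
  have f6 := mul_le_mul_of_nonneg_left f4 (mul_nonneg hc hE.le)
  linarith

/-- the tangential gradient of the test function -/
theorem s3b (hK : SKData yy HH K θ eK CK) {η : ℝ} (hη : 0 < η) {v om m : EE n → ℝ} (P : Prof)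
    {e ε lam M : ℝ} (hs : Sol v) (hw : Wt lam om) (hε : 0 < ε) (hm : NW M v m) :
    ∫ x, tg v (zz yy e ε v P om) x * m x ≤
      (1 + η) * DD yy m e ε v P om + (1 + 1 / η) * I2 yy m e ε v P om := by
  refine int_le2 (Integrable.mul_bdd (c := M) ((hK.int_gsq_zz (e := e) hs P hw hε).mono'
    (cont_tg hs (hK.zz_cd hs P hw hε)).aestronglyMeasurable (ae_of_all _ fun x => ?_))
    hm.cont.aestronglyMeasurable (ae_of_all _ (hm.abs_le hs))) (hK.int_DD hs P hw hε hm)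
    (hK.int_I2 hs P hw hε hm) fun x => ?_
  · rw [Real.norm_eq_abs, abs_of_nonneg (tg_nonneg _ _ _)]
    exact tg_le v _ hs x
  obtain ⟨a, b, ha, hb, h⟩ := hK.pdv_zz (e := e) hs P hw hε x
  have c1 := tg_comb (v := v) hη h
  have c2 := mul_le_mul_of_nonneg_left (mul_le_mul_of_nonneg_left (tg_le v (gg e v om) hs x)
    (sq_nonneg b)) (show 0 ≤ 1 + 1 / η by positivity)
  have c3 := mul_le_mul_of_nonneg_right (c1.trans (add_le_add_right c2 _)) (hm.nonneg x)
  rw [ha, hb] at c3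
  refine c3.trans (le_of_eq ?_)
  ring

/-- the normal derivative of the test function -/
theorem s3c (hK : SKData yy HH K θ eK CK) {β : ℝ} (hβ0 : 0 ≤ β) (hβ1 : β < 1)
    {v om : EE n → ℝ} (P : Prof) {e ε lam : ℝ} (hs : Sol v) (hw : Wt lam om) (he : 0 < e)
    (he8 : e ≤ 1 / 8) (hε : 0 < ε) :
    ∫ x, psi v x ^ 8 * gin (dd v) (zz yy e ε v P om) x ^ 2 ≤
      2 * K ^ 2 * AA yy (fun x => psi v x ^ 8) e ε v P om + 2 * K ^ 2 * TT β v P om +
        2 * I2 yy (fun x => psi v x ^ 8) e ε v P om := by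
  have hm := nw_psi hs
  refine int_le3 (Integrable.bdd_mul (c := 1) ((hK.int_gsq_zz (e := e) hs P hw hε).mono'
    ((cont_gin (hs.dd_cd 1) (hK.zz_cd hs P hw hε)).pow 2).aestronglyMeasurable
    (ae_of_all _ fun x => ?_)) hm.cont.aestronglyMeasurable (ae_of_all _ (hm.abs_le hs)))
    (hK.int_AA hs P hw hε hm) (integ_TT hs hβ0 P hw) (hK.int_I2 hs P hw hε hm) fun x => ?_
  · rw [Real.norm_eq_abs, abs_of_nonneg (sq_nonneg _)]
    exact nor_sq_le hs _ x
  obtain ⟨a, b, ha, hb, h⟩ := hK.pdv_zz (e := e) hs P hw hε x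
  have hY := hK.Y_pos hs hε x
  have ht := hs.tt_nonneg x
  have hψ := hs.psi_pos x
  have ho := hw.pos x
  have hW := P.W_pos hY
  have c1 : a ^ 2 * gin (dd v) (yy v) x ^ 2 ≤
      K ^ 2 * ((P.F (yy v x + ε) + P.F (tt v x)) * gg e v om x ^ 2) := by
    rw [ha]
    by_cases hg : gg e v om x = 0
    · simp [hg]
    have d1 := hK.nor v hs x (by linarith [lt_of_gg he hg])
    have d2 : gin (dd v) (yy v) x ^ 2 ≤ K ^ 2 * ((yy v x + ε) * tt v x ^ 2) := by
      refine (sq_le_sq' (abs_le.1 d1).1 (abs_le.1 d1).2).trans ?_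
      rw [mul_pow, mul_pow, Real.sq_sqrt (hK.nonneg v hs x)]
      gcongr
      linarith
    have d3 : P.p (yy v x + ε) ^ 2 ≤ 4 := by nlinarith [P.one_le_p hY, P.p_le hY]
    calc _ ≤ 4 * P.W (yy v x + ε) / (4 * (yy v x + ε)) * gg e v om x ^ 2 *
          (K ^ 2 * ((yy v x + ε) * tt v x ^ 2)) := by gcongr
      _ = K ^ 2 * (P.W (yy v x + ε) * tt v x ^ 2 * gg e v om x ^ 2) := by field_simp
      _ ≤ _ := by gcongr; exact P.youngW1 hY ht
  have c2 := mul_le_mul_of_nonneg_left (nor_sq_le hs (gg e v om) x) (sq_nonneg b)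
  have c3 : gin (dd v) (zz yy e ε v P om) x ^ 2 ≤
      2 * (K ^ 2 * ((P.F (yy v x + ε) + P.F (tt v x)) * gg e v om x ^ 2)) +
        2 * (b ^ 2 * gsq (gg e v om) x) := by
    rw [gin_comb h]
    nlinarith [sq_nonneg (a * gin (dd v) (yy v) x - b * gin (dd v) (gg e v om) x)]
  have c4 := mul_le_mul_of_nonneg_left c3 (hm.nonneg x)
  have c5 : P.F (tt v x) * psi v x ^ 8 * gg e v om x ^ 2 ≤ P.F (pb β v x * tt v x) * om x :=
    mul_le_mul (by simpa using hm.mul_F hs hβ0 hβ1 P x ht) (gg_sq_le hw x) (sq_nonneg _)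
      (P.nonneg (mul_nonneg (pb_pos hs β x).le ht))
  have c6 := mul_le_mul_of_nonneg_left c5 (sq_nonneg K)
  rw [hb] at c4
  linarith

end

end Crest.Agent.N067.Y
end

-- ▼ part N067/Y/X5
section

/-!
# Row 67, block X5 (helper54): assembly `x5_of`, and the model profile
-/

set_option autoImplicit false

open MeasureTheory Laplacian InnerProductSpace Topology Filter Set
open scoped RealInnerProductSpace Gradient ContDiff

namespace Crest.Agent.N067.Y

open Crest.Agent.R077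

noncomputable section

variable {n : ℕ} {yy HH : Fam n} {K θ eK CK : ℝ}

/-- stability for the SSY test function -/
theorem s3 (hS : STStmt n) (hK : SKData yy HH K θ eK CK) (hK0 : 0 ≤ K) {β η δ : ℝ} (hβ0 : 0 ≤ β)
    (hβ1 : β < 1) (hη : 0 < η) (hη1 : η ≤ 1) (hδ : 0 < δ) :
    ∃ h e1 lam : ℝ, 0 < h ∧ h ≤ 1 / 8 ∧ 0 < e1 ∧ 0 < lam ∧ ∀ e, 0 < e → e ≤ e1 → ∃ C : ℝ, 0 ≤ C ∧
      ∀ (v : EE n → ℝ) (P : Prof) (om : EE n → ℝ) (ε : ℝ), Pos v → Stable v → Wt lam om → 0 < ε →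
        ε ≤ 1 → (1 - η) * AA yy (fun x => mh h (dd v x)) e ε v P om ≤
          (1 + η) ^ 2 * DD yy (fun x => mh h (dd v x)) e ε v P om +
            (1 + η) * (1 + 1 / η) * I2 yy (fun x => mh h (dd v x)) e ε v P om +
              δ * TT β v P om + C * RR β e ε v P om := by
  obtain ⟨ca, hca, Ha⟩ := aa_le hK hK0 hβ0 hβ1
  obtain ⟨cb, hcb, Hb⟩ := s3a hK hK0 hβ0 hβ1 hη hη1
  obtain ⟨δ6, hδ6⟩ : ∃ δ6, δ6 = δ / (2 * ((2 * K ^ 2 + 3) * ca + 2 * K ^ 2 + 1)) := ⟨_, rfl⟩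
  have hδ60 : 0 < δ6 := by rw [hδ6]; positivity
  have q1 : δ6 * ((2 * K ^ 2 + 3) * ca + 2 * K ^ 2 + 1) = δ / 2 := by rw [hδ6]; field_simp
  obtain ⟨h, eS, lS, hh, h8, heS, hlS, HS⟩ := hS β η δ6 hβ0 hβ1 hη hδ60
  obtain ⟨M, hM⟩ : ∃ M, M = 16 / h := ⟨_, rfl⟩
  have hM0 : 0 < M := by rw [hM]; positivity
  refine ⟨h, min (eS / 2) (min (1 / 8) (δ / (2 * (cb * M)))), lS, hh, h8, by positivity, hlS,
    fun e he hee => ?_⟩
  simp only [le_min_iff] at hee
  obtain ⟨C2, hC2, H2⟩ := i2 hK hK0 hβ0 hβ1 (M := 1) zero_le_one one_pos le_rfl he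
  refine ⟨cb * M + δ6 * ((2 * K ^ 2 + 3) * ca + 2 * C2), by positivity,
    fun v P om ε hv hst hw hε hε1 => ?_⟩
  have hs := hv.toSol
  have hm := nw_mh hs hh h8
  rw [← hM] at hm
  have hY := hK.Y_pos hs hε
  obtain ⟨B, hB⟩ := hK.Y_bd hs ε
  have k0 := HS v P om (zz yy e ε v P om) (fun x => P.F (yy v x + ε) * cut e v x ^ 2) (P.F B) hv hst
    hw (hK.zz_cd hs P hw hε) (fun x hx => by rw [zz, gg_zero he (by linarith [hee.1]), mul_zero])
    (hK.int_zz_sq hs P hw hε) (hK.int_gsq_zz hs P hw hε)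
    ((P.cont (hK.Y_cd hs ε).continuous fun x => (hY x).le).mul ((cut_cont hs e).pow 2))
    (fun x => ⟨mul_nonneg (P.pos _ (hY x)).le (sq_nonneg _),
      (mul_le_of_le_one_right (P.pos _ (hY x)).le (cut_sq_le_one e v x)).trans
        (P.mono (hY x).le (hB x))⟩) fun x s hs0 => by
      rw [hK.zz_sq hs P hε, gg_sq hw]
      have a1 := mul_le_mul_of_nonneg_right (P.young1 (hY x) hs0.le)
        (mul_nonneg (sq_nonneg (cut e v x)) (hw.pos x).le)
      have a2 := mul_le_mul_of_nonneg_right (cut_sq_le_one e v x)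
        (mul_pos (P.pos s hs0) (hw.pos x)).le
      linarith
  have e0 : ∫ x, psi v x ^ 8 * (P.F (yy v x + ε) * cut e v x ^ 2) * om x =
      AA yy (fun x => psi v x ^ 8) e ε v P om :=
    integral_congr_ae (ae_of_all _ fun x => by simp only [gg_sq hw]; ring)
  rw [e0] at k0
  have k1 := Hb v P om _ e ε _ M hv hw he hee.2.1 hε hm
  have k2 := s3b (e := e) hK hη P hs hw hε hm
  have k3 := s3c hK hβ0 hβ1 P hs hw he hee.2.1 hε
  have k4 := H2 v P om _ ε _ hs hw hε hε1 (nw_psi hs)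
  have k5 := Ha v P om e ε _ hs hw hε hε1
  obtain ⟨r1, r2, r3⟩ := RR_ge (β := β) (e := e) hs P hw hε
  have hT := TT_nonneg (β := β) hs P hw
  have q2 : cb * M * e ≤ δ / 2 := by
    have := (le_div_iff₀ (by positivity)).1 hee.2.2
    linarith
  rw [RR] at k4 ⊢
  rw [mul_assoc (cb * M) (P.F ε)] at k1
  rw [mul_assoc ca (P.F ε)] at k5
  generalize P.F ε * MU v om = E at *
  have k6 := mul_le_mul_of_nonneg_left k2 (show 0 ≤ 1 + η by positivity)
  have k7 := mul_le_mul_of_nonneg_left k3 hδ60.le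
  have k8 := mul_le_mul_of_nonneg_left k4 (show 0 ≤ 2 * δ6 by positivity)
  have k9 := mul_le_mul_of_nonneg_left k5 (show 0 ≤ δ6 * (2 * K ^ 2 + 3) by positivity)
  have m1 := congrArg (· * TT β v P om) q1
  have m2 := mul_le_mul_of_nonneg_right q2 hT
  have p1 : 0 ≤ cb * M * (BAD β v P om e + LAM v P om) := by positivity
  have p2 : 0 ≤ δ6 * ((2 * K ^ 2 + 3) * ca) * (BAD β v P om e + LAM v P om) := by positivity
  linarith

theorem x5_num {g : ℝ} (h0 : 0 < g) :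
    g / 2 + (1 + 3 * (g / 20)) * (1 - g + g / 40) + (1 - g / 20) * (g / 10) ≤
      (1 - g / 20) * (1 - g / 20) := by nlinarith

theorem x5_num2 {η : ℝ} (h0 : 0 < η) (h1 : η ≤ 1 / 20) :
    (1 + η) * (1 + 1 / η) ≤ 4 / η ∧ (1 + η) ^ 2 ≤ 1 + 3 * η := by
  refine ⟨?_, by nlinarith⟩
  rw [le_div_iff₀ h0]
  have : (1 + η) * (1 + 1 / η) * η = (1 + η) * (η + 1) := by field_simp
  nlinarith

theorem x5_num3 {g η CK δ3 : ℝ} (hg0 : 0 < g) (hη0 : 0 < η) (hη1 : η ≤ 1 / 20) (hCK : 0 ≤ CK)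
    (h3 : δ3 = g * η / (40 * (CK + 1))) : 0 < δ3 ∧ CK * δ3 ≤ g / 40 ∧ 4 / η * δ3 ≤ g / 10 := by
  have hδ3 : 0 < δ3 := by rw [h3]; positivity
  have q1 : (CK + 1) * δ3 = g * η / 40 := by rw [h3]; field_simp
  refine ⟨hδ3, by nlinarith, ?_⟩
  rw [div_mul_eq_mul_div, div_le_iff₀ hη0]
  nlinarith [mul_nonneg hCK hδ3.le]

theorem x5_alg {θ g η CK δ1 δ3 δ c A D J1 J2 T R C1 C2 C3 C4 : ℝ} (hθ : 0 ≤ θ) (hg : g = 1 - θ)
    (hg0 : 0 < g) (hη : η = g / 20) (hCK : 0 ≤ CK) (hc : 0 < c) (h1 : CK * δ1 ≤ η)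
    (h1' : 4 * (CK * δ1) ≤ g / (8 * c)) (hδ1 : 0 ≤ δ1) (h3 : δ3 = g * η / (40 * (CK + 1)))
    (hδ : δ = g / (8 * c)) (hA : 0 ≤ A) (hD : 0 ≤ D) (hT : 0 ≤ T) (hR : 0 ≤ R)
    (hC1 : 0 ≤ C1) (hC2 : 0 ≤ C2) (hC3 : 0 ≤ C3)
    (k1 : D ≤ θ * A + CK * J1 + CK * J2) (k2 : J1 ≤ δ1 * D + δ1 * T + C1 * R)
    (k3 : J2 ≤ δ3 * A + C2 * R)
    (k4 : (1 - η) * A ≤ (1 + η) ^ 2 * D + (1 + η) * (1 + 1 / η) * J2 + δ * T + C3 * R)
    (k5 : T ≤ c * A + C4 * R) :
    T ≤ 2 * (2 * c / g * (4 * (CK * (C1 + C2)) + 4 / η * C2 + C3) + C4) * R := by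
  have hg1 : g ≤ 1 := by linarith
  have hη0 : 0 < η := by linarith
  have hη1 : η ≤ 1 / 20 := by linarith
  have hδ0 : 0 < δ := by rw [hδ]; positivity
  obtain ⟨hδ3, q2, q3⟩ := x5_num3 hg0 hη0 hη1 hCK h3
  obtain ⟨q4, q6⟩ := x5_num2 hη0 hη1
  have q5 : 0 ≤ (1 + η) * (1 + 1 / η) := by positivity
  have a1 : (1 - η) * D ≤ (θ + g / 40) * A + CK * δ1 * T + CK * (C1 + C2) * R := by
    have b1 := mul_le_mul_of_nonneg_left k2 hCK
    have b2 := mul_le_mul_of_nonneg_left k3 hCK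
    have b3 := mul_le_mul_of_nonneg_right h1 hD
    have b4 := mul_le_mul_of_nonneg_right q2 hA
    linarith
  have a2 : (1 - η) * A ≤ (1 + 3 * η) * D + g / 10 * A + δ * T + (4 / η * C2 + C3) * R := by
    have b1 := mul_le_mul_of_nonneg_left k3 q5
    have b2 := mul_le_mul_of_nonneg_right q4 (show 0 ≤ δ3 * A + C2 * R by positivity)
    have b3 := mul_le_mul_of_nonneg_right q3 hA
    have b4 := mul_le_mul_of_nonneg_right q6 hD
    linarith
  have hX : 0 ≤ 4 / η * C2 + C3 := by positivity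
  have hZ : 0 ≤ CK * (C1 + C2) := by positivity
  have hU : 0 ≤ CK * δ1 := by positivity
  rw [add_assoc (4 * (CK * (C1 + C2)))]
  generalize 4 / η * C2 + C3 = X at a2 hX ⊢
  have a3 : g / 2 * A ≤ (4 * (CK * δ1) + δ) * T + (4 * (CK * (C1 + C2)) + X) * R := by
    generalize CK * (C1 + C2) = Z at a1 hZ
    generalize CK * δ1 = U at a1 hU
    have b1 := mul_le_mul_of_nonneg_left a2 (show 0 ≤ 1 - η by linarith)
    have b2 := mul_le_mul_of_nonneg_left a1 (show 0 ≤ 1 + 3 * η by linarith)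
    have b3 : g / 2 + (1 + 3 * η) * (θ + g / 40) + (1 - η) * (g / 10) ≤ (1 - η) * (1 - η) := by
      rw [hη, show θ = 1 - g by linarith]
      exact x5_num hg0
    have b4 := mul_le_mul_of_nonneg_right b3 hA
    have b5 := mul_le_mul_of_nonneg_right (show 1 + 3 * η ≤ 4 by linarith)
      (show 0 ≤ U * T + Z * R by positivity)
    have b6 := mul_le_mul_of_nonneg_right (show 1 - η ≤ 1 by linarith)
      (show 0 ≤ δ * T + X * R by positivity)
    linarith
  have a4 : (4 * (CK * δ1) + δ) * T ≤ g / (4 * c) * T := by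
    refine mul_le_mul_of_nonneg_right ?_ hT
    have : g / (4 * c) = g / (8 * c) + g / (8 * c) := by field_simp; ring
    linarith
  have a5 := mul_le_mul_of_nonneg_left (a3.trans (add_le_add_left a4 _))
    (show 0 ≤ 2 * c / g by positivity)
  have e1 : 2 * c / g * (g / 2 * A) = c * A := by field_simp
  have e2 : 2 * c / g * (g / (4 * c) * T) = T / 2 := by field_simp; ring
  rw [e1, mul_add, e2] at a5
  linarith

/-- **X5** from its leaves -/
theorem x5_of (h1 : NP1Stmt n) (h2 : NP2Stmt n) (hY : YBStmt n) (hO : OMStmt n) (hSK : SKStmt n)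
    (hS : STStmt n) (h3 : 3 ≤ n) (h8 : n ≤ 8) : X5Stmt n := by
  intro β hβ0 hβ1
  obtain ⟨yy, HH, K, θ, eK, CK, hK0, hθ0, hθ1, heK, hCK, hK⟩ := hSK h3 h8
  obtain ⟨g, hg⟩ : ∃ g, g = 1 - θ := ⟨_, rfl⟩
  have hg0 : 0 < g := by linarith
  obtain ⟨η, hη⟩ : ∃ η, η = g / 20 := ⟨_, rfl⟩
  have hη0 : 0 < η := by linarith
  have hη1 : η ≤ 1 := by linarith
  obtain ⟨c, hc, H1⟩ := s1 h1 h2 hK hK0 hβ0 hβ1
  obtain ⟨h, e3, l3, hh, hh8, he3, hl3, H3⟩ :=
    s3 hS hK hK0 (δ := g / (8 * c)) hβ0 hβ1 hη0 hη1 (by positivity)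
  obtain ⟨e1, l1, he1, hl1, H1⟩ := H1 h hh hh8
  obtain ⟨δ1, hδ1⟩ : ∃ δ1, δ1 = min η (g / (32 * c)) / (CK + 1) := ⟨_, rfl⟩
  have hδ10 : 0 < δ1 := by rw [hδ1]; positivity
  have q1 : CK * δ1 ≤ min η (g / (32 * c)) := by
    rw [hδ1, ← mul_div_assoc, div_le_iff₀ (by positivity)]
    have : 0 < min η (g / (32 * c)) := by positivity
    linarith
  obtain ⟨e2, l2, he2, hl2, H2⟩ := i1 h2 hY hO hK hK0 hβ0 hβ1 hh hh8 hδ10
  obtain ⟨e, he⟩ : ∃ e, e = min (min e1 e2) (min e3 (min (eK / 2) 1)) := ⟨_, rfl⟩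
  have he0 : 0 < e := by rw [he]; positivity
  have hee := he.le
  simp only [le_min_iff] at hee
  obtain ⟨C4, hC4, H1⟩ := H1 e he0 hee.1.1
  obtain ⟨C1, hC1, H2⟩ := H2 e he0 hee.1.2
  obtain ⟨C3, hC3, H3⟩ := H3 e he0 hee.2.1
  have hδ3 : g * η / (40 * (CK + 1)) ≤ 1 := by
    rw [div_le_one (by positivity)]
    nlinarith
  obtain ⟨C2, hC2, H4⟩ := i2 hK hK0 hβ0 hβ1 (M := 16 / h) (δ := g * η / (40 * (CK + 1)))
    (by positivity) (by positivity) hδ3 he0
  obtain ⟨Mh, hMh⟩ := mh_bd hh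
  obtain ⟨C, hC⟩ : ∃ C, C = 2 * (2 * c / g * (4 * (CK * (C1 + C2)) + 4 / η * C2 + C3) + C4) :=
    ⟨_, rfl⟩
  have hC0 : 0 ≤ C := by rw [hC]; positivity
  refine ⟨e, min l1 (min l2 l3), C, he0, by positivity, hC0, fun v P om hv hst hw => ?_⟩
  have hs := hv.toSol
  have key : ∀ ε, 0 < ε → ε ≤ e → TT β v P om ≤ C * RR β e ε v P om := by
    intro ε hε hεe
    have hε1 : ε ≤ 1 := hεe.trans hee.2.2.2
    have hm := nw_mh hs hh hh8
    rw [hC]
    refine x5_alg hθ0 hg hg0 hη hCK hc (q1.trans (min_le_left _ _)) ?_ hδ10.le rfl rfl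
      (hK.AA_nonneg hs P hε hm) (hK.DD_nonneg hs P hε hm) (TT_nonneg hs P hw)
      (RR_nonneg hs P hw hε) hC1 hC2 hC3
      (hK.sim v P ε Mh (mh h) (gg e v om) hs hε hε1 (contDiff_infty.1 (mh_sm h) 1) hMh
        (gg_cd hs hw) (fun x hx => gg_zero he0 (by linarith [hee.2.2.1])) (integ_gg_sq hs hw)
        (integ_gsq_gg hs hw))
      (H2 v P om ε hv (hw.mono ((min_le_right _ _).trans (min_le_left _ _))) hε hεe)
      (H4 v P om _ ε _ hs hw hε hε1 hm)
      (H3 v P om ε hv hst (hw.mono ((min_le_right _ _).trans (min_le_right _ _))) hε hε1)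
      (H1 v P om ε hv (hw.mono (min_le_left _ _)) hε hε1)
    have := q1.trans (min_le_right _ _)
    have e4 : g / (8 * c) = 4 * (g / (32 * c)) := by field_simp; ring
    linarith
  refine le_of_forall_pos_le_add fun τ hτ => ?_
  have hMU := MU_nonneg (v := v) hw
  have hF1 := P.pos 1 one_pos
  obtain ⟨ε, hε⟩ : ∃ ε, ε = min e (τ / (C * (P.F 1 * MU v om) + 1)) := ⟨_, rfl⟩
  have hε0 : 0 < ε := by rw [hε]; positivity
  have hεe : ε ≤ e := hε.le.trans (min_le_left _ _)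
  have hε1 : ε ≤ 1 := hεe.trans hee.2.2.2
  have a1 := (le_div_iff₀ (by positivity)).1 (hε.le.trans (min_le_right _ _))
  have a2 : P.F ε ≤ ε * P.F 1 := by
    have := P.scale_dn hε0.le hε1 zero_le_one
    rw [mul_one] at this
    nlinarith [mul_le_mul_of_nonneg_right hε1 (mul_pos hε0 hF1).le]
  have a3 := mul_le_mul_of_nonneg_left (mul_le_mul_of_nonneg_right a2 hMU) hC0
  have a4 := key ε hε0 hεe
  rw [RR] at a4
  linarith

/-! ### the model profile -/









end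

end Crest.Agent.N067.Y
end

-- ▼ part N067/Y/OM

/-!
# Row 67, block X5 (helper62): the statement OM
-/

set_option autoImplicit false

open MeasureTheory Laplacian InnerProductSpace Topology Filter Set
open scoped RealInnerProductSpace Gradient ContDiff

namespace Crest.Agent.N067.Y

open Crest.Agent.R077

noncomputable section

variable {n : ℕ}

namespace Om

variable {v f g om : EE n → ℝ} {x : EE n} {β lam : ℝ}

theorem ll_mul {a b : ℝ} {l : Fin n} (hf : DifferentiableAt ℝ f x) (hg : DifferentiableAt ℝ g x)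
    (f0 : 0 ≤ f x) (g0 : 0 ≤ g x) (ha : |pdv l f x| ≤ a * f x) (hb : |pdv l g x| ≤ b * g x) :
    |pdv l (fun y => f y * g y) x| ≤ (a + b) * (f x * g x) := by
  rw [pdv_mul hf hg]
  refine (abs_add_le _ _).trans ?_
  rw [abs_mul, abs_mul, abs_of_nonneg f0, abs_of_nonneg g0]
  nlinarith [mul_le_mul_of_nonneg_right ha g0, mul_le_mul_of_nonneg_left hb f0]

theorem ll_pb (hv : Sol v) (h0 : 0 ≤ β) (h1 : β < 1) (l : Fin n) (x : EE n) :
    |pdv l (pb β v) x| ≤ 4 * pb β v x := by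
  have hp := pb_pos hv β x
  have h2 : √2 ≤ 2 := by
    rw [Real.sqrt_le_left (by norm_num)]; norm_num
  rw [pdv_pb hv]
  simp only [abs_mul, abs_neg, abs_of_pos sqrt2_pos, abs_of_pos hp,
    abs_of_nonneg (show 0 ≤ 1 + β by linarith)]
  calc _ ≤ 2 * 2 * 1 * pb β v x * 1 := by
        gcongr
        exacts [by linarith, (hv.lt x).le, hv.abs_pdv_dd_le l x]
    _ = _ := by ring

/-- the weight of the Caccioppoli inequality -/
def VV (β : ℝ) (v : EE n → ℝ) (P : Prof) (om : EE n → ℝ) (x : EE n) : ℝ :=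
  P.W (pb β v x * tt v x) * (pb β v x * pb β v x) * om x

theorem VV_eq (hv : Pos v) (P : Prof) (x : EE n) :
    VV β v P om x = P.F (pb β v x * tt v x) / tt v x ^ 2 * om x := by
  have := (hv.tpos x).ne'
  have := (pb_pos hv.toSol β x).ne'
  rw [VV, Prof.W]
  field_simp

theorem VV_t (hv : Pos v) (P : Prof) (x : EE n) :
    VV β v P om x * tt v x ^ 2 = P.F (pb β v x * tt v x) * om x := by
  have := (hv.tpos x).ne'
  rw [VV_eq hv]
  field_simp

theorem Y_pos (hv : Pos v) (x : EE n) : 0 < pb β v x * tt v x :=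
  mul_pos (pb_pos hv.toSol β x) (hv.tpos x)

theorem VV_nonneg (hv : Pos v) (P : Prof) (hw : Wt lam om) (x : EE n) : 0 ≤ VV β v P om x :=
  mul_nonneg (mul_nonneg (P.W_pos (Y_pos hv x)).le (mul_self_nonneg _)) (hw.pos x).le

theorem VV_cd (hv : Pos v) (P : Prof) (hw : Wt lam om) : ContDiff ℝ 1 (VV β v P om) :=
  ((P.cd_comp_W ((pb_cd hv.toSol β 1).mul (hv.toSol.tt_cd 1)) (Y_pos hv)).mul
    ((pb_cd hv.toSol β 1).mul (pb_cd hv.toSol β 1))).mul hw.cd

theorem VV_integ (hv : Pos v) (h0 : 0 ≤ β) (P : Prof) (hw : Wt lam om) (hf : Continuous f) {C : ℝ}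
    (hb : ∀ x, |f x| ≤ C * tt v x ^ 2) : Integrable fun x => VV β v P om x * f x := by
  refine ((integ_TT hv.toSol h0 P hw).const_mul C).mono'
    ((VV_cd hv P hw).continuous.mul hf).aestronglyMeasurable (ae_of_all _ fun x => ?_)
  rw [Real.norm_eq_abs, abs_mul, abs_of_nonneg (VV_nonneg hv P hw x), ← VV_t hv]
  nlinarith [mul_le_mul_of_nonneg_left (hb x) (VV_nonneg (β := β) hv P hw x)]

theorem gsq_VV (hk : HKStmt n) : ∃ L : ℝ, 0 ≤ L ∧ ∀ (β : ℝ) (v om : EE n → ℝ) (P : Prof), 0 ≤ β →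
    β < 1 → Pos v → Wt 1 om → ∀ x, gsq (VV β v P om) x ≤ L * VV β v P om x ^ 2 := by
  obtain ⟨K, hK, b⟩ := ubd2 (ι := Fin n) fun l => hk.t2.pdv l
  refine ⟨n * (4 + K + (4 + 4) + 1) ^ 2, by positivity, fun β v om P h0 h1 hv hw x => ?_⟩
  have hS := hv.toSol
  have hp := pb_pos hS β x
  have hY := Y_pos (β := β) hv x
  have dp := pb_diff hS β x
  have dY := dp.fun_mul (hS.tt_diff x)
  have dW : DifferentiableAt ℝ (fun y => P.W (pb β v y * tt v y)) x :=
    DifferentiableAt.comp (g := P.W) (f := fun y => pb β v y * tt v y) x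
      (P.hdW hY).differentiableAt dY
  have key : ∀ l, |pdv l (VV β v P om) x| ≤ (4 + K + (4 + 4) + 1) * VV β v P om x := fun l => by
    have a1 : |pdv l (tt v) x| ≤ K * tt v x := le_trans (Finset.single_le_sum
      (f := fun l => |pdv l (tt v) x|) (fun _ _ => abs_nonneg _) (Finset.mem_univ l)) (b v hS x)
    have a2 := ll_mul dp (hS.tt_diff x) hp.le (hv.tpos x).le (ll_pb hS h0 h1 l x) a1
    have a3 : |pdv l (fun y => P.W (pb β v y * tt v y)) x| ≤
        (4 + K) * P.W (pb β v x * tt v x) := by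
      have hW := P.W_pos hY
      have := P.one_le_p hY
      have := P.p_le hY
      rw [pdv_comp (f := fun y => pb β v y * tt v y) (P.hdW hY) dY, abs_mul, abs_mul,
        abs_of_nonneg (show 0 ≤ P.p _ - 1 by linarith), abs_of_pos (div_pos hW hY)]
      calc _ ≤ 1 * (P.W (pb β v x * tt v x) / (pb β v x * tt v x)) *
            ((4 + K) * (pb β v x * tt v x)) := by gcongr; linarith
        _ = _ := by have := (hv.tpos x).ne'; field_simp
    have a4 := ll_mul dp dp hp.le hp.le (ll_pb hS h0 h1 l x) (ll_pb hS h0 h1 l x)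
    have a5 := ll_mul dW (dp.fun_mul dp) (P.W_pos hY).le (mul_self_nonneg _) a3 a4
    exact ll_mul (dW.fun_mul (dp.fun_mul dp)) (hw.diff x)
      (mul_nonneg (P.W_pos hY).le (mul_self_nonneg _)) (hw.pos x).le a5 (hw.abs_pdv l x)
  calc gsq (VV β v P om) x ≤ ∑ _l : Fin n, ((4 + K + (4 + 4) + 1) * VV β v P om x) ^ 2 :=
        Finset.sum_le_sum fun l _ => sq_le_sq' (abs_le.1 (key l)).1 (abs_le.1 (key l)).2
    _ = _ := by simp [mul_pow, mul_assoc]

/-- Caccioppoli + Young -/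
theorem step1 (hk : HKStmt n) {δ : ℝ} (hδ : 0 < δ) : ∃ D : ℝ, 0 ≤ D ∧ ∀ (β : ℝ) (v om u : EE n → ℝ)
    (P : Prof) (M : ℝ), 0 ≤ β → β < 1 → Pos v → Wt 1 om → Continuous u →
    (∀ x, 0 ≤ u x ∧ u x ≤ M ∧ SO v x ≤ u x ^ 2) →
    ∫ x, P.F (pb β v x * tt v x) / tt v x ^ 2 * os v x * om x ≤
      δ * TT β v P om + D * ∫ x, P.F (pb β v x * u x) * om x := by
  obtain ⟨C, hC, hc⟩ := cacc hk
  obtain ⟨L, hL, hl⟩ := gsq_VV hk
  obtain ⟨C1, -, b1⟩ := Ord.os4.bd4 (n := n)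
  choose C2 h2 b2 using fun l => ((o_SO hk).pdv l).bd4
  obtain ⟨σ, hσ, sσ⟩ : ∃ σ : ℝ, 0 < σ ∧ σ * C ≤ δ / 2 := by
    refine ⟨δ / (2 * (C + 1)), by positivity, ?_⟩
    rw [div_mul_eq_mul_div, div_le_div_iff₀ (by positivity) two_pos]
    nlinarith
  set A : ℝ := L + 1 / σ + 1 with hA
  have A0 : 0 < A := by positivity
  obtain ⟨τ, hτ, τ1, sτ⟩ : ∃ τ : ℝ, 0 < τ ∧ τ ≤ 1 ∧ A * τ ^ 2 ≤ δ / 2 := by
    refine ⟨min 1 (δ / 2 / A), by positivity, min_le_left _ _, ?_⟩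
    have h1 : min 1 (δ / 2 / A) ≤ δ / 2 / A := min_le_right _ _
    have h2 : min 1 (δ / 2 / A) ≤ 1 := min_le_left _ _
    have h3 : 0 < min 1 (δ / 2 / A) := by positivity
    rw [le_div_iff₀ A0] at h1
    nlinarith [mul_le_mul_of_nonneg_left h2 (mul_pos h3 A0).le]
  refine ⟨A / τ, by positivity, fun β v om u P M h0 h1 hv hw hu hb => ?_⟩
  have hS := hv.toSol
  have sS := (o_SO hk).sm hS
  have i1 := integ_TT hS h0 P hw
  have i2 := integ_F hS h0 P hw hu fun x => ⟨(hb x).1, (hb x).2.1⟩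
  have e : (fun x => P.F (pb β v x * tt v x) / tt v x ^ 2 * os v x * om x) =
      fun x => VV β v P om x * os v x := funext fun x => by rw [VV_eq hv]; ring
  rw [e, TT, ← integral_const_mul, ← integral_const_mul,
    ← integral_add (i1.const_mul _) (i2.const_mul _)]
  refine div_le' (X := fun l y => VV β v P om y * pdv l (SO v) y)
    (fun l => (VV_cd hv P hw).mul (contDiff_infty.1 (sm_pdv sS l) 1))
    (fun l => VV_integ hv h0 P hw (sm_pdv sS l).continuous (b2 l v hS))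
    (VV_integ hv h0 P hw (Ord.os4.cont hS) (b1 v hS)) ((i1.const_mul _).add (i2.const_mul _))
    fun x => ?_
  have V0 := VV_nonneg (β := β) hv P hw x
  have k1 := hc v _ L σ hS (VV_cd hv P hw) hσ x V0 (hl β v om P h0 h1 hv hw x)
  have k2 := VV_t (β := β) (om := om) hv P x
  have hp := pb_pos hS β x
  have k3 : VV β v P om x * SO v x ≤
      (τ ^ 2 * P.F (pb β v x * tt v x) + P.F (pb β v x * u x) / τ) * om x := by
    refine (mul_le_mul_of_nonneg_left (hb x).2.2 V0).trans (le_trans (le_of_eq ?_)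
      (mul_le_mul_of_nonneg_right (P.youngW (Y_pos hv x) (mul_nonneg hp.le (hb x).1) hτ τ1)
        (hw.pos x).le))
    rw [VV]; ring
  have F0 : 0 ≤ P.F (pb β v x * tt v x) * om x := mul_nonneg (P.nonneg (Y_pos hv x).le) (hw.pos x).le
  have k4 := mul_le_mul_of_nonneg_left k3 A0.le
  have k5 := mul_le_mul_of_nonneg_right sσ F0
  have k6 := mul_le_mul_of_nonneg_right sτ F0
  have k7 : VV β v P om x * (σ * C * tt v x ^ 2) = σ * C * (P.F (pb β v x * tt v x) * om x) := by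
    rw [← k2]; ring
  have k8 : A * ((τ ^ 2 * P.F (pb β v x * tt v x) + P.F (pb β v x * u x) / τ) * om x) =
      A * τ ^ 2 * (P.F (pb β v x * tt v x) * om x) + A / τ * (P.F (pb β v x * u x) * om x) := by
    ring
  have k9 : VV β v P om x * os v x = VV β v P om x * (SD v x - (L + 1 / σ) * SO v x -
      σ * C * tt v x ^ 2) + A * (VV β v P om x * SO v x) +
      VV β v P om x * (σ * C * tt v x ^ 2) := by
    rw [os_eq, hA]; ring
  linarith

/-- the source term of the global estimate -/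
theorem step2 (hv : Pos v) (h0 : 0 ≤ β) (P : Prof) (hw : Wt lam om) {y : EE n → ℝ}
    (hy : Continuous y) {K M e η s : ℝ} (hK : 1 ≤ K) (he : 0 < e) (hη : 0 ≤ η) (hη1 : η ≤ 1)
    (hs : √e + η ≤ s) (hs1 : s ≤ 1) (hM : 1 ≤ M) (hb : ∀ x, 0 ≤ y x ∧ y x ≤ M) :
    ∫ x, P.F (pb β v x * (K * y x + K * (√(tt v x) + η) * tt v x)) * om x ≤
      8 * K ^ 3 * (∫ x, P.F (pb β v x * y x) * (cut e v x ^ 2 * om x)) +
        8 * K ^ 3 * s ^ 2 * TT β v P om + (3 * K * M) ^ 3 * BAD β v P om e := by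
  have hS := hv.toSol
  have i1 := integ_TT hS h0 P hw
  have i3 := integ_bad hS h0 P hw e
  have i2 : Integrable fun x => P.F (pb β v x * y x) * (cut e v x ^ 2 * om x) := by
    refine (integ_F hS h0 P hw hy hb).mono' ((P.cont ((pb_cont hS β).mul hy) fun x =>
      mul_nonneg (pb_pos hS β x).le (hb x).1).mul
        (((cut_cont hS e).pow 2).mul hw.cont)).aestronglyMeasurable (ae_of_all _ fun x => ?_)
    have F0 := P.nonneg (mul_nonneg (pb_pos hS β x).le (hb x).1)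
    have := hw.pos x
    rw [Real.norm_eq_abs, abs_of_nonneg (by positivity)]
    exact mul_le_mul_of_nonneg_left (mul_le_of_le_one_left this.le (cut_sq_le_one e v x)) F0
  have i4 : Integrable fun x => 8 * K ^ 3 * (P.F (pb β v x * y x) * (cut e v x ^ 2 * om x)) +
      8 * K ^ 3 * s ^ 2 * (P.F (pb β v x * tt v x) * om x) :=
    (i2.const_mul _).add (i1.const_mul _)
  rw [TT, BAD_eq hS, ← integral_const_mul, ← integral_const_mul, ← integral_const_mul,
    ← integral_add (i2.const_mul _) (i1.const_mul _), ← integral_add i4 (i3.const_mul _)]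
  refine integral_mono_of_nonneg (ae_of_all _ fun x => ?_)
    (i4.add (i3.const_mul _)) (ae_of_all _ fun x => ?_)
  · have := pb_pos hS β x
    have := hv.tpos x
    have := (hb x).1
    exact mul_nonneg (P.nonneg (by positivity)) (hw.pos x).le
  have hp := pb_pos hS β x
  have ht := hv.tpos x
  have ht1 := tt_le_one v x
  have y0 := (hb x).1
  have ho := hw.pos x
  have s0 : 0 ≤ s := le_trans (by positivity) hs
  have p1 : 0 ≤ 8 * K ^ 3 * (P.F (pb β v x * y x) * (cut e v x ^ 2 * om x)) := by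
    have := P.nonneg (mul_nonneg hp.le y0); positivity
  have p2 : 0 ≤ 8 * K ^ 3 * s ^ 2 * (P.F (pb β v x * tt v x) * om x) := by
    have := P.nonneg (mul_pos hp ht).le; positivity
  have p3 : 0 ≤ (3 * K * M) ^ 3 * bad β v P om e x :=
    mul_nonneg (by positivity) (bad_nonneg hS P hw e x)
  beta_reduce
  rcases le_total e (tt v x) with h | h
  · have q1 : (√(tt v x) + η) * tt v x ≤ 2 * M := by
      have := Ok.sqrt_le (v := v) x
      nlinarith [Real.sqrt_nonneg (tt v x)]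
    have q2 : P.F (pb β v x * (K * y x + K * (√(tt v x) + η) * tt v x)) ≤
        (3 * K * M) ^ 3 * P.F (pb β v x) := by
      refine P.le_of_le_mul (by nlinarith) (by positivity) hp.le ?_
      rw [mul_comm _ (pb β v x)]
      refine mul_le_mul_of_nonneg_left ?_ hp.le
      nlinarith [mul_le_mul_of_nonneg_left q1 (zero_le_one.trans hK),
        mul_le_mul_of_nonneg_left (hb x).2 (zero_le_one.trans hK)]
    rw [bad_of_le h]
    nlinarith [mul_le_mul_of_nonneg_right q2 ho.le]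
  · have q0 : √(tt v x) + η ≤ s := le_trans (by gcongr) hs
    have q1 := P.add_le (a := pb β v x * (K * y x))
      (b := pb β v x * (K * (√(tt v x) + η) * tt v x)) (by positivity) (by positivity)
    have q2 : P.F (pb β v x * (K * y x)) ≤ K ^ 3 * P.F (pb β v x * y x) :=
      P.le_of_le_mul hK (by positivity) (by positivity) (le_of_eq (by ring))
    have q3 : P.F (pb β v x * (K * (√(tt v x) + η) * tt v x)) ≤
        K ^ 3 * s ^ 2 * P.F (pb β v x * tt v x) := by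
      refine P.le_of_le_small hK s0 hs1 (by positivity) (by positivity) ?_
      calc _ = K * ((√(tt v x) + η) * (pb β v x * tt v x)) := by ring
        _ ≤ _ := by gcongr
    rw [← mul_add] at q1
    rw [cut_one he h]
    nlinarith [mul_le_mul_of_nonneg_right (q1.trans
      (mul_le_mul_of_nonneg_left (add_le_add q2 q3) (by norm_num))) ho.le]

end Om

open Om in
/-- **OM** -/
theorem omS (hk : HKStmt n) (hG : GEStmt n) (hN : NP1Stmt n) : OMStmt n := by
  intro β δ h0 h1 hδ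
  obtain ⟨lG, CG, lG0, CG0, hG⟩ := hG β h0 h1
  obtain ⟨K, hK, hu⟩ := exists_u hk
  obtain ⟨Ky, hKy, hy⟩ := ybS hk
  obtain ⟨D, D0, hD⟩ := step1 hk (half_pos hδ)
  set E : ℝ := D * CG * (8 * K ^ 3) with hE
  have E0 : 0 ≤ E := by positivity
  obtain ⟨s, s0, s1, ss⟩ : ∃ s : ℝ, 0 < s ∧ s ≤ 1 ∧ E * s ≤ δ / 4 := by
    refine ⟨min 1 (δ / 4 / (E + 1)), by positivity, min_le_left _ _, ?_⟩
    have h1 : min 1 (δ / 4 / (E + 1)) ≤ δ / 4 / (E + 1) := min_le_right _ _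
    have h3 : 0 < min 1 (δ / 4 / (E + 1)) := by positivity
    rw [le_div_iff₀ (by positivity)] at h1
    nlinarith
  obtain ⟨e1, l1, e10, l10, hN⟩ := hN β (2 * Ky) s h0 h1 s0
  refine ⟨E * 200, min e1 ((s / 2) ^ 2), min (min lG l1) 1, by positivity, by positivity,
    by positivity, fun e he hee => ?_⟩
  obtain ⟨C, C0, hN⟩ := hN e he (hee.trans (min_le_left _ _))
  refine ⟨E * C + D * CG * (3 * K * (2 * Ky)) ^ 3, by positivity,
    fun v P om ε hv hw hε hε1 => ?_⟩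
  have hS := hv.toSol
  have w1 : Wt 1 om := hw.mono (min_le_right _ _)
  have wG : Wt lG om := hw.mono ((min_le_left _ _).trans (min_le_left _ _))
  have wN : Wt l1 om := hw.mono ((min_le_left _ _).trans (min_le_right _ _))
  obtain ⟨u, us, ub⟩ := hu v (s / 2) ε hv (half_pos s0) (by linarith)
  obtain ⟨yc, yb'⟩ := hy v ε hv hε
  have y2 : ∀ x, yb v ε x ≤ 2 * Ky := fun x => (yb' x).2.1.trans (by
    have := tt_le_one v x
    nlinarith)
  have a1 := hD β v om u P K h0 h1 hv w1 us.continuous fun x =>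
    ⟨(ub x).1.le, (ub x).2.1, (ub x).2.2.2.1⟩
  have a2 := hG v P om u (fun x => K * yb v ε x + K * (√(tt v x) + s / 2) * tt v x)
    (4 * K * Ky) hS wG (contDiff_infty.1 us 2)
    ((continuous_const.mul yc.continuous).add ((continuous_const.mul
      (hS.continuous_tt.sqrt.add continuous_const)).mul hS.continuous_tt))
    (fun x => by
      have := (yb' x).1
      have ht := hv.tpos x
      have ht1 := tt_le_one v x
      have q1 : (√(tt v x) + s / 2) * tt v x ≤ 2 * Ky := by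
        have := Ok.sqrt_le (v := v) x
        nlinarith [Real.sqrt_nonneg (tt v x)]
      have hKK : K ≤ 4 * K * Ky := by nlinarith
      refine ⟨(ub x).1, (ub x).2.1.trans hKK, (ub x).2.2.1.trans hKK, by positivity, ?_⟩
      nlinarith [mul_le_mul_of_nonneg_left q1 (zero_le_one.trans hK),
        mul_le_mul_of_nonneg_left (y2 x) (zero_le_one.trans hK)])
    fun x => (ub x).2.2.2.2
  have hse : √e + s / 2 ≤ s := by
    have : √e ≤ s / 2 := Real.sqrt_le_iff.2 ⟨by linarith, hee.trans (min_le_right _ _)⟩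
    linarith
  have a3 := step2 hv h0 P w1 yc.continuous hK he (half_pos s0).le (by linarith) hse s1
    (M := 2 * Ky) (by linarith) fun x => ⟨(yb' x).1.le, y2 x⟩
  have a4 := hN v P om (yb v ε) hv wN yc (fun x => ⟨(yb' x).1, y2 x⟩) fun x _ =>
    (yb' x).2.2.1.trans (by
      have := hv.tpos x
      gcongr
      linarith)
  have T0 := TT_nonneg (β := β) hS P w1
  have b1 := mul_le_mul_of_nonneg_left a2 D0
  have b2 := mul_le_mul_of_nonneg_left a3 (mul_nonneg D0 CG0)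
  have b3 := mul_le_mul_of_nonneg_left a4 E0
  have b4 := mul_le_mul_of_nonneg_right ss T0
  have b5 : E * s ^ 2 * TT β v P om ≤ E * s * TT β v P om := by
    gcongr
    nlinarith
  rw [hE] at b3 b4 b5 ⊢
  linarith

end

end Crest.Agent.N067.Y
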